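import Vale.Agent.P284.H10.S4d
import Vale.Agent.P271.H408.Ext

/-!
# P284 (helper335): `L²` removable singularities

A closed set `S` of `ℂᵏ⁺¹` which is covered by countably many differentiable images of subsets of
`ℂᵏ` (`Cov k S`) is removable for holomorphic functions which are locally square integrable.
-/

open Set Filter Topology Module Metric MeasureTheory
open scoped ContDiff ENNReal NNReal

noncomputable section

namespace Vale.Agent.P284.H335

open Vale.Agent.P284.H10 Vale.Agent.P271.H408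

/-! ### One variable -/

/-- A set all of whose points are isolated is countable. -/
lemma countable_of_isolated {E : Type*} [TopologicalSpace E] [SecondCountableTopology E]
    {S : Set E} (h : ∀ x ∈ S, ∀ᶠ y in 𝓝[≠] x, y ∉ S) : S.Countable := by
  have h1 : ∀ x ∈ S, ∃ V ∈ 𝓝[S] x, V ⊆ {x} := by
    intro x hx
    have h2 := h x hx
    rw [eventually_nhdsWithin_iff] at h2
    refine ⟨{y | y ∈ S ∧ y = x}, ?_, fun y hy => hy.2⟩
    filter_upwards [mem_nhdsWithin_of_mem_nhds h2, self_mem_nhdsWithin] with y hy1 hy2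
    refine ⟨hy2, ?_⟩
    by_contra hne
    exact hy1 hne hy2
  choose! V hV hVs using h1
  obtain ⟨t, ht, htc, hcov⟩ := TopologicalSpace.countable_cover_nhdsWithin hV
  refine htc.mono fun y hy => ?_
  obtain ⟨x, hx, hyx⟩ := mem_iUnion₂.1 (hcov hy)
  rw [hVs x (ht hx) hyx]
  exact hx

/-- A nonempty countable set which is closed in an open set of `ℂ` has an isolated point. -/
lemma exists_isolated {D B : Set ℂ} (hD : IsOpen D) (hBD : B ⊆ D) (hB : IsOpen (D \ B))
    (hc : B.Countable) (hne : B.Nonempty) : ∃ c ∈ B, ∀ᶠ y in 𝓝[≠] c, y ∉ B := by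
  obtain ⟨b, hb⟩ := hne
  obtain ⟨r, hr, hrD⟩ := Metric.nhds_basis_closedBall.mem_iff.1 (hD.mem_nhds (hBD hb))
  set B' : Set ℂ := B ∩ closedBall b r with hB'
  have hcl : IsClosed B' := by
    have h1 : B' = (D \ B)ᶜ ∩ closedBall b r := by
      ext y
      constructor
      · rintro ⟨h1, h2⟩
        exact ⟨fun h3 => h3.2 h1, h2⟩
      · rintro ⟨h1, h2⟩
        refine ⟨?_, h2⟩
        by_contra h3
        exact h1 ⟨hrD h2, h3⟩
    rw [h1]
    exact hB.isClosed_compl.inter isClosed_closedBall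
  have : CompleteSpace B' := hcl.completeSpace_coe
  have hcount : Countable B' := (hc.mono inter_subset_left).to_subtype
  have hdense := dense_iUnion_interior_of_closed (X := B') (f := fun x : B' => ({x} : Set B'))
    (fun _ => isClosed_singleton) (by ext x; simp)
  have hbB' : b ∈ B' := ⟨hb, mem_closedBall_self hr.le⟩
  have hO : IsOpen {x : B' | (x : ℂ) ∈ ball b r} := isOpen_ball.preimage continuous_subtype_val
  obtain ⟨x, hx1, hx2⟩ := hdense.inter_open_nonempty _ hO ⟨⟨b, hbB'⟩, mem_ball_self hr⟩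
  obtain ⟨y, hy⟩ := mem_iUnion.1 hx2
  have hyx' : x ∈ ({y} : Set B') := interior_subset hy
  have hyx : x = y := hyx'
  subst hyx
  have h3 : ({x} : Set B') ∈ 𝓝 x := mem_interior_iff_mem_nhds.1 hy
  rw [nhds_subtype_eq_comap, mem_comap] at h3
  obtain ⟨t, ht, hts⟩ := h3
  refine ⟨x, x.2.1, ?_⟩
  rw [eventually_nhdsWithin_iff]
  filter_upwards [ht, isOpen_ball.mem_nhds hx1] with z hz1 hz2 hne hzB
  have hzB' : z ∈ B' := ⟨hzB, ball_subset_closedBall hz2⟩
  have h4 := hts (show (⟨z, hzB'⟩ : B') ∈ _ from hz1)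
  exact hne (congrArg Subtype.val h4)

/-- **Countable closed sets are removable for square integrable holomorphic functions.** -/
theorem removable_countable {g : ℂ → ℂ} {D Z : Set ℂ} (hD : IsOpen D) (hZ : IsOpen (D \ Z))
    (hZc : (D ∩ Z).Countable) (hg : DifferentiableOn ℂ g (D \ Z))
    (hL : ∫⁻ t in D \ Z, ‖g t‖ₑ ^ 2 ≠ ⊤) :
    ∃ G : ℂ → ℂ, DifferentiableOn ℂ G D ∧ Set.EqOn G g (D \ Z) := by
  have hnull : volume (D ∩ Z) = 0 := hZc.measure_zero volume
  -- the filters `𝓝[Zᶜ] t` are nontrivial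
  have hbot : ∀ t ∈ D, (𝓝[Zᶜ] t).NeBot := by
    intro t ht
    rw [← mem_closure_iff_nhdsWithin_neBot, _root_.mem_closure_iff]
    intro O hO htO
    have h1 : 0 < volume (O ∩ D) := (hO.inter hD).measure_pos volume ⟨t, htO, ht⟩
    by_contra h2
    rw [not_nonempty_iff_eq_empty] at h2
    have h3 : O ∩ D ⊆ D ∩ Z := by
      intro y hy
      refine ⟨hy.2, ?_⟩
      by_contra hyZ
      have : y ∈ O ∩ Zᶜ := ⟨hy.1, hyZ⟩
      rw [h2] at this
      exact this
    exact h1.ne' (measure_mono_null h3 hnull)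
  set G : ℂ → ℂ := fun t => limUnder (𝓝[Zᶜ] t) g with hG
  -- the removable points
  set O : Set ℂ := {t | ∃ r > 0, ball t r ⊆ D ∧ ∃ h : ℂ → ℂ, DifferentiableOn ℂ h (ball t r) ∧
    EqOn h g (ball t r \ Z)} with hOdef
  have hOG : ∀ t (r : ℝ) (h : ℂ → ℂ), ball t r ⊆ D → DifferentiableOn ℂ h (ball t r) →
      EqOn h g (ball t r \ Z) → EqOn G h (ball t r) := by
    intro t r h hr hh he y hy
    have := hbot y (hr hy)
    have h1 : Tendsto h (𝓝[Zᶜ] y) (𝓝 (h y)) :=
      ((hh.differentiableAt (isOpen_ball.mem_nhds hy)).continuousAt.tendsto).mono_left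
        nhdsWithin_le_nhds
    have h2 : Tendsto g (𝓝[Zᶜ] y) (𝓝 (h y)) := by
      refine h1.congr' ?_
      filter_upwards [self_mem_nhdsWithin, mem_nhdsWithin_of_mem_nhds (isOpen_ball.mem_nhds hy)]
        with z hz1 hz2
      exact he ⟨hz2, hz1⟩
    exact h2.limUnder_eq
  have hOo : IsOpen O := by
    rw [Metric.isOpen_iff]
    rintro t ⟨r, hr, hrD, h, hh, he⟩
    refine ⟨r / 2, by positivity, ?_⟩
    intro y hy
    have hsub : ball y (r / 2) ⊆ ball t r := by
      intro z hz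
      rw [mem_ball] at hy hz ⊢
      linarith [dist_triangle z y t]
    exact ⟨r / 2, by positivity, hsub.trans hrD, h, hh.mono hsub, he.mono (sdiff_subset_sdiff_left hsub)⟩
  have hOD : O ⊆ D := fun t ⟨r, hr, hrD, _⟩ => hrD (mem_ball_self hr)
  have hDO : D \ Z ⊆ O := by
    intro t ht
    obtain ⟨r, hr, hsub⟩ := Metric.isOpen_iff.1 hZ t ht
    exact ⟨r, hr, hsub.trans sdiff_subset, g, hg.mono hsub, fun y _ => rfl⟩
  have hGO : DifferentiableOn ℂ G O := by
    rintro t ⟨r, hr, hrD, h, hh, he⟩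
    have h1 : DifferentiableAt ℂ h t := hh.differentiableAt (ball_mem_nhds t hr)
    refine (h1.congr_of_eventuallyEq ?_).differentiableWithinAt
    filter_upwards [ball_mem_nhds t hr] with y hy
    exact hOG t r h hrD hh he hy
  have hGg : EqOn G g (D \ Z) := by
    intro t ht
    obtain ⟨r, hr, hsub⟩ := Metric.isOpen_iff.1 hZ t ht
    exact hOG t r g (hsub.trans sdiff_subset) (hg.mono hsub) (fun y _ => rfl) (mem_ball_self hr)
  have hall : D ⊆ O := by
    by_contra hcon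
    obtain ⟨b, hbD, hbO⟩ := not_subset.1 hcon
    have hB1 : D \ O ⊆ D ∩ Z := by
      intro y hy
      refine ⟨hy.1, ?_⟩
      by_contra hyZ
      exact hy.2 (hDO ⟨hy.1, hyZ⟩)
    have hB2 : D \ (D \ O) = O := by
      rw [sdiff_sdiff_right_self]
      exact inter_eq_self_of_subset_right hOD
    obtain ⟨c, hc, hiso⟩ := exists_isolated hD sdiff_subset (by rw [hB2]; exact hOo)
      (hZc.mono hB1) ⟨b, hbD, hbO⟩
    have h5 : ∀ᶠ y in 𝓝[≠] c, y ∈ O := by
      filter_upwards [hiso, mem_nhdsWithin_of_mem_nhds (hD.mem_nhds hc.1)] with y hy1 hy2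
      by_contra hyO
      exact hy1 ⟨hy2, hyO⟩
    rw [eventually_nhdsWithin_iff, Metric.eventually_nhds_iff_ball] at h5
    obtain ⟨δ', hδ', h5⟩ := h5
    obtain ⟨δ'', hδ'', h6⟩ := Metric.isOpen_iff.1 hD c hc.1
    set δ := min δ' δ'' with hδdef
    have hδ : 0 < δ := lt_min hδ' hδ''
    have hsubD : ball c δ ⊆ D := (ball_subset_ball (min_le_right _ _)).trans h6
    have hsubO : ball c δ \ {c} ⊆ O := fun y hy =>
      h5 y (ball_subset_ball (min_le_left _ _) hy.1) hy.2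
    have hLG : ∫⁻ t in ball c δ \ {c}, ‖G t‖ₑ ^ 2 ≠ ⊤ := by
      refine ne_top_of_le_ne_top hL ?_
      calc ∫⁻ t in ball c δ \ {c}, ‖G t‖ₑ ^ 2
          ≤ ∫⁻ t in (D \ Z) ∪ (D ∩ Z), ‖G t‖ₑ ^ 2 := by
            refine lintegral_mono_set fun y hy => ?_
            by_cases hyZ : y ∈ Z
            · exact Or.inr ⟨hsubD hy.1, hyZ⟩
            · exact Or.inl ⟨hsubD hy.1, hyZ⟩
        _ ≤ (∫⁻ t in D \ Z, ‖G t‖ₑ ^ 2) + ∫⁻ t in D ∩ Z, ‖G t‖ₑ ^ 2 := lintegral_union_le _ _ _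
        _ = ∫⁻ t in D \ Z, ‖g t‖ₑ ^ 2 := by
            rw [setLIntegral_measure_zero _ _ hnull, add_zero]
            refine setLIntegral_congr_fun hZ.measurableSet fun y hy => ?_
            rw [hGg hy]
    obtain ⟨H, hH1, hH2⟩ := removable_L2_one (g := G) (D := ball c δ) (Z := {c}) isOpen_ball
      (fun y _ => by
        by_cases hyc : y = c
        · rw [hyc]
          exact self_mem_nhdsWithin
        · exact eventually_nhdsWithin_of_eventually_nhds (by
            filter_upwards [isOpen_compl_singleton.mem_nhds (show y ∈ ({c} : Set ℂ)ᶜ from hyc)]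
              with z hz using hz))
      (hGO.mono hsubO) hLG
    refine hc.2 ⟨δ, hδ, hsubD, ?_⟩
    have := hbot c hc.1
    -- `H` agrees with `g` off `Z`, also at `c`
    refine ⟨H, hH1, fun y hy => ?_⟩
    by_cases hyc : y = c
    · subst hyc
      exact absurd (hDO ⟨hc.1, hy.2⟩) hc.2
    · rw [hH2 ⟨hy.1, hyc⟩]
      exact hGg ⟨hsubD hy.1, hy.2⟩
  exact ⟨G, hGO.mono hall, hGg⟩

/-! ### Countable fibres -/

section fibres
variable {P V : Type} [NormedAddCommGroup P] [NormedSpace ℝ P] [FiniteDimensional ℝ P]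
  [NormedAddCommGroup V] [NormedSpace ℝ V] [FiniteDimensional ℝ V] [MeasurableSpace V]
  [BorelSpace V]

/-- Almost every fibre of a differentiable map between spaces of the same dimension is
countable. -/
theorem ae_countable (μ : Measure V) [μ.IsAddHaarMeasure] {ψ : P → V} {T : Set P}
    (hfr : finrank ℝ P = finrank ℝ V) (h : ∀ x ∈ T, DifferentiableAt ℝ ψ x) :
    ∀ᵐ v ∂μ, (T ∩ ψ ⁻¹' {v}).Countable := by
  set B : Set P := {x | x ∈ T ∧ ∃ z : P, z ≠ 0 ∧ fderiv ℝ ψ x z = 0} with hB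
  have h1 : μ (ψ '' B) = 0 :=
    Vale.Agent.P231.H649.sard_ker μ hfr.le (fun x hx => h x hx.1) (fun x hx => Or.inr hx.2)
  have h2 : ∀ᵐ v ∂μ, v ∉ ψ '' B := measure_eq_zero_iff_ae_notMem.1 h1
  filter_upwards [h2] with v hv
  refine countable_of_isolated ?_
  rintro x ⟨hxT, hxv⟩
  have hxv' : ψ x = v := hxv
  have hinj : Function.Injective (fderiv ℝ ψ x) := by
    rw [injective_iff_map_eq_zero]
    intro z hz
    by_contra hne
    exact hv ⟨x, ⟨hxT, z, hne, hz⟩, hxv'⟩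
  obtain ⟨C, -, hC⟩ := (fderiv ℝ ψ x).toLinearMap.exists_antilipschitzWith
    (LinearMap.ker_eq_bot.2 hinj)
  have h3 := (h x hxT).hasFDerivAt.eventually_ne (c := v) ⟨C, hC⟩
  filter_upwards [h3] with y hy hyS
  exact hy hyS.2

end fibres

section cov
variable {k : ℕ} {S : Set (Fin (k + 1) → ℂ)}

/-- Almost every line in a fixed direction meets a `Cov k` set in a countable set. -/
theorem ae_line (hS : Cov k S) (v : Fin (k + 1) → ℂ) :
    ∀ᵐ z ∂(volume : Measure (Fin (k + 1) → ℂ)), {t : ℂ | z + t • v ∈ S}.Countable := by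
  obtain ⟨G, T, h1, h2⟩ := hS
  have h3 : ∀ i, ∀ᵐ z ∂(volume : Measure (Fin (k + 1) → ℂ)),
      ((T i ×ˢ (univ : Set ℂ)) ∩ (fun q : (Fin k → ℂ) × ℂ => G i q.1 - q.2 • v) ⁻¹' {z}).Countable := by
    intro i
    refine ae_countable volume ?_ ?_
    · rw [finrank_real_of_complex, finrank_real_of_complex, finrank_prod]
      simp
    · rintro ⟨x, t⟩ ⟨hx, -⟩
      have h4 : DifferentiableAt ℝ (fun q : (Fin k → ℂ) × ℂ => G i q.1) (x, t) :=
        ((h1 i x hx).restrictScalars ℝ).comp (x, t) differentiableAt_fst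
      have h5 : DifferentiableAt ℝ (fun q : (Fin k → ℂ) × ℂ => q.2 • v) (x, t) :=
        differentiableAt_snd.smul_const v
      exact h4.sub h5
  filter_upwards [ae_all_iff.2 h3] with z hz
  refine ((countable_iUnion fun i => (hz i).image Prod.snd)).mono ?_
  intro t ht
  obtain ⟨i, x, hx, hxt⟩ := mem_iUnion.1 (h2 ht)
  refine mem_iUnion.2 ⟨i, (x, t), ⟨⟨hx, mem_univ _⟩, ?_⟩, rfl⟩
  change G i x - t • v = z
  rw [hxt]
  abel

/-- Almost every line through a fixed point meets a `Cov k` set in a countable set. -/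
theorem ae_line_through (hS : Cov k S) (p : Fin (k + 1) → ℂ) :
    ∀ᵐ v ∂(volume : Measure (Fin (k + 1) → ℂ)), {t : ℂ | t ≠ 0 ∧ p + t • v ∈ S}.Countable := by
  obtain ⟨G, T, h1, h2⟩ := hS
  have h3 : ∀ i, ∀ᵐ z ∂(volume : Measure (Fin (k + 1) → ℂ)),
      ((T i ×ˢ (univ : Set ℂ)) ∩
        (fun q : (Fin k → ℂ) × ℂ => q.2 • (G i q.1 - p)) ⁻¹' {z}).Countable := by
    intro i
    refine ae_countable volume ?_ ?_
    · rw [finrank_real_of_complex, finrank_real_of_complex, finrank_prod]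
      simp
    · rintro ⟨x, t⟩ ⟨hx, -⟩
      have h4 : DifferentiableAt ℝ (fun q : (Fin k → ℂ) × ℂ => G i q.1) (x, t) :=
        ((h1 i x hx).restrictScalars ℝ).comp (x, t) differentiableAt_fst
      have h5 : DifferentiableAt ℝ (fun q : (Fin k → ℂ) × ℂ => q.2) (x, t) :=
        differentiableAt_snd
      exact h5.smul (h4.sub_const p)
  filter_upwards [ae_all_iff.2 h3] with v hv
  refine ((countable_iUnion fun i => (hv i).image fun q => q.2⁻¹)).mono ?_
  rintro t ⟨ht0, ht⟩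
  obtain ⟨i, x, hx, hxt⟩ := mem_iUnion.1 (h2 ht)
  refine mem_iUnion.2 ⟨i, (x, t⁻¹), ⟨⟨hx, mem_univ _⟩, ?_⟩, inv_inv t⟩
  change t⁻¹ • (G i x - p) = v
  rw [hxt, add_sub_cancel_left, smul_smul, inv_mul_cancel₀ ht0, one_smul]

/-- A small circle around `p`, in some complex direction, which misses `S`. -/
theorem exists_circle_cov (hS : Cov k S) (p : Fin (k + 1) → ℂ) {r : ℝ} (hr : 0 < r) :
    ∃ (v : Fin (k + 1) → ℂ) (s : ℝ), 0 < s ∧ s * ‖v‖ < r ∧
      ∀ t ∈ sphere (0 : ℂ) s, p + t • v ∉ S := by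
  have h1 : ∃ v ∈ ball (0 : Fin (k + 1) → ℂ) r, {t : ℂ | t ≠ 0 ∧ p + t • v ∈ S}.Countable := by
    by_contra hcon
    push Not at hcon
    have h2 : 0 < volume (ball (0 : Fin (k + 1) → ℂ) r) := measure_ball_pos volume 0 hr
    refine h2.ne' (measure_mono_null (fun v hv => ?_) (ae_iff.1 (ae_line_through hS p)))
    exact hcon v hv
  obtain ⟨v, hv, hc⟩ := h1
  have h3 : ((fun t : ℂ => ‖t‖) '' {t : ℂ | t ≠ 0 ∧ p + t • v ∈ S}).Countable := hc.image _
  have h4 : ∃ s ∈ Ioo (1 / 2 : ℝ) 1, s ∉ (fun t : ℂ => ‖t‖) '' {t : ℂ | t ≠ 0 ∧ p + t • v ∈ S} := by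
    by_contra hcon
    push Not at hcon
    have h5 : (Ioo (1 / 2 : ℝ) 1).Countable := h3.mono hcon
    have h6 : volume (Ioo (1 / 2 : ℝ) 1) = 0 := h5.measure_zero volume
    rw [Real.volume_Ioo] at h6
    norm_num at h6
  obtain ⟨s, ⟨hs1, hs2⟩, hs3⟩ := h4
  have hs0 : 0 < s := by linarith
  refine ⟨v, s, hs0, ?_, ?_⟩
  · rw [mem_ball_zero_iff] at hv
    nlinarith [norm_nonneg v]
  · intro t ht htS
    rw [mem_sphere_zero_iff_norm] at ht
    refine hs3 ⟨t, ⟨?_, htS⟩, ht⟩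
    rintro rfl
    rw [norm_zero] at ht
    linarith

/-! ### Several variables -/

/-- Cauchy formula across a countable set of square integrable singularities. -/
theorem ext_point_cov {g : ℂ → ℂ} {Z : Set ℂ} {s s' : ℝ} (hs : 0 < s) (hss' : s < s')
    (hZ : IsOpen (ball (0 : ℂ) s' \ Z)) (hZc : Z.Countable) (h0 : (0 : ℂ) ∉ Z)
    (hsZ : ∀ t ∈ sphere (0 : ℂ) s, t ∉ Z)
    (hg : DifferentiableOn ℂ g (ball (0 : ℂ) s' \ Z))
    (hL : ∫⁻ t in ball (0 : ℂ) s' \ Z, ‖g t‖ₑ ^ 2 ≠ ⊤) :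
    (2 * Real.pi * Complex.I : ℂ)⁻¹ • (∮ t in C(0, s), t⁻¹ * g t) = g 0 := by
  have hs'0 : 0 < s' := hs.trans hss'
  obtain ⟨G, hGd, hGe⟩ := removable_countable isOpen_ball hZ (hZc.mono inter_subset_right) hg hL
  have hclosed : closedBall (0 : ℂ) s ⊆ ball 0 s' := closedBall_subset_ball hss'
  have hcauchy := (hGd.mono hclosed).circleIntegral_sub_inv_smul (w := 0)
    (mem_ball_self hs)
  have hG0 : G 0 = g 0 := hGe ⟨mem_ball_self hs'0, h0⟩
  have hcirc2 : ∮ t in C(0, s), t⁻¹ * g t = ∮ t in C(0, s), (t - 0)⁻¹ • G t := by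
    apply circleIntegral.integral_congr hs.le
    intro t ht
    have h2 : t ∈ ball (0 : ℂ) s' \ Z := ⟨hclosed (sphere_subset_closedBall ht), hsZ t ht⟩
    simp only [sub_zero, smul_eq_mul]
    rw [hGe h2]
  rw [hcirc2, hcauchy, hG0, smul_smul, inv_mul_cancel₀ Complex.two_pi_I_ne_zero, one_smul]

/-- Local extension. -/
theorem ext_local_cov (hS : Cov k S) {f : (Fin (k + 1) → ℂ) → ℂ} {p : Fin (k + 1) → ℂ} {r : ℝ}
    (hr : 0 < r) (hO : IsOpen (ball p r \ S)) (hf : DifferentiableOn ℂ f (ball p r \ S))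
    (hL : ∫⁻ z in ball p r \ S, ‖f z‖ₑ ^ 2 ≠ ⊤) :
    ∃ ρ > 0, ρ ≤ r ∧ ∃ F : (Fin (k + 1) → ℂ) → ℂ, DifferentiableOn ℂ F (ball p ρ) ∧
      ∀ z ∈ ball p ρ, z ∉ S → F z = f z := by
  obtain ⟨v, s, hs, hsr, hcirc⟩ := exists_circle_cov hS p hr
  have hΨc : Continuous (fun q : (Fin (k + 1) → ℂ) × ℂ => q.1 + q.2 • v) := by fun_prop
  have htube : ({p} : Set (Fin (k + 1) → ℂ)) ×ˢ sphere (0 : ℂ) s ⊆
      (fun q : (Fin (k + 1) → ℂ) × ℂ => q.1 + q.2 • v) ⁻¹' (ball p r \ S) := by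
    rintro ⟨z, t⟩ ⟨hz, ht⟩
    rw [Set.mem_singleton_iff] at hz
    have hz' : z = p := hz
    have ht' : t ∈ sphere (0 : ℂ) s := ht
    subst hz'
    refine ⟨?_, hcirc t ht'⟩
    rw [mem_sphere_zero_iff_norm] at ht'
    rw [mem_ball, dist_eq_norm, add_sub_cancel_left, norm_smul, ht']
    exact hsr
  obtain ⟨A, T, hA, hT, hpA, hsT, hAT⟩ := generalized_tube_lemma isCompact_singleton
    (isCompact_sphere (0 : ℂ) s) (hO.preimage hΨc) htube
  have hpA' : p ∈ A := hpA rfl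
  obtain ⟨ρ₁, hρ₁, hρA⟩ := Metric.isOpen_iff.1 hA p hpA'
  obtain ⟨s', hss', hs'r⟩ : ∃ s' : ℝ, s < s' ∧ s' * ‖v‖ < r := by
    have h1 : ContinuousAt (fun s' : ℝ => s' * ‖v‖) s := by fun_prop
    have h2 : ∀ᶠ s' in 𝓝[>] s, s' * ‖v‖ < r :=
      (h1.eventually (gt_mem_nhds hsr)).filter_mono nhdsWithin_le_nhds
    obtain ⟨s', h3, h4⟩ := (h2.and self_mem_nhdsWithin).exists
    exact ⟨s', h4, h3⟩
  obtain ⟨ρ, hρdef⟩ : ∃ ρ, ρ = min (min ρ₁ r) (r - s' * ‖v‖) := ⟨_, rfl⟩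
  have hρ0 : 0 < ρ := by
    rw [hρdef]
    exact lt_min (lt_min hρ₁ hr) (by linarith)
  have hρr : ρ ≤ r := by
    rw [hρdef]
    exact (min_le_left _ _).trans (min_le_right _ _)
  have hρ1 : ρ ≤ ρ₁ := by
    rw [hρdef]
    exact (min_le_left _ _).trans (min_le_left _ _)
  have hρ2 : ρ ≤ r - s' * ‖v‖ := by
    rw [hρdef]
    exact min_le_right _ _
  have hATO : ∀ z ∈ ball p ρ, ∀ t ∈ T, z + t • v ∈ ball p r \ S := by
    intro z hz t ht
    have hzA : z ∈ A := hρA (ball_subset_ball hρ1 hz)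
    have h5 := hAT (Set.mk_mem_prod hzA ht)
    rw [Set.mem_preimage] at h5
    exact h5
  have hin : ∀ z ∈ ball p ρ, ∀ t ∈ ball (0 : ℂ) s', z + t • v ∈ ball p r := by
    intro z hz t ht
    rw [mem_ball_zero_iff] at ht
    rw [mem_ball, dist_eq_norm] at hz ⊢
    have h1 : ‖t • v‖ ≤ s' * ‖v‖ := by
      rw [norm_smul]; gcongr
    calc ‖z + t • v - p‖ = ‖(z - p) + t • v‖ := by congr 1; abel
      _ ≤ ‖z - p‖ + ‖t • v‖ := norm_add_le _ _
      _ < r := by linarith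
  -- the extension
  have hT' : IsOpen (T \ {0}) := hT.sdiff isClosed_singleton
  have hsT' : sphere (0 : ℂ) s ⊆ T \ {0} := by
    intro t ht
    refine ⟨hsT ht, ?_⟩
    rw [Set.mem_singleton_iff]
    intro h0
    rw [mem_sphere_zero_iff_norm, h0, norm_zero] at ht
    exact hs.ne ht
  have hFd : DifferentiableOn ℂ (fun z => (2 * Real.pi * Complex.I : ℂ)⁻¹ •
      ∮ t in C(0, s), t⁻¹ * f (z + t • v)) (ball p ρ) := by
    refine (Vale.Agent.P268.differentiableOn_circleIntegral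
      (G := fun q : (Fin (k + 1) → ℂ) × ℂ => q.2⁻¹ * f (q.1 + q.2 • v)) hs.le isOpen_ball hT' hsT'
      ?_).const_smul (2 * Real.pi * Complex.I : ℂ)⁻¹
    apply DifferentiableOn.mul
    · apply DifferentiableOn.inv (by fun_prop)
      intro q hq
      exact hq.2.2
    · refine hf.comp (by fun_prop) ?_
      rintro ⟨z, t⟩ ⟨hz, ht⟩
      exact hATO z hz t ht.1
  refine ⟨ρ, hρ0, hρr, _, hFd, ?_⟩
  -- Fubini
  have hφm : Measurable ((ball p r \ S).indicator fun z => ‖f z‖ₑ ^ 2) := by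
    classical
    have h2 := ((ENNReal.continuous_pow 2).comp_continuousOn
      hf.continuousOn.enorm).measurable_piecewise
      (g := (0 : (Fin (k + 1) → ℂ) → ℝ≥0∞)) continuousOn_const hO.measurableSet
    rwa [Set.piecewise_eq_indicator] at h2
  have hae := ext_fubini hφm (by rwa [lintegral_indicator hO.measurableSet]) v s'
  have hO' : IsOpen (ball p ρ \ S) := by
    have h1 : ball p ρ \ S = ball p ρ ∩ (ball p r \ S) := by
      ext z
      constructor
      · intro h1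
        exact ⟨h1.1, ball_subset_ball hρr h1.1, h1.2⟩
      · rintro ⟨h1, _, h2⟩
        exact ⟨h1, h2⟩
    rw [h1]
    exact isOpen_ball.inter hO
  have hsubO : ball p ρ \ S ⊆ ball p r \ S := sdiff_subset_sdiff_left (ball_subset_ball hρr)
  have hfin := eqOn_of_ae' (μ := (volume : Measure (Fin (k + 1) → ℂ))) hO'
    (hFd.continuousOn.mono sdiff_subset) (hf.continuousOn.mono hsubO) (by
      filter_upwards [hae, ae_line hS v] with z hz hzc hzO
      have hDZ : ball (0 : ℂ) s' \ {t | z + t • v ∈ S} =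
          (fun t : ℂ => z + t • v) ⁻¹' (ball p r \ S) ∩ ball 0 s' := by
        ext t
        constructor
        · rintro ⟨h1, h2⟩
          exact ⟨⟨hin z hzO.1 t h1, h2⟩, h1⟩
        · rintro ⟨h1, h2⟩
          exact ⟨h2, h1.2⟩
      have hopenDZ : IsOpen (ball (0 : ℂ) s' \ {t | z + t • v ∈ S}) := by
        rw [hDZ]
        exact (hO.preimage (by fun_prop)).inter isOpen_ball
      have hgd : DifferentiableOn ℂ (fun t : ℂ => f (z + t • v))
          (ball (0 : ℂ) s' \ {t | z + t • v ∈ S}) := by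
        rw [hDZ]
        exact hf.comp (by fun_prop) fun t ht => ht.1
      have hgL : ∫⁻ t in ball (0 : ℂ) s' \ {t | z + t • v ∈ S}, ‖f (z + t • v)‖ₑ ^ 2 ≠ ⊤ := by
        refine ne_top_of_le_ne_top hz.ne ?_
        refine le_trans (le_of_eq ?_) (lintegral_mono_set
          (Set.sdiff_subset : ball (0 : ℂ) s' \ {t | z + t • v ∈ S} ⊆ ball 0 s'))
        apply setLIntegral_congr_fun hopenDZ.measurableSet
        intro t ht
        rw [hDZ] at ht
        have h1 : z + t • v ∈ ball p r \ S := ht.1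
        beta_reduce
        rw [Set.indicator_of_mem h1]
      have h4 := ext_point_cov (g := fun t => f (z + t • v)) (Z := {t | z + t • v ∈ S}) hs hss'
        hopenDZ hzc (by simpa using hzO.2)
        (fun t ht => (hATO z hzO.1 t (hsT ht)).2) hgd hgL
      simp only [zero_smul, add_zero] at h4
      exact h4)
  exact fun z hz hzS => hfin ⟨hz, hzS⟩

lemma compl_dense (hS : Cov k S) (p : Fin (k + 1) → ℂ) : ∃ᶠ z in 𝓝 p, z ∉ S := by
  rw [Filter.frequently_iff]
  intro U hU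
  obtain ⟨O, hOU, hO, hpO⟩ := _root_.mem_nhds_iff.1 hU
  obtain ⟨z, hz1, hz2⟩ := nonempty_diff (O := O) (hS.mono inter_subset_left)
    (by simp) hO ⟨p, hpO⟩
  exact ⟨z, hOU hz1, hz2⟩

/-- **`L²` extension across thin sets**: `S` is covered by countably many differentiable images of
subsets of `ℂᵏ` and closed in the open set `U` of `ℂᵏ⁺¹`, `f` is holomorphic on `U \ S` and locally
square integrable near every point of `U`.  Then `f` extends to a holomorphic function on `U`. -/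
theorem removable_cov (hS : Cov k S) {U : Set (Fin (k + 1) → ℂ)} (hU : IsOpen U)
    (hUS : IsOpen (U \ S)) {f : (Fin (k + 1) → ℂ) → ℂ} (hf : DifferentiableOn ℂ f (U \ S))
    (hL : ∀ p ∈ U, ∃ r > 0, ∫⁻ z in ball p r \ S, ‖f z‖ₑ ^ 2 ≠ ⊤) :
    ∃ F : (Fin (k + 1) → ℂ) → ℂ, DifferentiableOn ℂ F U ∧ Set.EqOn F f (U \ S) := by
  have hloc : ∀ p : U, ∃ (ρ : ℝ) (F : (Fin (k + 1) → ℂ) → ℂ), 0 < ρ ∧
      ball (p : Fin (k + 1) → ℂ) ρ ⊆ U ∧ DifferentiableOn ℂ F (ball p ρ) ∧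
      ∀ z ∈ ball (p : Fin (k + 1) → ℂ) ρ, z ∉ S → F z = f z := by
    rintro ⟨p, hp⟩
    obtain ⟨r₁, hr₁, hr₁U⟩ := Metric.isOpen_iff.1 hU p hp
    obtain ⟨r₂, hr₂, hr₂L⟩ := hL p hp
    have hr : 0 < min r₁ r₂ := lt_min hr₁ hr₂
    have hsub1 : ball p (min r₁ r₂) ⊆ U := (ball_subset_ball (min_le_left _ _)).trans hr₁U
    have hO : IsOpen (ball p (min r₁ r₂) \ S) := by
      have h1 : ball p (min r₁ r₂) \ S = ball p (min r₁ r₂) ∩ (U \ S) := by
        ext z
        constructor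
        · rintro ⟨h1, h2⟩
          exact ⟨h1, hsub1 h1, h2⟩
        · rintro ⟨h1, _, h2⟩
          exact ⟨h1, h2⟩
      rw [h1]
      exact isOpen_ball.inter hUS
    obtain ⟨ρ, hρ, hρr, F, hF, hFe⟩ := ext_local_cov hS hr hO
      (hf.mono (sdiff_subset_sdiff_left hsub1))
      (ne_top_of_le_ne_top hr₂L (lintegral_mono_set
        (sdiff_subset_sdiff_left (ball_subset_ball (min_le_right _ _)))))
    exact ⟨ρ, F, hρ, (ball_subset_ball hρr).trans hsub1, hF, hFe⟩
  choose R F hR hRU hF hFe using hloc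
  classical
  let G : (Fin (k + 1) → ℂ) → ℂ := fun z => if hz : z ∈ U then F ⟨z, hz⟩ z else 0
  -- agreement on overlaps
  have hagree : ∀ p p' : U, Set.EqOn (F p) (F p') (ball p (R p) ∩ ball p' (R p')) := by
    intro p p' z hz
    by_contra hne'
    have hO : IsOpen (ball (p : Fin (k + 1) → ℂ) (R p) ∩ ball (p' : Fin (k + 1) → ℂ) (R p')) :=
      isOpen_ball.inter isOpen_ball
    have h1 : ContinuousAt (F p) z :=
      (hF p).continuousOn.continuousAt (isOpen_ball.mem_nhds hz.1)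
    have h2 : ContinuousAt (F p') z :=
      (hF p').continuousOn.continuousAt (isOpen_ball.mem_nhds hz.2)
    have h3 : ∀ᶠ w in 𝓝 z, F p w ≠ F p' w := (h1.ne_iff_eventually_ne h2).1 hne'
    obtain ⟨w, hw1, hw2, hw3⟩ := ((compl_dense hS z).and_eventually
      (h3.and (hO.mem_nhds hz))).exists
    exact hw2 (by rw [hFe p w hw3.1 hw1, hFe p' w hw3.2 hw1])
  have hGe : ∀ p : U, Set.EqOn G (F p) (ball p (R p)) := by
    intro p z hz
    have hzU : z ∈ U := hRU p hz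
    have h1 : G z = F ⟨z, hzU⟩ z := by simp only [G, hzU, dif_pos]
    rw [h1]
    exact hagree ⟨z, hzU⟩ p ⟨mem_ball_self (hR ⟨z, hzU⟩), hz⟩
  refine ⟨G, ?_, ?_⟩
  · intro z hz
    have h2 : DifferentiableAt ℂ (F ⟨z, hz⟩) z :=
      (hF ⟨z, hz⟩).differentiableAt (isOpen_ball.mem_nhds (mem_ball_self (hR ⟨z, hz⟩)))
    refine (h2.congr_of_eventuallyEq ?_).differentiableWithinAt
    filter_upwards [isOpen_ball.mem_nhds (mem_ball_self (hR ⟨z, hz⟩))] with w hw
    exact hGe ⟨z, hz⟩ hw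
  · rintro z ⟨hz, hzS⟩
    rw [hGe ⟨z, hz⟩ (mem_ball_self (hR ⟨z, hz⟩)), hFe ⟨z, hz⟩ z (mem_ball_self (hR ⟨z, hz⟩)) hzS]

end cov

end Vale.Agent.P284.H335
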