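import Vale.Agent.P284.H335.PushE
import Vale.Agent.P284.H661.Haar3

/-!
# P284 (helper335), push-forward ≤ Haar on the covering space
-/

namespace Vale.Agent.P284.H335

theorem pushStmt : PushStmt := push_of Vale.Agent.P284.H661.haarCocStmt

end Vale.Agent.P284.H335
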