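import Mathlib.Topology.MetricSpace.HausdorffDimension
import Mathlib.Analysis.Calculus.ContDiff.FiniteDimension
import Mathlib.Analysis.Calculus.ContDiff.Operations
import Mathlib.Tactic

/-!
# P284 (helper335): local general position

If `A z : E → V` is a `C¹` family of linear maps, parametrised by a neighbourhood of `z0` in `F`,
`A z0` is surjective and `dim F < dim V`, then the set of all `c` with `A z c = 0` for some `z`
near `z0` has Hausdorff dimension smaller than `dim E`.
-/

open scoped Topology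
open Set Filter Module

noncomputable section

namespace Vale.Agent.P284.H335

variable {F E V : Type*} [NormedAddCommGroup F] [NormedSpace ℝ F] [FiniteDimensional ℝ F]
  [NormedAddCommGroup E] [NormedSpace ℝ E] [FiniteDimensional ℝ E]
  [NormedAddCommGroup V] [NormedSpace ℝ V] [FiniteDimensional ℝ V]

/-- **Local general position.** -/
theorem local_gp {A : F → E →L[ℝ] V} {z0 : F} (hA : ContDiffAt ℝ 1 A z0)
    (hs : Function.Surjective (A z0)) (hd : finrank ℝ F < finrank ℝ V) :
    ∃ U ∈ 𝓝 z0, dimH {c : E | ∃ z ∈ U, A z c = 0} < (finrank ℝ E : ENNReal) := by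
  have hcV : CompleteSpace V := FiniteDimensional.complete ℝ V
  obtain ⟨S0, hS0⟩ := (A z0 : E →ₗ[ℝ] V).exists_rightInverse_of_surjective
    (LinearMap.range_eq_top.mpr hs)
  set S : V →L[ℝ] E := LinearMap.toContinuousLinearMap S0 with hSdef
  have hS : ∀ v, A z0 (S v) = v := fun v => LinearMap.congr_fun hS0 v
  set G : F → V →L[ℝ] V := fun z => (A z).comp S with hG
  have hG0 : G z0 = 1 := by
    ext v
    simp [hG, hS]
  have hGc : ∀ z, ContDiffAt ℝ 1 A z → ContDiffAt ℝ 1 G z := fun z hz => hz.clm_comp contDiffAt_const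
  have e1 : ∀ᶠ z in 𝓝 z0, ContDiffAt ℝ 1 A z := hA.eventually (by simp)
  have e2 : ∀ᶠ z in 𝓝 z0, IsUnit (G z) := by
    have h1 : IsUnit (G z0) := by rw [hG0]; exact isUnit_one
    exact (hGc z0 hA).continuousAt.eventually (Units.isOpen.mem_nhds h1)
  obtain ⟨r, hr, hball⟩ := Metric.eventually_nhds_iff_ball.mp (e1.and e2)
  refine ⟨Metric.ball z0 r, Metric.ball_mem_nhds z0 hr, ?_⟩
  set W : Submodule ℝ E := LinearMap.ker (A z0 : E →ₗ[ℝ] V) with hW
  set Ψ : F × W → E := fun p => (p.2 : E) - S (Ring.inverse (G p.1) (A p.1 (p.2 : E))) with hΨ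
  have hΨc : ContDiffOn ℝ 1 Ψ (Metric.ball z0 r ×ˢ univ) := by
    rintro ⟨z, w⟩ ⟨hz, -⟩
    obtain ⟨hz1, hz2⟩ := hball z hz
    refine ContDiffAt.contDiffWithinAt ?_
    have c0 : ContDiffAt ℝ 1 (fun p : F × W => p.2) (z, w) := contDiffAt_snd
    have c1 : ContDiffAt ℝ 1 (fun p : F × W => W.subtypeL p.2) (z, w) :=
      ContDiffAt.clm_apply contDiffAt_const c0
    have c2 : ContDiffAt ℝ 1 (fun p : F × W => A p.1) (z, w) :=
      ContDiffAt.comp (z, w) hz1 contDiffAt_fst
    have c3 : ContDiffAt ℝ 1 (fun p : F × W => G p.1) (z, w) :=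
      ContDiffAt.comp (z, w) (hGc z hz1) contDiffAt_fst
    obtain ⟨u, hu⟩ := hz2
    have c4 : ContDiffAt ℝ 1 (fun p : F × W => Ring.inverse (G p.1)) (z, w) := by
      have c3' : ContDiffAt ℝ 1 (Ring.inverse : (V →L[ℝ] V) → (V →L[ℝ] V))
          ((fun p : F × W => G p.1) (z, w)) := by
        change ContDiffAt ℝ 1 Ring.inverse (G z)
        rw [← hu]
        exact contDiffAt_ringInverse ℝ u
      exact ContDiffAt.comp (g := (Ring.inverse : (V →L[ℝ] V) → (V →L[ℝ] V)))
        (f := fun p : F × W => G p.1) (z, w) c3' c3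
    have c5 : ContDiffAt ℝ 1 (fun p : F × W => Ring.inverse (G p.1) (A p.1 (p.2 : E))) (z, w) :=
      c4.clm_apply (c2.clm_apply c1)
    have c6 : ContDiffAt ℝ 1 (fun p : F × W => S (Ring.inverse (G p.1) (A p.1 (p.2 : E))))
        (z, w) := ContDiffAt.clm_apply contDiffAt_const c5
    exact c1.sub c6
  have hsub : {c : E | ∃ z ∈ Metric.ball z0 r, A z c = 0} ⊆
      Ψ '' (Metric.ball z0 r ×ˢ univ) := by
    rintro c ⟨z, hz, hc⟩
    obtain ⟨-, hz2⟩ := hball z hz
    have hwk : c - S (A z0 c) ∈ W := by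
      rw [hW, LinearMap.mem_ker]
      change A z0 (c - S (A z0 c)) = 0
      rw [map_sub, hS, sub_self]
    refine ⟨(z, ⟨c - S (A z0 c), hwk⟩), ⟨hz, mem_univ _⟩, ?_⟩
    change c - S (A z0 c) - S (Ring.inverse (G z) (A z (c - S (A z0 c)))) = c
    have h1 : A z (c - S (A z0 c)) = - G z (A z0 c) := by
      rw [map_sub, hc, zero_sub]
      rfl
    have h2 : Ring.inverse (G z) (G z (A z0 c)) = A z0 c := by
      have := Ring.inverse_mul_cancel _ hz2
      exact congrArg (fun L : V →L[ℝ] V => L (A z0 c)) this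
    rw [h1, map_neg, h2, map_neg]
    abel
  have hrank : finrank ℝ (F × W) < finrank ℝ E := by
    have h1 : finrank ℝ V + finrank ℝ W = finrank ℝ E := by
      have h2 := LinearMap.finrank_range_add_finrank_ker (A z0 : E →ₗ[ℝ] V)
      rw [LinearMap.range_eq_top.mpr hs, finrank_top] at h2
      exact h2
    rw [Module.finrank_prod]
    omega
  calc dimH {c : E | ∃ z ∈ Metric.ball z0 r, A z c = 0}
      ≤ dimH (Ψ '' (Metric.ball z0 r ×ˢ univ)) := dimH_mono hsub
    _ ≤ dimH (Metric.ball z0 r ×ˢ (univ : Set W)) :=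
        hΨc.dimH_image_le ((convex_ball z0 r).prod convex_univ) subset_rfl
    _ ≤ dimH (univ : Set (F × W)) := dimH_mono (subset_univ _)
    _ = finrank ℝ (F × W) := Real.dimH_univ_eq_finrank _
    _ < (finrank ℝ E : ENNReal) := by exact_mod_cast hrank

end Vale.Agent.P284.H335
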