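import Vale.Agent.P272.KOD.Main
import Vale.Agent.P284.H335.GP
import Vale.Agent.P284.H451.KLS

/-!
# P284 (helper335): transversal pluricanonical sections (module KL (iv))

On a compact complex manifold with a finite family of sections of `K^m` which span the one-jets at
every point, the set of all linear combinations vanishing to order two at some point has Hausdorff
dimension smaller than the dimension of the parameter space; so a general linear combination does
not vanish to order two anywhere.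
-/

open scoped Manifold ContDiff Topology ComplexOrder
open Set Filter Module

noncomputable section

namespace Vale.Agent.P284.H335

open Vale.Agent.P272.K Vale.Agent.P272.KOD

variable {n m : ℕ} {X : Type*} [TopologicalSpace X] [ChartedSpace (Cm n) X]

/-- The section `u` vanishes to order at least two at `x`. -/
def Van2 (u : PSec n m X) (x : X) : Prop :=
  ∃ e, At e x ∧ u.coeff e (e x) = 0 ∧ fderiv ℂ (u.coeff e) (e x) = 0

/-- The ratio of two sections, read in a chart. -/
def rat (s0 u : PSec n m X) (e : Chart n X) (w : Cm n) : ℂ := u.coeff e w / s0.coeff e w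

lemma rat_analyticAt {s0 u : PSec n m X} {e : Chart n X} {x : X} (h : At e x)
    (h0 : s0.coeff e (e x) ≠ 0) : AnalyticAt ℂ (rat s0 u e) (e x) :=
  (u.holo e x h).div (s0.holo e x h) h0

lemma van2_rat {s0 u : PSec n m X} {e : Chart n X} {x : X} (h : At e x)
    (h0 : s0.coeff e (e x) ≠ 0) :
    (u.coeff e (e x) = 0 ∧ fderiv ℂ (u.coeff e) (e x) = 0) ↔
      (rat s0 u e (e x) = 0 ∧ fderiv ℂ (rat s0 u e) (e x) = 0) := by
  have hu := (u.holo e x h).differentiableAt.hasFDerivAt
  have hs := (s0.holo e x h).differentiableAt.hasFDerivAt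
  have hq := (rat_analyticAt (u := u) h h0).differentiableAt.hasFDerivAt
  constructor
  · rintro ⟨h1, h2⟩
    refine ⟨by rw [rat, h1, zero_div], ?_⟩
    have h3 := (hasDerivAt_inv h0).comp_hasFDerivAt (e x) hs
    have h4 := hu.mul h3
    rw [h1, h2] at h4
    have h5 : rat s0 u e = u.coeff e * (Inv.inv ∘ s0.coeff e) := by
      funext w
      exact div_eq_mul_inv _ _
    rw [h5, h4.fderiv]
    ext v
    simp
  · rintro ⟨h1, h2⟩
    have h3 : u.coeff e (e x) = 0 := by
      rw [rat, div_eq_zero_iff] at h1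
      exact h1.resolve_right h0
    refine ⟨h3, ?_⟩
    have h4 := hq.mul hs
    rw [h1, h2] at h4
    have h5 : u.coeff e =ᶠ[𝓝 (e x)] rat s0 u e * s0.coeff e := by
      filter_upwards [(s0.holo e x h).continuousAt.eventually_ne h0] with w hw
      rw [Pi.mul_apply, rat, div_mul_cancel₀ _ hw]
    rw [h5.fderiv_eq, h4.fderiv]
    ext v
    simp

section cplx
variable [IsManifold 𝓘(ℂ, Cm n) ω X]

lemma rat_change {s0 u : PSec n m X} {e e' : Chart n X} {x : X} (h : At e x) (h' : At e' x)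
    (h0 : s0.coeff e (e x) ≠ 0) (h1 : rat s0 u e (e x) = 0)
    (h2 : fderiv ℂ (rat s0 u e) (e x) = 0) :
    rat s0 u e' (e' x) = 0 ∧ fderiv ℂ (rat s0 u e') (e' x) = 0 := by
  have h0' : s0.coeff e' (e' x) ≠ 0 :=
    (val_ne_iff s0 h').mp ((val_ne_iff s0 h).mpr h0)
  have e1 := ratio_change (s := fun _ : Unit => u) h' h h0'
  have e2 : rat s0 u e' =ᶠ[𝓝 (e' x)] fun w => rat s0 u e (trans e' e w) := by
    filter_upwards [e1] with w hw
    exact congrFun hw ()
  constructor
  · rw [e2.eq_of_nhds, trans_apply h', h1]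
  · have e3 := fderiv_fun_comp (𝕜 := ℂ) (f := trans e' e) (g := rat s0 u e) (e' x)
      (by rw [trans_apply h']; exact (rat_analyticAt h h0).differentiableAt)
      ((trans_contDiffAt h' h).differentiableAt (by simp))
    rw [e2.fderiv_eq, e3, trans_apply h', h2]
    ext v
    simp

/-- Vanishing to order two does not depend on the chart (at points where some section does not
vanish). -/
lemma Van2.rat {s0 u : PSec n m X} {x : X} (hv : Van2 u x) {e : Chart n X} (h : At e x)
    (h0 : s0.coeff e (e x) ≠ 0) :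
    rat s0 u e (e x) = 0 ∧ fderiv ℂ (H335.rat s0 u e) (e x) = 0 := by
  obtain ⟨e', he', h1, h2⟩ := hv
  have h0' : s0.coeff e' (e' x) ≠ 0 :=
    (val_ne_iff s0 he').mp ((val_ne_iff s0 h).mpr h0)
  obtain ⟨h3, h4⟩ := (van2_rat he' h0').mp ⟨h1, h2⟩
  exact rat_change he' h h0' h3 h4

/-! ### The local statement -/

lemma contDiffAt_of_apply {F E V : Type*} [NormedAddCommGroup F] [NormedSpace ℝ F]
    [NormedAddCommGroup E] [NormedSpace ℝ E] [FiniteDimensional ℝ E]
    [NormedAddCommGroup V] [NormedSpace ℝ V] {A : F → E →L[ℝ] V} {z0 : F}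
    (h : ∀ᶠ z in 𝓝 z0, ∀ c, ContDiffAt ℝ 1 (fun z => A z c) z) : ContDiffAt ℝ 1 A z0 := by
  obtain ⟨r, hr, hb⟩ := Metric.eventually_nhds_iff_ball.mp h
  have h1 : ContDiffOn ℝ 1 A (Metric.ball z0 r) :=
    contDiffOn_clm_apply.mpr fun c z hz => (hb z hz c).contDiffWithinAt
  exact h1.contDiffAt (Metric.ball_mem_nhds z0 hr)

variable {N : ℕ}

/-- The one-jet of the combination `∑ c i r i` at a point with `r = p`, `dr = L`. -/
def jmap (n : ℕ) {N : ℕ} (p : Fin N → ℂ) (L : Cm n →L[ℂ] (Fin N → ℂ)) :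
    (Fin N → ℂ) →L[ℂ] ℂ × (Fin n → ℂ) :=
  LinearMap.toContinuousLinearMap
    { toFun := fun c => (∑ i, c i * p i, fun j => ∑ i, c i * L (Pi.single j 1) i)
      map_add' := by
        intro c d
        simp only [Pi.add_apply, add_mul, Finset.sum_add_distrib, Prod.mk_add_mk]
        rfl
      map_smul' := by
        intro a c
        simp only [Pi.smul_apply, smul_eq_mul, mul_assoc, ← Finset.mul_sum, RingHom.id_apply,
          Prod.smul_mk]
        rfl }

lemma jmap_apply (p : Fin N → ℂ) (L : Cm n →L[ℂ] (Fin N → ℂ)) (c : Fin N → ℂ) :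
    jmap n p L c = (∑ i, c i * p i, fun j => ∑ i, c i * L (Pi.single j 1) i) := rfl

lemma jmap_surjective {p : Fin N → ℂ} {L : Cm n →L[ℂ] (Fin N → ℂ)} {i0 : Fin N}
    (hL : Function.Injective L) (hp : p i0 = 1) (hL0 : ∀ v, L v i0 = 0) :
    Function.Surjective (jmap n p L) := by
  rintro ⟨b, l⟩
  obtain ⟨K, hK⟩ := (L : Cm n →ₗ[ℂ] (Fin N → ℂ)).exists_leftInverse_of_injective
    (LinearMap.ker_eq_bot.mpr hL)
  have hK' : ∀ v, K (L v) = v := fun v => LinearMap.congr_fun hK v
  set c : Fin N → ℂ := fun i => ∑ j, l j * K (Pi.single i 1) j with hc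
  have h1 : ∀ w : Fin N → ℂ, ∑ i, c i * w i = ∑ j, l j * K w j := by
    intro w
    have h2 : K w = ∑ i, w i • K (Pi.single i 1) := by
      conv_lhs => rw [← Finset.univ_sum_single w]
      rw [map_sum]
      refine Finset.sum_congr rfl fun i _ => ?_
      rw [← map_smul]
      congr 1
      rw [← Pi.single_smul, smul_eq_mul, mul_one]
    rw [h2]
    simp only [Finset.sum_apply, Pi.smul_apply, smul_eq_mul, hc, Finset.sum_mul, Finset.mul_sum]
    rw [Finset.sum_comm]
    refine Finset.sum_congr rfl fun i _ => Finset.sum_congr rfl fun j _ => ?_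
    ring
  refine ⟨c + Pi.single i0 (b - ∑ i, c i * p i), ?_⟩
  rw [jmap_apply]
  have h3 : ∀ (t : ℂ) (w : Fin N → ℂ), ∑ i, (c + Pi.single i0 t : Fin N → ℂ) i * w i =
      ∑ i, c i * w i + t * w i0 := by
    intro t w
    simp only [Pi.add_apply, add_mul, Finset.sum_add_distrib]
    congr 1
    rw [Finset.sum_eq_single i0]
    · simp
    · intro i _ hi
      simp [Pi.single_eq_of_ne hi]
    · simp
  refine Prod.ext ?_ ?_
  · change ∑ i, (c + Pi.single i0 _ : Fin N → ℂ) i * p i = b
    rw [h3, hp]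
    ring
  · funext j
    change ∑ i, (c + Pi.single i0 _ : Fin N → ℂ) i * L (Pi.single j 1) i = l j
    rw [h3, hL0, mul_zero, add_zero, h1, hK']
    rw [Finset.sum_eq_single j]
    · simp
    · intro k _ hk
      simp [Pi.single_eq_of_ne hk]
    · simp

omit [IsManifold 𝓘(ℂ, Cm n) ω X] in
lemma rat_pfSum (s0 : PSec n m X) (f : Fin N → PSec n m X) (c : Fin N → ℂ) (e : Chart n X) :
    rat s0 (pfSum c f) e = fun w => ∑ i, c i * ratio s0 f e w i := by
  funext w
  change (∑ i, c i * (f i).coeff e w) / s0.coeff e w = ∑ i, c i * ((f i).coeff e w / s0.coeff e w)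
  rw [Finset.sum_div]
  exact Finset.sum_congr rfl fun i _ => mul_div_assoc _ _ _

lemma local_bad {f : Fin N → PSec n m X} {x0 : X} {i0 : Fin N}
    (hj : Jet (f i0) f (cht n x0) x0) :
    ∃ U ∈ 𝓝 x0, dimH {c : Fin N → ℂ | ∃ x ∈ U, Van2 (pfSum c f) x} <
      (finrank ℝ (Fin N → ℂ) : ENNReal) := by
  set e := cht n x0 with he
  have hat : At e x0 := at_cht x0
  set r := ratio (f i0) f e with hr
  have hra : AnalyticAt ℂ r (e x0) := ratio_analyticAt hat hj.1
  set A : Cm n → ((Fin N → ℂ) →L[ℝ] ℂ × (Fin n → ℂ)) :=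
    fun z => (jmap n (r z) (fderiv ℂ r z)).restrictScalars ℝ with hAdef
  have hA : ContDiffAt ℝ 1 A (e x0) := by
    refine contDiffAt_of_apply ?_
    filter_upwards [hra.eventually_analyticAt] with z hz c
    have h1 : ContDiffAt ℂ 1 (fun z => jmap n (r z) (fderiv ℂ r z) c) z := by
      have h2 : ContDiffAt ℂ 1 r z := hz.contDiffAt
      have h3 : ContDiffAt ℂ 1 (fderiv ℂ r) z := hz.fderiv.contDiffAt
      have h4 : ∀ i, ContDiffAt ℂ 1 (fun z => r z i) z := contDiffAt_pi.mp h2
      have h5 : ∀ j i, ContDiffAt ℂ 1 (fun z => fderiv ℂ r z (Pi.single j 1) i) z := by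
        intro j
        exact contDiffAt_pi.mp (h3.clm_apply contDiffAt_const)
      have h6 : ContDiffAt ℂ 1 (fun z => ∑ i, c i * r z i) z :=
        ContDiffAt.sum fun i _ => contDiffAt_const.mul (h4 i)
      have h7 : ContDiffAt ℂ 1 (fun z => fun j => ∑ i, c i * fderiv ℂ r z (Pi.single j 1) i) z :=
        contDiffAt_pi.mpr fun j => ContDiffAt.sum fun i _ => contDiffAt_const.mul (h5 j i)
      exact h6.prodMk h7
    exact h1.restrict_scalars ℝ
  have hs : Function.Surjective (A (e x0)) := by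
    have h1 : r =ᶠ[𝓝 (e x0)] fun w => fun i => r w i := EventuallyEq.rfl
    refine jmap_surjective (i0 := i0) hj.2 (div_self hj.1) ?_
    intro v
    have h2 := hra.differentiableAt.hasFDerivAt
    rw [hasFDerivAt_pi'] at h2
    have h3 : (fun w => r w i0) =ᶠ[𝓝 (e x0)] fun _ => (1 : ℂ) := by
      filter_upwards [((f i0).holo e x0 hat).continuousAt.eventually_ne hj.1] with w hw
      exact div_self hw
    have h4 := (h2 i0).fderiv
    rw [h3.fderiv_eq, fderiv_fun_const] at h4
    have h5 := congrArg (fun T : Cm n →L[ℂ] ℂ => T v) h4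
    exact h5.symm
  have hd : finrank ℝ (Cm n) < finrank ℝ (ℂ × (Fin n → ℂ)) := by
    rw [finrank_real_of_complex, finrank_real_of_complex, Module.finrank_prod]
    simp
  obtain ⟨U, hU, hdim⟩ := local_gp hA hs hd
  have hev : ∀ᶠ y in 𝓝 x0, (e y ∈ U ∧ (f i0).coeff e (e y) ≠ 0 ∧ AnalyticAt ℂ r (e y)) ∧ At e y := by
    have h1 : ∀ᶠ z in 𝓝 (e x0), z ∈ U ∧ (f i0).coeff e z ≠ 0 ∧ AnalyticAt ℂ r z :=
      Filter.Eventually.and hU ((((f i0).holo e x0 hat).continuousAt.eventually_ne hj.1).and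
        hra.eventually_analyticAt)
    exact ((map_contAt hat).eventually h1).and (at_nhds hat)
  refine ⟨_, hev, lt_of_le_of_lt (dimH_mono ?_) hdim⟩
  rintro c ⟨x, ⟨⟨hxU, hx0, hxa⟩, hxe⟩, hv⟩
  refine ⟨e x, hxU, ?_⟩
  obtain ⟨h1, h2⟩ := hv.rat hxe hx0
  rw [rat_pfSum] at h1 h2
  change jmap n (r (e x)) (fderiv ℂ r (e x)) c = 0
  rw [jmap_apply]
  refine Prod.ext h1 ?_
  funext j
  have h3 := hxa.differentiableAt.hasFDerivAt
  rw [hasFDerivAt_pi'] at h3
  have h4 : HasFDerivAt (fun w => ∑ i, c i * r w i)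
      (∑ i, c i • (ContinuousLinearMap.proj i).comp (fderiv ℂ r (e x))) (e x) :=
    HasFDerivAt.fun_sum fun i _ => (h3 i).const_mul (c i)
  have h5 := h4.fderiv
  rw [h2] at h5
  have h6 := congrArg (fun T : Cm n →L[ℂ] ℂ => T (Pi.single j 1)) h5
  simp only [zero_apply, sum_apply,
    smul_apply, ContinuousLinearMap.comp_apply,
    ContinuousLinearMap.proj_apply, smul_eq_mul] at h6
  exact h6.symm

/-- **General position**: the set of all linear combinations of a finite family of sections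
spanning the one-jets everywhere which vanish to order two somewhere is small. -/
theorem dimH_bad_lt [CompactSpace X] {N : ℕ} {f : Fin (N + 1) → PSec n m X}
    (hf : ∀ x : X, ∃ i0, Jet (f i0) f (cht n x) x) :
    dimH {c : Fin (N + 1) → ℂ | ∃ x, Van2 (pfSum c f) x} <
      (finrank ℝ (Fin (N + 1) → ℂ) : ENNReal) := by
  have key : dimH {c : Fin (N + 1) → ℂ | ∃ x ∈ (univ : Set X), Van2 (pfSum c f) x} <
      (finrank ℝ (Fin (N + 1) → ℂ) : ENNReal) := by
    refine isCompact_univ.induction_on (p := fun W : Set X =>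
      dimH {c : Fin (N + 1) → ℂ | ∃ x ∈ W, Van2 (pfSum c f) x} <
      (finrank ℝ (Fin (N + 1) → ℂ) : ENNReal)) ?_ ?_ ?_ ?_
    · have h1 : 0 < finrank ℝ (Fin (N + 1) → ℂ) := Module.finrank_pos
      simpa using h1
    · intro s t hst h
      refine lt_of_le_of_lt (dimH_mono ?_) h
      rintro c ⟨x, hx, hv⟩
      exact ⟨x, hst hx, hv⟩
    · intro s t hs ht
      have h1 : {c : Fin (N + 1) → ℂ | ∃ x ∈ s ∪ t, Van2 (pfSum c f) x} =
          {c | ∃ x ∈ s, Van2 (pfSum c f) x} ∪ {c | ∃ x ∈ t, Van2 (pfSum c f) x} := by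
        ext c
        constructor
        · rintro ⟨x, hx | hx, hv⟩
          · exact Or.inl ⟨x, hx, hv⟩
          · exact Or.inr ⟨x, hx, hv⟩
        · rintro (⟨x, hx, hv⟩ | ⟨x, hx, hv⟩)
          · exact ⟨x, Or.inl hx, hv⟩
          · exact ⟨x, Or.inr hx, hv⟩
      rw [h1, dimH_union]
      exact max_lt hs ht
    · intro x _
      obtain ⟨i0, hi0⟩ := hf x
      obtain ⟨U, hU, h⟩ := local_bad hi0
      exact ⟨U, mem_nhdsWithin_of_mem_nhds hU, h⟩
  simpa using key

/-- A finite family of sections, spanning the one-jets everywhere, from the pointwise property. -/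
lemma exists_jet_family [CompactSpace X] (hJ : ∀ x : X, JetP n m x) :
    ∃ (N : ℕ) (f : Fin (N + 1) → PSec n m X), ∀ x : X, ∃ i0, Jet (f i0) f (cht n x) x := by
  obtain ⟨F, hF, hF'⟩ := exists_jet_finite hJ
  obtain ⟨k, f, -, hf⟩ := (hF.insert (pfZero n m X)).fin_param
  obtain ⟨i00, _⟩ : pfZero n m X ∈ range f := by rw [hf]; exact mem_insert _ _
  obtain ⟨N, rfl⟩ : ∃ N, k = N + 1 := ⟨k - 1, by have := i00.2; omega⟩
  have hFf : ∀ s ∈ F, ∃ i, f i = s := by
    intro s hs
    have : s ∈ range f := by rw [hf]; exact mem_insert_of_mem _ hs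
    exact this
  refine ⟨N, f, fun x => ?_⟩
  obtain ⟨s0, h0, s, h1, h2⟩ := hF' x
  obtain ⟨i0, rfl⟩ := hFf s0 h0
  choose g hg using fun i => hFf (s i) (h1 i)
  exact ⟨i0, h2.mono (at_cht x) g hg⟩

/-- A transversal section, from the one-jets. -/
theorem exists_transversal [CompactSpace X] (hJ : ∀ x : X, JetP n m x) :
    ∃ β : PSec n m X, ∀ x, ¬ Van2 β x := by
  obtain ⟨N, f, hf⟩ := exists_jet_family hJ
  obtain ⟨c, hc⟩ := (dense_compl_of_dimH_lt_finrank (dimH_bad_lt hf)).nonempty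
  refine ⟨pfSum c f, fun x hx => hc ⟨x, hx⟩⟩

end cplx

/-- **KL (iv)**: transversal sections of the powers of a positive canonical bundle. -/
theorem transStmt : H451.TransStmt := by
  intro n Z _ _ _ _ _ w hw hpos
  obtain ⟨h1, -⟩ := peakStmt n Z w hw hpos (keyStmt n Z w hw hpos)
  obtain ⟨q, hq, hJ⟩ := exists_jet_level (n := n) (X := Z) fun x => by
    obtain ⟨m, hm, h⟩ := h1 x
    exact ⟨m, hm, jetP_of_jetAt h⟩
  refine ⟨q, hq, fun k hk => ?_⟩
  obtain ⟨β, hβ⟩ := exists_transversal fun x => (hJ x).pow hk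
  exact ⟨β, fun e x he h0 h2 => hβ x ⟨e, he, h0, h2⟩⟩

end Vale.Agent.P284.H335
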