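import Vale.Agent.P284.H335.DecA
import Vale.Agent.P284.H998.DecS

/-!
# P284 (helper335): decomposability of multi-forms, the identity theorem
-/

open scoped Manifold ContDiff Topology ComplexConjugate ComplexOrder InnerProductSpace
open Filter Set Metric

noncomputable section

namespace Vale.Agent.P284.H335

open Vale.Agent.P272.K Vale.Agent.P284.H573 Vale.Agent.P284.H395 Vale.Agent.P284.H998

section
variable {n R m s : ℕ} {X : Type} [TopologicalSpace X] [ChartedSpace (Cm n) X]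
  {E : Type} [TopologicalSpace E] {p : E → X}

lemma map_ep (hp : IsCoveringMap p) {y : E} {e : Chart n X} (he : At e (p y)) :
    map (fun y' => e (p y')) (𝓝 y) = 𝓝 (e (p y)) := by
  have h1 : map p (𝓝 y) = 𝓝 (p y) := hp.isLocalHomeomorph.map_nhds_eq y
  have h2 : map e (𝓝 (p y)) = 𝓝 (e (p y)) := e.map_nhds_eq he.2
  rw [← h2, ← h1, map_map]
  rfl

lemma at_ev (hp : IsCoveringMap p) {y : E} {e : Chart n X} (he : At e (p y)) :
    ∀ᶠ y' in 𝓝 y, At e (p y') := by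
  filter_upwards [hp.continuous.continuousAt.preimage_mem_nhds (e.open_source.mem_nhds he.2)]
    with y' hy' using ⟨he.1, hy'⟩

lemma tendsto_ep (hp : IsCoveringMap p) {y : E} {e : Chart n X} (he : At e (p y)) :
    Tendsto (fun y' => e (p y')) (𝓝 y) (𝓝 (e (p y))) := (map_ep hp he).le

lemma ev_iff (hp : IsCoveringMap p) {y : E} {e : Chart n X} (he : At e (p y)) {Q : Cm n → Prop} :
    (∀ᶠ y' in 𝓝 y, Q (e (p y'))) ↔ ∀ᶠ z in 𝓝 (e (p y)), Q z := by
  rw [← map_ep hp he]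
  exact Iff.rfl

variable {H : Type} [NormedAddCommGroup H] [InnerProductSpace ℂ H]
  {v : E → Chart n X → (Fin R → Cm n) → H}

/-- the local representative is analytic at all nearby points -/
lemma hol_unif (hp : IsCoveringMap p) (hv : HForm n R m p H v) {y : E} {e : Chart n X}
    (he : At e (p y)) : ∃ F : Cm n × (Fin R → Cm n) → H,
    (∀ᶠ z in 𝓝 (e (p y)), ∀ ξ, AnalyticAt ℂ F (z, ξ)) ∧
    ∀ᶠ y' in 𝓝 y, ∀ ξ, v y' e ξ = F (e (p y'), ξ) := by
  obtain ⟨F, hF, hev⟩ := hv.hol y e he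
  refine ⟨F, ?_, hev⟩
  rw [← ev_iff hp he]
  filter_upwards [hev.eventually_nhds, at_ev hp he] with y' h1 h2 ξ
  obtain ⟨F', hF', hev'⟩ := hv.hol y' e h2
  have h3 : ∀ᶠ z in 𝓝 (e (p y')), ∀ ξ, F (z, ξ) = F' (z, ξ) := by
    rw [← ev_iff hp h2]
    filter_upwards [h1, hev'] with y'' a b ξ
    rw [← a, ← b]
  have h4 : F =ᶠ[𝓝 (e (p y'), ξ)] F' := by
    filter_upwards [(continuous_fst.tendsto (e (p y'), ξ)).eventually h3] with x hx using hx x.2
  exact (hF' ξ).congr h4.symm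

lemma an_slice {F : Cm n × (Fin R → Cm n) → H} {z : Cm n} {ξ : Fin R → Cm n}
    (hF : AnalyticAt ℂ F (z, ξ)) : AnalyticAt ℂ (fun z => F (z, ξ)) z :=
  hF.comp (f := fun z : Cm n => ((z, ξ) : Cm n × (Fin R → Cm n)))
    (analyticAt_id.prod analyticAt_const)

lemma an_slice' {F : Cm n × (Fin R → Cm n) → H} {z : Cm n} {ξ : Fin R → Cm n}
    (hF : AnalyticAt ℂ F (z, ξ)) : AnalyticAt ℂ (fun ξ => F (z, ξ)) ξ :=
  hF.comp (f := fun ξ : Fin R → Cm n => ((z, ξ) : Cm n × (Fin R → Cm n)))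
    (analyticAt_const.prod analyticAt_id)

lemma v_diff (hv : HForm n R m p H v) {y : E} {e : Chart n X} (he : At e (p y))
    (ξ : Fin R → Cm n) : DifferentiableAt ℂ (v y e) ξ := by
  obtain ⟨F, hF, hev⟩ := hv.hol y e he
  have h1 : v y e = fun ξ => F (e (p y), ξ) := funext fun ξ => hev.self_of_nhds ξ
  rw [h1]
  exact (an_slice' (hF ξ)).differentiableAt

lemma dec_change (hv : HForm n R m p H v) {y : E} {e e' : Chart n X} (he : At e (p y))
    (he' : At e' (p y)) (h : DecId n R m (v y e')) : DecId n R m (v y e) := by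
  have h1 : v y e = fun ξ => v y e' (fun i =>
      fderiv ℂ (fun z => e' (e.symm z)) (e (p y)) (ξ i)) :=
    funext fun ξ => hv.change y e e' he he' ξ
  rw [h1]
  exact dec_comp _ (v_diff hv he') h

/-- the partial derivative -/
lemma fderiv_part {F : Cm n × (Fin R → Cm n) → H} {z : Cm n} {ξ : Fin R → Cm n}
    (hF : AnalyticAt ℂ F (z, ξ)) (h : H) (w : Fin R → Cm n) :
    fderiv ℂ (fun ξ => ⟪h, F (z, ξ)⟫_ℂ) ξ w = ⟪h, fderiv ℂ F (z, ξ) (0, w)⟫_ℂ := by
  have h1 : HasFDerivAt (fun ξ : Fin R → Cm n => ((z, ξ) : Cm n × (Fin R → Cm n)))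
      (ContinuousLinearMap.inr ℂ (Cm n) (Fin R → Cm n)) ξ := by
    exact hasFDerivAt_prodMk_right z ξ
  have h2 := hF.differentiableAt.hasFDerivAt.comp ξ h1
  have h3 : HasFDerivAt (fun ξ : Fin R → Cm n => ⟪h, F (z, ξ)⟫_ℂ)
      ((innerSL ℂ h).comp ((fderiv ℂ F (z, ξ)).comp
        (ContinuousLinearMap.inr ℂ (Cm n) (Fin R → Cm n)))) ξ :=
    (innerSL ℂ h).hasFDerivAt.comp ξ h2
  rw [h3.fderiv]
  simp

/-- both sides of the identity, as functions of `z` -/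
lemma an_part [CompleteSpace H] {F : Cm n × (Fin R → Cm n) → H} {z : Cm n}
    (hF : ∀ᶠ z in 𝓝 z, ∀ ξ, AnalyticAt ℂ F (z, ξ)) (h : H) (ξ w : Fin R → Cm n) :
    AnalyticAt ℂ (fun z => fderiv ℂ (fun ξ => ⟪h, F (z, ξ)⟫_ℂ) ξ w) z := by
  have h1 : AnalyticAt ℂ (fun z => ⟪h, fderiv ℂ F (z, ξ) (0, w)⟫_ℂ) z := by
    have h2 : AnalyticAt ℂ (fun x : Cm n × (Fin R → Cm n) => fderiv ℂ F x (0, w)) (z, ξ) :=
      ((ContinuousLinearMap.apply ℂ H ((0, w) : Cm n × (Fin R → Cm n))).analyticAt _).comp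
        (hF.self_of_nhds ξ).fderiv
    exact ((innerSL ℂ h).analyticAt _).comp (an_slice h2)
  refine h1.congr ?_
  filter_upwards [hF] with z' hz'
  exact (fderiv_part (hz' ξ) h w).symm

lemma an_id [CompleteSpace H] {F : Cm n × (Fin R → Cm n) → H} {z : Cm n}
    (hF : ∀ᶠ z in 𝓝 z, ∀ ξ, AnalyticAt ℂ F (z, ξ)) (h : H) (ξ η : Fin R → Cm n) :
    AnalyticAt ℂ (fun z => ((m : ℂ) * ⟪h, F (z, ξ)⟫_ℂ) ^ (m * R) • F (z, η) -
      (Matrix.of fun i j => fderiv ℂ (fun ξ => ⟪h, F (z, ξ)⟫_ℂ) ξ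
        (Pi.single i (η j) : Fin R → Cm n)).det ^ m • F (z, ξ)) z := by
  have h1 : AnalyticAt ℂ (fun z => ⟪h, F (z, ξ)⟫_ℂ) z :=
    ((innerSL ℂ h).analyticAt _).comp (an_slice (hF.self_of_nhds ξ))
  have h2 : AnalyticAt ℂ (fun z => (Matrix.of fun i j : Fin R =>
      fderiv ℂ (fun ξ => ⟪h, F (z, ξ)⟫_ℂ) ξ (Pi.single i (η j) : Fin R → Cm n)).det) z :=
    an_det fun i j => an_part hF h ξ _
  exact (((analyticAt_const.mul h1).pow _).smul (an_slice (hF.self_of_nhds η))).sub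
    ((h2.pow m).smul (an_slice (hF.self_of_nhds ξ)))

/-- **identity theorem** for the decomposability -/
theorem dec_all [CompleteSpace H] [PreconnectedSpace E] (hp : IsCoveringMap p)
    (hv : HForm n R m p H v) {y₀ : E}
    (h0 : ∀ᶠ y in 𝓝 y₀, ∀ e, At e (p y) → DecId n R m (v y e)) :
    ∀ y e, At e (p y) → DecId n R m (v y e) := by
  set Q : Set E := {y | ∀ᶠ y' in 𝓝 y, ∀ e, At e (p y') → DecId n R m (v y' e)} with hQ
  have hQo : IsOpen Q := isOpen_iff_mem_nhds.2 fun y hy => hy.eventually_nhds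
  have hQc : IsClosed Q := by
    rw [← closure_subset_iff_isClosed]
    intro y₁ hy₁
    set e := chartAt (Cm n) (p y₁) with he_def
    have he : At e (p y₁) := ⟨chart_mem_atlas _ _, mem_chart_source _ _⟩
    obtain ⟨F, hF, hev⟩ := hol_unif hp hv he
    obtain ⟨ε, hε, hball⟩ := Metric.eventually_nhds_iff_ball.1 hF.eventually_nhds
    set B := ball (e (p y₁)) ε with hB
    have hBc : IsPreconnected B := (convex_ball _ _).isPreconnected
    set f : H → (Fin R → Cm n) → (Fin R → Cm n) → Cm n → H := fun h ξ η z =>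
      ((m : ℂ) * ⟪h, F (z, ξ)⟫_ℂ) ^ (m * R) • F (z, η) -
      (Matrix.of fun i j => fderiv ℂ (fun ξ => ⟪h, F (z, ξ)⟫_ℂ) ξ
        (Pi.single i (η j) : Fin R → Cm n)).det ^ m • F (z, ξ) with hf
    have hfan : ∀ h ξ η, AnalyticOnNhd ℂ (f h ξ η) B := fun h ξ η z hz =>
      an_id (hball z hz) h ξ η
    have hU : ∀ᶠ y' in 𝓝 y₁, e (p y') ∈ B ∧ At e (p y') ∧
        ∀ ξ, v y' e ξ = F (e (p y'), ξ) :=
      ((tendsto_ep hp he).eventually (ball_mem_nhds _ hε)).and ((at_ev hp he).and hev)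
    obtain ⟨y₂, hy₂, hy₂Q⟩ := (mem_closure_iff_frequently.1 hy₁).and_eventually
      hU.eventually_nhds |>.exists
    have hz : ∀ h ξ η, f h ξ η =ᶠ[𝓝 (e (p y₂))] 0 := by
      intro h ξ η
      rw [Filter.EventuallyEq, ← ev_iff hp hy₂Q.self_of_nhds.2.1]
      filter_upwards [hy₂, hy₂Q] with y' h1 h2
      have h3 := h1 e h2.2.1 h ξ η
      have h4 : v y' e = fun ξ => F (e (p y'), ξ) := funext h2.2.2
      rw [h4] at h3
      exact sub_eq_zero.2 h3
    have hall : ∀ h ξ η, EqOn (f h ξ η) 0 B := fun h ξ η =>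
      (hfan h ξ η).eqOn_zero_of_preconnected_of_eventuallyEq_zero hBc
        hy₂Q.self_of_nhds.1 (hz h ξ η)
    show ∀ᶠ y' in 𝓝 y₁, ∀ e, At e (p y') → DecId n R m (v y' e)
    filter_upwards [hU] with y' h2 e' he'
    refine dec_change hv he' h2.2.1 fun h ξ η => ?_
    have h4 : v y' e = fun ξ => F (e (p y'), ξ) := funext h2.2.2
    rw [h4]
    exact sub_eq_zero.1 (hall h ξ η h2.1)
  have hQu : Q = univ := IsClopen.eq_univ ⟨hQc, hQo⟩ ⟨y₀, h0⟩
  intro y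
  have : y ∈ Q := hQu ▸ mem_univ y
  exact this.self_of_nhds

lemma line_of_dec (hm : 1 ≤ m) {V : (Fin R → Cm n) → H} (h : DecId n R m V)
    {ξ : Fin R → Cm n} (hξ : V ξ ≠ 0) (η : Fin R → Cm n) : ∃ a : ℂ, V η = a • V ξ := by
  have h1 := h (V ξ) ξ η
  have h2 : ((m : ℂ) * ⟪V ξ, V ξ⟫_ℂ) ^ (m * R) ≠ 0 := by
    refine pow_ne_zero _ (mul_ne_zero ?_ (inner_self_ne_zero.2 hξ))
    exact_mod_cast (by omega : m ≠ 0)
  refine ⟨(((m : ℂ) * ⟪V ξ, V ξ⟫_ℂ) ^ (m * R))⁻¹ *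
    (Matrix.of fun i j => fderiv ℂ (fun ξ' => ⟪V ξ, V ξ'⟫_ℂ) ξ (Pi.single i (η j))).det ^ m, ?_⟩
  rw [mul_smul, ← h1, smul_smul, inv_mul_cancel₀ h2, one_smul]

/-- `g` spans the values of `v` near `y` -/
def LineRep (p : E → X) (v : E → Chart n X → (Fin R → Cm n) → H) (y : E) (e : Chart n X)
    (g : Cm n → H) : Prop :=
  AnalyticAt ℂ g (e (p y)) ∧ g (e (p y)) ≠ 0 ∧
    ∀ᶠ y' in 𝓝 y, ∃ ξ, ∃ a : ℂ, a ≠ 0 ∧ v y' e ξ = a • g (e (p y'))

variable [IsManifold 𝓘(ℂ, Cm n) ω X]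

lemma spn_change (hm : 1 ≤ m) (hp : IsCoveringMap p) (hv : HForm n R m p H v)
    (hd : ∀ y e, At e (p y) → DecId n R m (v y e)) {y : E} {e e' : Chart n X} {g g' : Cm n → H}
    (he : At e (p y)) (he' : At e' (p y)) (h : LineRep p v y e g) (h' : LineRep p v y e' g') :
    spn g (e (p y)) ≤ spn g' (e' (p y)) := by
  have hκ : DifferentiableAt ℂ (fun z => e' (e.symm z)) (e (p y)) := transition_differentiableAt he he'
  have hκ0 : e' (e.symm (e (p y))) = e' (p y) := by rw [e.left_inv he.2]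
  set g₀ := g' (e' (p y)) with hg₀
  -- `g = f • g' ∘ κ`
  have hg'κ : DifferentiableAt ℂ (fun z => g' (e' (e.symm z))) (e (p y)) := by
    refine DifferentiableAt.comp (g := g') (f := fun z => e' (e.symm z)) _ ?_ hκ
    rw [hκ0]; exact h'.1.differentiableAt
  have hnum : DifferentiableAt ℂ (fun z => ⟪g₀, g z⟫_ℂ) (e (p y)) :=
    (innerSL ℂ g₀).differentiableAt.comp _ h.1.differentiableAt
  have hden : DifferentiableAt ℂ (fun z => ⟪g₀, g' (e' (e.symm z))⟫_ℂ) (e (p y)) :=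
    (innerSL ℂ g₀).differentiableAt.comp _ hg'κ
  have hden0 : ⟪g₀, g' (e' (e.symm (e (p y))))⟫_ℂ ≠ 0 := by
    rw [hκ0, ← hg₀]
    exact inner_self_ne_zero.2 h'.2.1
  have hdenev : ∀ᶠ z in 𝓝 (e (p y)), ⟪g₀, g' (e' (e.symm z))⟫_ℂ ≠ 0 :=
    hden.continuousAt.eventually_ne hden0
  have hf : DifferentiableAt ℂ (fun z => ⟪g₀, g z⟫_ℂ * (⟪g₀, g' (e' (e.symm z))⟫_ℂ)⁻¹) (e (p y)) :=
    hnum.fun_mul (hden.fun_inv hden0)
  have hrel : g =ᶠ[𝓝 (e (p y))] fun z =>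
      (⟪g₀, g z⟫_ℂ * (⟪g₀, g' (e' (e.symm z))⟫_ℂ)⁻¹) • g' (e' (e.symm z)) := by
    rw [Filter.EventuallyEq, ← ev_iff hp he]
    rw [← ev_iff hp he] at hdenev
    filter_upwards [hdenev, h.2.2, h'.2.2, at_ev hp he, at_ev hp he'] with y' k1 k2 k3 k4 k5
    have k6 : e' (e.symm (e (p y'))) = e' (p y') := by rw [e.left_inv k4.2]
    rw [k6] at k1 ⊢
    obtain ⟨ξ, a, ha, k7⟩ := k2
    obtain ⟨ξ', a', ha', k8⟩ := k3
    have k9 : v y' e' ξ' ≠ 0 := by
      rw [k8]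
      refine smul_ne_zero ha' fun h0 => k1 ?_
      rw [h0, inner_zero_right]
    rw [hv.change y' e e' k4 k5 ξ] at k7
    obtain ⟨b, hb⟩ := line_of_dec hm (hd y' e' k5) k9
      (fun i => fderiv ℂ (fun z => e' (e.symm z)) (e (p y')) (ξ i))
    have k10 : g (e (p y')) = (a⁻¹ * (b * a')) • g' (e' (p y')) := by
      rw [hb, k8, smul_smul] at k7
      rw [mul_smul, k7, smul_smul, inv_mul_cancel₀ ha, one_smul]
    rw [k10, inner_smul_right]
    congr 1
    field_simp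
  have := spn_le (κ := fun z => e' (e.symm z)) hrel hf hκ
    (by rw [hκ0]; exact h'.1.differentiableAt)
  rw [hκ0] at this
  exact this

/-- **identity theorem** for the rank -/
theorem rank_all [CompleteSpace H] [PreconnectedSpace E] (hm : 1 ≤ m) (hp : IsCoveringMap p)
    (hv : HForm n R m p H v) (hd : ∀ y e, At e (p y) → DecId n R m (v y e)) {y₀ : E}
    (h0 : ∀ᶠ y in 𝓝 y₀, ∀ e g, At e (p y) → LineRep p v y e g →
      Module.finrank ℂ (spn g (e (p y))) ≤ s + 1) :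
    ∀ y e g, At e (p y) → LineRep p v y e g → Module.finrank ℂ (spn g (e (p y))) ≤ s + 1 := by
  set Q : Set E := {y | ∀ᶠ y' in 𝓝 y, ∀ e g, At e (p y') → LineRep p v y' e g →
      Module.finrank ℂ (spn g (e (p y'))) ≤ s + 1} with hQ
  have hQo : IsOpen Q := isOpen_iff_mem_nhds.2 fun y hy => hy.eventually_nhds
  have hQc : IsClosed Q := by
    rw [← closure_subset_iff_isClosed]
    intro y₁ hy₁
    set e := chartAt (Cm n) (p y₁) with he_def
    have he : At e (p y₁) := ⟨chart_mem_atlas _ _, mem_chart_source _ _⟩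
    obtain ⟨F, hF, hev⟩ := hol_unif hp hv he
    obtain ⟨ε, hε, hball⟩ := Metric.eventually_nhds_iff_ball.1 hF
    set B := ball (e (p y₁)) ε with hB
    have hBc : IsPreconnected B := (convex_ball _ _).isPreconnected
    have hU : ∀ᶠ y' in 𝓝 y₁, e (p y') ∈ B ∧ At e (p y') ∧
        ∀ ξ, v y' e ξ = F (e (p y'), ξ) :=
      ((tendsto_ep hp he).eventually (ball_mem_nhds _ hε)).and ((at_ev hp he).and hev)
    obtain ⟨y₂, hy₂, hy₂Q⟩ := (mem_closure_iff_frequently.1 hy₁).and_eventually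
      hU.eventually_nhds |>.exists
    -- a representative in the chart `e`
    have hrep : ∀ y', (∀ᶠ y'' in 𝓝 y', e (p y'') ∈ B ∧ At e (p y'') ∧
        ∀ ξ, v y'' e ξ = F (e (p y''), ξ)) → ∀ ξ, F (e (p y'), ξ) ≠ 0 →
        LineRep p v y' e (fun z => F (z, ξ)) := by
      intro y' hy' ξ hξ
      refine ⟨an_slice (hball _ hy'.self_of_nhds.1 ξ), hξ, ?_⟩
      filter_upwards [hy'] with y'' h1
      exact ⟨ξ, 1, one_ne_zero, by rw [one_smul]; exact h1.2.2 ξ⟩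
    show ∀ᶠ y' in 𝓝 y₁, ∀ e g, At e (p y') → LineRep p v y' e g →
      Module.finrank ℂ (spn g (e (p y'))) ≤ s + 1
    filter_upwards [hU.eventually_nhds] with y' h2 e' g' he' hg'
    obtain ⟨ξ', a, ha, k1⟩ := hg'.2.2.self_of_nhds
    have k2 : v y' e' ξ' ≠ 0 := by rw [k1]; exact smul_ne_zero ha hg'.2.1
    have k3 := hv.change y' e' e he' h2.self_of_nhds.2.1 ξ'
    rw [k3] at k2
    set ξ₀ : Fin R → Cm n := fun i => fderiv ℂ (fun z => e (e'.symm z)) (e' (p y')) (ξ' i)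
    set G : Cm n → H := fun z => F (z, ξ₀) with hG
    have k4 : G (e (p y')) ≠ 0 := by
      rw [h2.self_of_nhds.2.2 ξ₀] at k2
      exact k2
    refine (Submodule.finrank_mono (spn_change hm hp hv hd he' h2.self_of_nhds.2.1 hg'
      (hrep y' h2 ξ₀ k4))).trans ?_
    by_contra hcon
    obtain ⟨c, ζ, u, hΔ⟩ := exists_minor (k := s + 2) (g := G) (z := e (p y')) (by
      change ¬ Module.finrank ℂ (spn G (e (p y'))) ≤ s + 1 at hcon
      omega)
    set Δ : Cm n → ℂ := fun x =>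
      (Matrix.of fun i j => ⟪u i, c j • G x + fderiv ℂ G x (ζ j)⟫_ℂ).det with hΔd
    set f : Cm n → ℂ := fun x => ⟪G (e (p y')), G x⟫_ℂ * Δ x with hfd
    have hfan : AnalyticOnNhd ℂ f B := by
      intro z hz
      have h3 : AnalyticAt ℂ G z := an_slice (hball z hz ξ₀)
      exact (((innerSL ℂ (G (e (p y')))).analyticAt _).comp h3).mul (minor_an h3 c ζ u)
    have hz : f =ᶠ[𝓝 (e (p y₂))] 0 := by
      rw [Filter.EventuallyEq, ← ev_iff hp hy₂Q.self_of_nhds.2.1]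
      filter_upwards [hy₂, hy₂Q.eventually_nhds] with y'' a1 a2
      by_cases hG0 : G (e (p y'')) = 0
      · simp [hfd, hG0]
      · have a3 := a1 e G a2.self_of_nhds.2.1 (hrep y'' a2 ξ₀ hG0)
        have a4 : Δ (e (p y'')) = 0 :=
          det_eq_zero_of (V := spn G (e (p y''))) (by omega) u _ fun j =>
            mem_spn.2 ⟨c j, ζ j, rfl⟩
        simp [hfd, a4]
    have h5 := hfan.eqOn_zero_of_preconnected_of_eventuallyEq_zero hBc
      hy₂Q.self_of_nhds.1 hz h2.self_of_nhds.1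
    exact mul_ne_zero (inner_self_ne_zero.2 k4) hΔ h5
  have hQu : Q = univ := IsClopen.eq_univ ⟨hQc, hQo⟩ ⟨y₀, h0⟩
  intro y
  have : y ∈ Q := hQu ▸ mem_univ y
  exact this.self_of_nhds

omit [IsManifold 𝓘(ℂ, Cm n) ω X] [ChartedSpace (Cm n) X] [TopologicalSpace X] [TopologicalSpace E] in
lemma spn_comp_le {γ : Cm s → H} {β : Cm n → Cm s} {z : Cm n} (hβ : AnalyticAt ℂ β z)
    (hγ : AnalyticAt ℂ γ (β z)) :
    Module.finrank ℂ (spn (fun z => γ (β z)) z) ≤ s + 1 := by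
  have h1 : spn (fun z => γ (β z)) z ≤
      Submodule.span ℂ {γ (β z)} ⊔ LinearMap.range (fderiv ℂ γ (β z) : Cm s →ₗ[ℂ] H) := by
    intro x hx
    obtain ⟨c, ζ, rfl⟩ := mem_spn.1 hx
    have h2 : fderiv ℂ (fun z => γ (β z)) z = (fderiv ℂ γ (β z)).comp (fderiv ℂ β z) :=
      fderiv_fun_comp z hγ.differentiableAt hβ.differentiableAt
    rw [h2]
    exact Submodule.add_mem_sup (Submodule.smul_mem _ _ (Submodule.mem_span_singleton_self _))
      ⟨_, rfl⟩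
  refine (Submodule.finrank_mono h1).trans ((Submodule.finrank_add_le_finrank_add_finrank _ _).trans ?_)
  have h3 : Module.finrank ℂ (Submodule.span ℂ {γ (β z)}) ≤ 1 := by
    have := finrank_span_le_card (R := ℂ) ({γ (β z)} : Set H)
    simpa using this
  have h4 : Module.finrank ℂ (LinearMap.range (fderiv ℂ γ (β z) : Cm s →ₗ[ℂ] H)) ≤ s := by
    have := LinearMap.finrank_range_le (fderiv ℂ γ (β z) : Cm s →ₗ[ℂ] H)
    simpa using this
  omega

omit [IsManifold 𝓘(ℂ, Cm n) ω X] [ChartedSpace (Cm n) X] [TopologicalSpace X]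
  [TopologicalSpace E] in
lemma exists_frame {L : Cm n →L[ℂ] Cm R} (hL : Function.Surjective L) :
    ∃ ξ : Fin R → Cm n, (colM L ξ).det ≠ 0 := by
  choose ξ hξ using fun j : Fin R => hL (Pi.single j 1)
  refine ⟨ξ, ?_⟩
  have h1 : colM L ξ = 1 := by
    ext i j
    simp [colM, hξ, Matrix.one_apply, Pi.single_apply]
  rw [h1, Matrix.det_one]
  exact one_ne_zero

/-- the local form at a point where `v ≠ 0` -/
theorem dec_local [CompleteSpace H] (hm : 1 ≤ m) (hp : IsCoveringMap p) (hv : HForm n R m p H v)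
    (hd : ∀ y e, At e (p y) → DecId n R m (v y e))
    (hr : ∀ y e g, At e (p y) → LineRep p v y e g → Module.finrank ℂ (spn g (e (p y))) ≤ s + 1)
    {y : E} {e : Chart n X} (he : At e (p y)) (hNZ : NZ p v y) : DecAt p R m s v y e := by
  obtain ⟨e₁, he₁, ξ₁, hξ₁⟩ := hNZ
  rw [hv.change y e₁ e he₁ he] at hξ₁
  set ξ₀ : Fin R → Cm n := fun i => fderiv ℂ (fun z => e (e₁.symm z)) (e₁ (p y)) (ξ₁ i) with hξ₀
  obtain ⟨F, hF, hev⟩ := hol_unif hp hv he
  set h : H := v y e ξ₀ with hh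
  have hg0 : F (e (p y), ξ₀) = h := (hev.self_of_nhds ξ₀).symm
  have hFan := hF.self_of_nhds
  set c : Cm n → ℂ := fun z => (m : ℂ) * ⟪h, F (z, ξ₀)⟫_ℂ with hc
  have hcan : AnalyticAt ℂ c (e (p y)) :=
    analyticAt_const.mul (((innerSL ℂ h).analyticAt _).comp (an_slice (hFan ξ₀)))
  have hc0 : c (e (p y)) ≠ 0 := by
    simp only [hc, hg0]
    refine mul_ne_zero ?_ (inner_self_ne_zero.2 hξ₁)
    exact_mod_cast (by omega : m ≠ 0)
  set A : Cm n → Matrix (Fin R) (Fin n) ℂ := fun z => Matrix.of fun i k =>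
    (c z)⁻¹ * fderiv ℂ (fun ξ => ⟪h, F (z, ξ)⟫_ℂ) ξ₀
      (Pi.single i (Pi.single k 1) : Fin R → Cm n) with hA
  have hAη : ∀ z (η : Fin R → Cm n), (A z * Matrix.of fun k j => η j k) =
      (c z)⁻¹ • (Matrix.of fun i j => fderiv ℂ (fun ξ => ⟪h, F (z, ξ)⟫_ℂ) ξ₀
        (Pi.single i (η j) : Fin R → Cm n)) := by
    intro z η
    ext i j
    rw [Matrix.mul_apply, Matrix.smul_apply, Matrix.of_apply, smul_eq_mul]
    have h1 : (Pi.single i (η j) : Fin R → Cm n) =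
        ∑ k, η j k • (Pi.single i (Pi.single k (1 : ℂ)) : Fin R → Cm n) := by
      conv_lhs => rw [← Finset.univ_sum_single (η j)]
      ext a b
      by_cases ha : a = i
      · subst ha
        simp [Finset.sum_apply, Pi.single_apply]
      · simp [Finset.sum_apply, ha]
    rw [h1, map_sum, Finset.mul_sum]
    refine Finset.sum_congr rfl fun k _ => ?_
    rw [map_smul, smul_eq_mul]
    simp only [hA, Matrix.of_apply]
    ring
  have hform : ∀ᶠ y' in 𝓝 y, ∀ η : Fin R → Cm n,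
      v y' e η = (A (e (p y')) * Matrix.of fun k j => η j k).det ^ m • F (e (p y'), ξ₀) := by
    have h1 := hcan.continuousAt.eventually_ne hc0
    rw [← ev_iff hp he] at h1
    filter_upwards [h1, hev, at_ev hp he] with y' k1 k2 k3 η
    have k4 := hd y' e k3 h ξ₀ η
    have k5 : v y' e = fun ξ => F (e (p y'), ξ) := funext k2
    rw [hAη, Matrix.det_smul, Fintype.card_fin, mul_pow, mul_smul, ← pow_mul]
    rw [k5] at k4 ⊢
    have k6 : c (e (p y')) ^ (m * R) ≠ 0 := pow_ne_zero _ k1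
    rw [← k4, smul_smul]
    change _ = ((c (e (p y')))⁻¹ ^ (R * m) * c (e (p y')) ^ (m * R)) • _
    rw [mul_comm R m, inv_pow, inv_mul_cancel₀ k6, one_smul]
  have hG0 : (fun z => F (z, ξ₀)) (e (p y)) ≠ 0 := by
    change F (e (p y), ξ₀) ≠ 0
    rw [hg0]; exact hξ₁
  refine ⟨A, fun z => F (z, ξ₀), fun i k => ?_, an_slice (hFan ξ₀), hG0,
    ⟨ξ₀, fun h0 => hξ₁ ?_⟩, hform, rank_cHess_le (an_slice (hFan ξ₀)) hG0
    (hr y e _ he ⟨an_slice (hFan ξ₀), hG0, ?_⟩)⟩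
  · exact (hcan.inv hc0).mul (an_part hF h ξ₀ _)
  · rw [hh, hform.self_of_nhds ξ₀, h0, zero_pow (by omega), zero_smul]
  · filter_upwards [hev] with y' k1
    exact ⟨ξ₀, 1, one_ne_zero, by rw [one_smul]; exact k1 ξ₀⟩

end

/-- **DecStmt**. -/
theorem decStmt : DecStmt := by
  intro n X _ _ _ _ _ E _ _ p hp _ H _ _ _ R m s hR hm v hv y₀ hNF y e he hNZ
  obtain ⟨e₀, b, β, γ, he₀, hb, hbs, hβ, hγ, hγ0, hnf⟩ := hNF
  have h1 : ∀ᶠ y in 𝓝 y₀, ∀ e, At e (p y) → DecId n R m (v y e) := by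
    filter_upwards [hnf, at_ev hp he₀] with y k1 k2 e he
    refine dec_change hv he k2 ?_
    have k3 : v y e₀ = fun ξ => (colM (fderiv ℂ b (e₀ (p y))) ξ).det ^ m • γ (β (e₀ (p y))) :=
      funext k1
    rw [k3]
    exact dec_of_det hR hm _ _
  have hd := dec_all hp hv h1
  obtain ⟨ξ₀, hξ₀⟩ := exists_frame hbs
  have hdet : ∀ᶠ z in 𝓝 (e₀ (p y₀)), (colM (fderiv ℂ b z) ξ₀).det ≠ 0 := by
    have h2 : AnalyticAt ℂ (fun z => (colM (fderiv ℂ b z) ξ₀).det) (e₀ (p y₀)) := by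
      refine an_det fun i j => ?_
      have h3 : AnalyticAt ℂ (fun z => fderiv ℂ b z (ξ₀ j)) (e₀ (p y₀)) :=
        ((ContinuousLinearMap.apply ℂ (Cm R) (ξ₀ j)).analyticAt _).comp hb.fderiv
      exact ((ContinuousLinearMap.proj (R := ℂ) (φ := fun _ : Fin R => ℂ) i).analyticAt _).comp h3
    exact h2.continuousAt.eventually_ne hξ₀
  have hγβ : AnalyticAt ℂ (fun z => γ (β z)) (e₀ (p y₀)) := hγ.comp hβ
  have hne : ∀ᶠ z in 𝓝 (e₀ (p y₀)), γ (β z) ≠ 0 := hγβ.continuousAt.eventually_ne hγ0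
  have han : ∀ᶠ z in 𝓝 (e₀ (p y₀)), AnalyticAt ℂ β z ∧ AnalyticAt ℂ γ (β z) :=
    hβ.eventually_analyticAt.and (hβ.continuousAt.eventually hγ.eventually_analyticAt)
  have h2 : ∀ᶠ y in 𝓝 y₀, ∀ e g, At e (p y) → LineRep p v y e g →
      Module.finrank ℂ (spn g (e (p y))) ≤ s + 1 := by
    have h3 := (hdet.and (hne.and han))
    rw [← ev_iff hp he₀] at h3
    filter_upwards [hnf.eventually_nhds, h3.eventually_nhds, at_ev hp he₀] with y k1 k2 k3 e g he hg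
    have k4 : LineRep p v y e₀ (fun z => γ (β z)) := by
      obtain ⟨a1, a2, a3, a4⟩ := k2.self_of_nhds
      refine ⟨a4.comp a3, a2, ?_⟩
      filter_upwards [k1, k2] with y' b1 b2
      exact ⟨ξ₀, _, pow_ne_zero _ b2.1, b1 ξ₀⟩
    refine (Submodule.finrank_mono (spn_change hm hp hv hd he k3 hg k4)).trans ?_
    exact spn_comp_le k2.self_of_nhds.2.2.1 k2.self_of_nhds.2.2.2
  exact dec_local hm hp hv hd (rank_all hm hp hv hd h2) he hNZ

end Vale.Agent.P284.H335
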