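import Vale.Agent.P284.H335.CStk
import Vale.Agent.P284.H395.StkA
import Vale.Agent.P284.H998.StkU

/-!
# P284 (helper335), C-STK: the theorem
-/

namespace Vale.Agent.P284.H335

/-- **C-STK** -/
theorem cstkStmt : Vale.Agent.P284.H395.CStkStmt :=
  cstk_of Vale.Agent.P284.H395.stkA Vale.Agent.P284.H998.stkUStmt

end Vale.Agent.P284.H335
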