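import Vale.Agent.P284.H625.NS.Spec
import Mathlib.Analysis.InnerProductSpace.TensorProduct
import Mathlib.Analysis.InnerProductSpace.Completion
import Mathlib.Topology.Algebra.LinearMapCompletion
import Mathlib.Analysis.Normed.Module.Multilinear.Curry

/-!
# P284 (helper335), module NS (b): Hilbert space tensor products and tensor powers
-/

open scoped Topology TensorProduct
open Filter

noncomputable section

namespace Vale.Agent.P284.H335

open Vale.Agent.P284.H625

/-- The extension of an isometry to the completions. -/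
theorem exists_isom {A : Type*} [NormedAddCommGroup A] [InnerProductSpace ℂ A] (L : A →ₗᵢ[ℂ] A) :
    ∃ M : UniformSpace.Completion A →ₗᵢ[ℂ] UniformSpace.Completion A,
      ∀ x : A, M (x : UniformSpace.Completion A) = (L x : UniformSpace.Completion A) := by
  set M := L.toContinuousLinearMap.completion with hM
  have h1 : ∀ x : A, M (x : UniformSpace.Completion A) = (L x : UniformSpace.Completion A) := by
    intro x
    rw [hM]
    simp
  refine ⟨⟨M.toLinearMap, ?_⟩, h1⟩
  intro x
  change ‖M x‖ = ‖x‖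
  induction x using UniformSpace.Completion.induction_on with
  | hp => exact isClosed_eq (by fun_prop) (by fun_prop)
  | ih a => rw [h1, UniformSpace.Completion.norm_coe, UniformSpace.Completion.norm_coe, L.norm_map]

theorem tensStmt : TensStmt := by
  intro H K _ _ _ _ _ _
  set j : H ⊗[ℂ] K →L[ℂ] UniformSpace.Completion (H ⊗[ℂ] K) := UniformSpace.Completion.toComplL
    with hj
  refine ⟨UniformSpace.Completion (H ⊗[ℂ] K), inferInstance, inferInstance, inferInstance,
    (ContinuousLinearMap.compL ℂ K (H ⊗[ℂ] K) (UniformSpace.Completion (H ⊗[ℂ] K)) j).comp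
      (TensorProduct.mkL ℂ H K), ?_, ?_⟩
  · intro a b c d
    change inner ℂ ((a ⊗ₜ[ℂ] b : H ⊗[ℂ] K) : UniformSpace.Completion (H ⊗[ℂ] K))
      ((c ⊗ₜ[ℂ] d : H ⊗[ℂ] K) : UniformSpace.Completion (H ⊗[ℂ] K)) = _
    rw [UniformSpace.Completion.inner_coe, TensorProduct.inner_tmul]
  · intro U V
    obtain ⟨M, hM⟩ := exists_isom (TensorProduct.mapIsometry U V)
    refine ⟨M, fun a b => ?_⟩
    change M ((a ⊗ₜ[ℂ] b : H ⊗[ℂ] K) : UniformSpace.Completion (H ⊗[ℂ] K)) =
      ((U a ⊗ₜ[ℂ] V b : H ⊗[ℂ] K) : UniformSpace.Completion (H ⊗[ℂ] K))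
    rw [hM]
    simp

theorem tPowStmt : TPowStmt := by
  intro K _ _ _ n
  induction n with
  | zero =>
    refine ⟨ℂ, inferInstance, inferInstance, inferInstance,
      ContinuousMultilinearMap.constOfIsEmpty ℂ _ 1, ?_, ?_⟩
    · intro a b
      simp
    · intro U
      exact ⟨LinearIsometry.id, fun a => by simp⟩
  | succ n ih =>
    obtain ⟨T, i1, i2, i3, μ, hμ1, hμ2⟩ := ih
    obtain ⟨T', j1, j2, j3, B, hB1, hB2⟩ := tensStmt K T
    refine ⟨T', j1, j2, j3, ContinuousLinearMap.uncurryLeft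
      ((ContinuousLinearMap.compContinuousMultilinearMapL ℂ (fun _ : Fin n => K) T T').flip μ ∘L B),
      ?_, ?_⟩
    · intro a b
      have h1 : ∀ a : Fin (n + 1) → K, ContinuousLinearMap.uncurryLeft
        ((ContinuousLinearMap.compContinuousMultilinearMapL ℂ (fun _ : Fin n => K) T T').flip μ ∘L B) a
          = B (a 0) (μ (Fin.tail a)) := fun _ => rfl
      rw [h1, h1, hB1, hμ1, Fin.prod_univ_succ]
      rfl
    · intro U
      obtain ⟨V, hV⟩ := hμ2 U
      obtain ⟨L, hL⟩ := hB2 U V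
      refine ⟨L, fun a => ?_⟩
      change L (B (a 0) (μ (Fin.tail a))) = B (U (a 0)) (μ (Fin.tail fun i => U (a i)))
      rw [hL, hV]
      rfl

/-- Alternating maps and determinants (vector valued). -/
theorem alt_sum_det {M T : Type*} [AddCommGroup M] [Module ℂ M] [AddCommGroup T] [Module ℂ T]
    {n : ℕ} (g : M [⋀^Fin n]→ₗ[ℂ] T) (A : Matrix (Fin n) (Fin n) ℂ) (b : Fin n → M) :
    g (fun i => ∑ j, A j i • b j) = A.det • g b := by
  classical
  set L : (Fin n → ℂ) →ₗ[ℂ] M := ∑ j, (LinearMap.proj j : (Fin n → ℂ) →ₗ[ℂ] ℂ).smulRight (b j)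
    with hL
  have hLa : ∀ x : Fin n → ℂ, L x = ∑ j, x j • b j := by
    intro x
    simp [hL]
  have hLs : ∀ i, L (Pi.single i 1) = b i := by
    intro i
    rw [hLa, Finset.sum_eq_single i]
    · simp
    · intro k _ hk
      simp [Pi.single_eq_of_ne hk]
    · simp
  have h1 : g.compLinearMap L = (LinearMap.toSpanSingleton ℂ T (g b)).compAlternatingMap
      (Matrix.detRowAlternating (n := Fin n) (R := ℂ)) := by
    refine Module.Basis.ext_alternating (Pi.basisFun ℂ (Fin n)) fun v hv => ?_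
    obtain ⟨σ, hσ⟩ : ∃ σ : Equiv.Perm (Fin n), v = σ :=
      ⟨Equiv.ofBijective v (Finite.injective_iff_bijective.mp hv), rfl⟩
    subst hσ
    have e1 : (fun i => (Pi.basisFun ℂ (Fin n)) (σ i)) =
      (fun i => (Pi.basisFun ℂ (Fin n)) i) ∘ σ := rfl
    rw [e1, AlternatingMap.map_perm, AlternatingMap.map_perm]
    congr 1
    rw [AlternatingMap.compLinearMap_apply]
    change g (fun i => L ((Pi.basisFun ℂ (Fin n)) i)) =
      (Matrix.of fun i : Fin n => (Pi.basisFun ℂ (Fin n)) i).det • g b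
    have e2 : (Matrix.of fun i : Fin n => (Pi.basisFun ℂ (Fin n)) i) =
        (1 : Matrix (Fin n) (Fin n) ℂ) := by
      ext i j
      simp [Pi.basisFun_apply, Matrix.one_apply, Pi.single_apply, eq_comm]
    have e3 : (fun i => L ((Pi.basisFun ℂ (Fin n)) i)) = b := by
      funext i
      rw [Pi.basisFun_apply, hLs]
    rw [e2, e3, Matrix.det_one, one_smul]
  have h2 := congrArg (fun f : (Fin n → ℂ) [⋀^Fin n]→ₗ[ℂ] T => f fun i j => A j i) h1
  have h3 : g (fun i => L fun j => A j i) = (Matrix.of fun i j => A j i).det • g b := h2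
  have h4 : (Matrix.of fun i j => A j i) = A.transpose := rfl
  rw [h4, Matrix.det_transpose] at h3
  rw [← h3]
  congr 1
  funext i
  rw [hLa]

/-- The same for continuous alternating maps. -/
theorem calt_sum_det {M T : Type*} [NormedAddCommGroup M] [NormedSpace ℂ M]
    [NormedAddCommGroup T] [NormedSpace ℂ T]
    {n : ℕ} (g : M [⋀^Fin n]→L[ℂ] T) (A : Matrix (Fin n) (Fin n) ℂ) (b : Fin n → M) :
    g (fun i => ∑ j, A j i • b j) = A.det • g b :=
  alt_sum_det g.toAlternatingMap A b

section altr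
variable {n : ℕ} {K T : Type} [NormedAddCommGroup K] [InnerProductSpace ℂ K]
  [NormedAddCommGroup T] [InnerProductSpace ℂ T]

/-- The antisymmetrisation of a multilinear map, as an alternating map. -/
def altM (μ : ContinuousMultilinearMap ℂ (fun _ : Fin n => K) T) : K [⋀^Fin n]→ₗ[ℂ] T :=
  MultilinearMap.alternatization μ.toMultilinearMap

theorem altM_apply (μ : ContinuousMultilinearMap ℂ (fun _ : Fin n => K) T) (u : Fin n → K) :
    altM μ u = altr μ u := by
  rw [altM, MultilinearMap.alternatization_apply]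
  rfl

theorem altr_sum_det (μ : ContinuousMultilinearMap ℂ (fun _ : Fin n => K) T)
    (A : Matrix (Fin n) (Fin n) ℂ) (b : Fin n → K) :
    altr μ (fun i => ∑ j, A j i • b j) = A.det • altr μ b := by
  rw [← altM_apply, ← altM_apply]
  exact alt_sum_det (altM μ) A b

/-- `⟨Alt a, Alt b⟩ = n! det ⟨a_i, b_j⟩`. -/
theorem inner_altr (μ : ContinuousMultilinearMap ℂ (fun _ : Fin n => K) T)
    (hμ : ∀ a b : Fin n → K, inner ℂ (μ a) (μ b) = ∏ i, inner ℂ (a i) (b i))
    (a b : Fin n → K) :
    inner ℂ (altr μ a) (altr μ b) =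
      (n.factorial : ℂ) * (Matrix.of fun i j => (inner ℂ (a i) (b j) : ℂ)).det := by
  have h1 : ∀ σ : Equiv.Perm (Fin n), inner ℂ (μ (a ∘ σ)) (altr μ b) =
      ((Equiv.Perm.sign σ : ℤ) : ℂ) * (Matrix.of fun i j => (inner ℂ (a i) (b j) : ℂ)).det := by
    intro σ
    have h2 : (Matrix.of fun i j => (inner ℂ (a (σ i)) (b j) : ℂ)).det =
        ((Equiv.Perm.sign σ : ℤ) : ℂ) * (Matrix.of fun i j => (inner ℂ (a i) (b j) : ℂ)).det :=
      Matrix.det_permute σ (Matrix.of fun i j => (inner ℂ (a i) (b j) : ℂ))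
    rw [← h2, ← Matrix.det_transpose, Matrix.det_apply, altr, inner_sum]
    refine Finset.sum_congr rfl fun τ _ => ?_
    have h3 : ∀ (k : ℤ) (x y : T), inner ℂ x (k • y) = (k : ℂ) * inner ℂ x y := by
      intro k x y
      rw [← Int.cast_smul_eq_zsmul ℂ k y, inner_smul_right]
    rw [h3, hμ, Units.smul_def, zsmul_eq_mul]
    rfl
  have h4 : ∀ (k : ℤ) (x y : T), inner ℂ (k • x) y = (k : ℂ) * inner ℂ x y := by
    intro k x y
    rw [← Int.cast_smul_eq_zsmul ℂ k x, inner_smul_left]
    simp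
  conv_lhs => rw [altr]
  rw [sum_inner]
  simp only [h4, h1]
  have h5 : ∀ σ : Equiv.Perm (Fin n), ((Equiv.Perm.sign σ : ℤ) : ℂ) *
      (((Equiv.Perm.sign σ : ℤ) : ℂ) * (Matrix.of fun i j => (inner ℂ (a i) (b j) : ℂ)).det) =
      (Matrix.of fun i j => (inner ℂ (a i) (b j) : ℂ)).det := by
    intro σ
    rw [← mul_assoc]
    rcases Int.units_eq_one_or (Equiv.Perm.sign σ) with h | h <;> simp [h]
  simp only [h5, Finset.sum_const, Finset.card_univ, Fintype.card_perm, Fintype.card_fin,
    nsmul_eq_mul]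

end altr

end Vale.Agent.P284.H335
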