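import Vale.Agent.P284.H998.ZS
import Vale.Agent.P284.H335.GP
import Mathlib.LinearAlgebra.Complex.FiniteDimensional

/-!
# P284 (helper335): local Bertini (`BadStmt` of module Z)
-/

open scoped Manifold ContDiff Topology ComplexOrder
open Set Filter Module

noncomputable section

namespace Vale.Agent.P284.H335

open Vale.Agent.P272.K

/-- The linear map `a ↦ (∑ a j p j, (∑ a j (L j) e_k)_k)`. -/
def bmap (n : ℕ) {ι : Type} [Fintype ι] (p : ι → ℂ) (L : ι → Cm n →L[ℂ] ℂ) :
    (ι → ℂ) →L[ℂ] ℂ × (Fin n → ℂ) :=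
  LinearMap.toContinuousLinearMap
    { toFun := fun c => (∑ i, c i * p i, fun j => ∑ i, c i * L i (Pi.single j 1))
      map_add' := by
        intro c d
        simp only [Pi.add_apply, add_mul, Finset.sum_add_distrib, Prod.mk_add_mk]
        rfl
      map_smul' := by
        intro a c
        simp only [Pi.smul_apply, smul_eq_mul, mul_assoc, ← Finset.mul_sum, RingHom.id_apply,
          Prod.smul_mk]
        rfl }

lemma bmap_apply {n : ℕ} {ι : Type} [Fintype ι] (p : ι → ℂ) (L : ι → Cm n →L[ℂ] ℂ)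
    (c : ι → ℂ) : bmap n p L c = (∑ i, c i * p i, fun j => ∑ i, c i * L i (Pi.single j 1)) := rfl

theorem badStmt : H998.BadStmt := by
  intro n ι _ u z₀ hu hjet
  set A : Cm n → ((ι → ℂ) →L[ℝ] ℂ × (Fin n → ℂ)) :=
    fun z => (bmap n (fun j => u j z) (fun j => fderiv ℂ (u j) z)).restrictScalars ℝ with hAdef
  have hA : ContDiffAt ℝ 1 A z₀ := by
    have hev : ∀ᶠ z in 𝓝 z₀, ∀ j, AnalyticAt ℂ (u j) z :=
      eventually_all.mpr fun j => (hu j).eventually_analyticAt
    obtain ⟨r, hr, hb⟩ := Metric.eventually_nhds_iff_ball.mp hev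
    have h0 : ContDiffOn ℝ 1 A (Metric.ball z₀ r) := by
      rw [contDiffOn_clm_apply]
      intro c z hz
      have ha := hb z hz
      have h1 : ContDiffAt ℂ 1
          (fun z => bmap n (fun j => u j z) (fun j => fderiv ℂ (u j) z) c) z := by
        have h4 : ∀ i, ContDiffAt ℂ 1 (fun z => u i z) z := fun i => (ha i).contDiffAt
        have h3 : ∀ i, ContDiffAt ℂ 1 (fderiv ℂ (u i)) z := fun i => (ha i).fderiv.contDiffAt
        have h5 : ∀ i (j : Fin n), ContDiffAt ℂ 1 (fun z => fderiv ℂ (u i) z (Pi.single j 1)) z :=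
          fun i j => (h3 i).clm_apply contDiffAt_const
        have h6 : ContDiffAt ℂ 1 (fun z => ∑ i, c i * u i z) z :=
          ContDiffAt.sum fun i _ => contDiffAt_const.mul (h4 i)
        have h7 : ContDiffAt ℂ 1
            (fun z => fun j : Fin n => ∑ i, c i * fderiv ℂ (u i) z (Pi.single j 1)) z :=
          contDiffAt_pi.mpr fun j => ContDiffAt.sum fun i _ => contDiffAt_const.mul (h5 i j)
        exact h6.prodMk h7
      exact (h1.restrict_scalars ℝ).contDiffWithinAt
    exact h0.contDiffAt (Metric.ball_mem_nhds z₀ hr)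
  have hs : Function.Surjective (A z₀) := by
    rintro ⟨b, l⟩
    obtain ⟨a, ha1, ha2⟩ := hjet b
      (∑ k, l k • (ContinuousLinearMap.proj k : Cm n →L[ℂ] ℂ))
    refine ⟨a, Prod.ext ha1 ?_⟩
    funext k
    have h1 := congrArg (fun T : Cm n →L[ℂ] ℂ => T (Pi.single k 1)) ha2
    simp only [sum_apply, smul_apply, ContinuousLinearMap.proj_apply, smul_eq_mul] at h1
    change ∑ i, a i * fderiv ℂ (u i) z₀ (Pi.single k 1) = l k
    rw [h1, Finset.sum_eq_single k]
    · simp
    · intro i _ hi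
      simp [Pi.single_eq_of_ne hi]
    · simp
  have hd : finrank ℝ (Cm n) < finrank ℝ (ℂ × (Fin n → ℂ)) := by
    rw [finrank_real_of_complex, finrank_real_of_complex, Module.finrank_prod]
    simp
  obtain ⟨U, hU, hdim⟩ := local_gp hA hs hd
  refine ⟨U, hU, lt_of_le_of_lt (dimH_mono ?_) hdim⟩
  rintro a ⟨z, hz, h1, h2⟩
  refine ⟨z, hz, ?_⟩
  refine Prod.ext h1 ?_
  funext k
  have h3 := congrArg (fun T : Cm n →L[ℂ] ℂ => T (Pi.single k 1)) h2
  simp only [sum_apply, smul_apply, smul_eq_mul, zero_apply] at h3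
  exact h3

end Vale.Agent.P284.H335
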