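import Vale.Agent.P284.H335.Spn
import Vale.Agent.P284.H573.HForm
import Mathlib.Analysis.Calculus.InverseFunctionTheorem.Analytic
import Mathlib.Analysis.Analytic.Constructions

/-!
# P284 (helper335), C-STK, local part: projective coordinates near an immersive point, continuation of
the sheet
-/

open scoped Manifold ContDiff Topology ComplexConjugate ComplexOrder InnerProductSpace
open Filter Set Metric

noncomputable section

namespace Vale.Agent.P284.H335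

open Vale.Agent.P272.K Vale.Agent.P284.H573

section
variable {s : ℕ} {H : Type} [NormedAddCommGroup H] [InnerProductSpace ℂ H]

/-- the affine coordinates `(L w) / (l w)` -/
def prj (l : H →L[ℂ] ℂ) (L : H →L[ℂ] Cm s) (w : H) : Cm s := (l w)⁻¹ • L w

lemma prj_smul (l : H →L[ℂ] ℂ) (L : H →L[ℂ] Cm s) {a : ℂ} (ha : a ≠ 0) (w : H) :
    prj l L (a • w) = prj l L w := by
  simp only [prj, map_smul, smul_eq_mul, smul_smul]
  congr 1
  field_simp

lemma prj_an (l : H →L[ℂ] ℂ) (L : H →L[ℂ] Cm s) {w : H} (hw : l w ≠ 0) :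
    AnalyticAt ℂ (prj l L) w :=
  ((l.analyticAt w).inv hw).smul (L.analyticAt w)

/-- Good coordinates near an immersive point: on `ball b₀ r`, `γ` is analytic, `l (γ b) ≠ 0`, and
`g ∘ prj ∘ γ = id`, with `g` analytic at `prj (γ b)`. -/
structure Crd (γ : Cm s → H) (b₀ : Cm s) (r : ℝ) (l : H →L[ℂ] ℂ) (L : H →L[ℂ] Cm s)
    (g : Cm s → Cm s) : Prop where
  r_pos : 0 < r
  γan : ∀ b ∈ ball b₀ r, AnalyticAt ℂ γ b
  l_ne : ∀ b ∈ ball b₀ r, l (γ b) ≠ 0
  gan : ∀ b ∈ ball b₀ r, AnalyticAt ℂ g (prj l L (γ b))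
  inv : ∀ b ∈ ball b₀ r, g (prj l L (γ b)) = b

lemma Crd.mono {γ : Cm s → H} {b₀ : Cm s} {r r' : ℝ} {l : H →L[ℂ] ℂ} {L : H →L[ℂ] Cm s}
    {g : Cm s → Cm s} (h : Crd γ b₀ r l L g) (h0 : 0 < r') (hr : r' ≤ r) :
    Crd γ b₀ r' l L g where
  r_pos := h0
  γan b hb := h.γan b (ball_subset_ball hr hb)
  l_ne b hb := h.l_ne b (ball_subset_ball hr hb)
  gan b hb := h.gan b (ball_subset_ball hr hb)
  inv b hb := h.inv b (ball_subset_ball hr hb)

lemma Crd.ne {γ : Cm s → H} {b₀ : Cm s} {r : ℝ} {l : H →L[ℂ] ℂ} {L : H →L[ℂ] Cm s}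
    {g : Cm s → Cm s} (h : Crd γ b₀ r l L g) {b : Cm s} (hb : b ∈ ball b₀ r) : γ b ≠ 0 :=
  fun h0 => h.l_ne b hb (by rw [h0, map_zero])

lemma Crd.inj {γ : Cm s → H} {b₀ : Cm s} {r : ℝ} {l : H →L[ℂ] ℂ} {L : H →L[ℂ] Cm s}
    {g : Cm s → Cm s} (h : Crd γ b₀ r l L g) {b b' : Cm s} (hb : b ∈ ball b₀ r)
    (hb' : b' ∈ ball b₀ r) {w : H} {a a' : ℂ} (hw : w ≠ 0) (h1 : w = a • γ b)
    (h2 : w = a' • γ b') : b = b' := by
  have ha : a ≠ 0 := fun h0 => hw (by rw [h1, h0, zero_smul])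
  have ha' : a' ≠ 0 := fun h0 => hw (by rw [h2, h0, zero_smul])
  have h3 : prj l L (γ b) = prj l L (γ b') := by
    rw [← prj_smul l L ha (γ b), ← h1, h2, prj_smul l L ha']
  rw [← h.inv b hb, h3, h.inv b' hb']

/-- `[γ]` is immersive on the whole ball -/
lemma Crd.imm {γ : Cm s → H} {b₀ : Cm s} {r : ℝ} {l : H →L[ℂ] ℂ} {L : H →L[ℂ] Cm s}
    {g : Cm s → Cm s} (h : Crd γ b₀ r l L g) {b : Cm s} (hb : b ∈ ball b₀ r) : ImmAt γ b := by
  refine ⟨h.ne hb, fun η c hη => ?_⟩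
  have hl := h.l_ne b hb
  have h1 : HasFDerivAt γ (fderiv ℂ γ b) b := (h.γan b hb).differentiableAt.hasFDerivAt
  have h2 : HasFDerivAt (prj l L) (fderiv ℂ (prj l L) (γ b)) (γ b) :=
    (prj_an l L hl).differentiableAt.hasFDerivAt
  have h3 : HasFDerivAt g (fderiv ℂ g (prj l L (γ b))) (prj l L (γ b)) :=
    (h.gan b hb).differentiableAt.hasFDerivAt
  have h4 : HasFDerivAt (fun b => g (prj l L (γ b)))
      ((fderiv ℂ g (prj l L (γ b))).comp ((fderiv ℂ (prj l L) (γ b)).comp (fderiv ℂ γ b))) b :=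
    HasFDerivAt.comp b (g := g) h3 (h2.comp b h1)
  have h5 : HasFDerivAt (fun b => g (prj l L (γ b))) (ContinuousLinearMap.id ℂ (Cm s)) b := by
    refine (hasFDerivAt_id b).congr_of_eventuallyEq ?_
    filter_upwards [isOpen_ball.mem_nhds hb] with b' hb'
    exact h.inv b' hb'
  have h6 := h4.unique h5
  -- the derivative of `prj` along `γ b` vanishes
  have h7 : fderiv ℂ (prj l L) (γ b) (γ b) = 0 := by
    have e1 : HasFDerivAt (fun t : ℂ => prj l L ((1 + t) • γ b))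
        ((fderiv ℂ (prj l L) (γ b)).comp ((ContinuousLinearMap.id ℂ ℂ).smulRight (γ b))) 0 := by
      have e2 : HasFDerivAt (fun t : ℂ => (1 + t) • γ b)
          ((ContinuousLinearMap.id ℂ ℂ).smulRight (γ b)) 0 :=
        ((hasFDerivAt_id (0 : ℂ)).const_add 1).smul_const (γ b)
      have e3 : HasFDerivAt (prj l L) (fderiv ℂ (prj l L) (γ b)) ((1 + (0 : ℂ)) • γ b) := by
        rw [add_zero, one_smul]; exact h2
      exact HasFDerivAt.comp (0 : ℂ) (g := prj l L) e3 e2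
    have e4 : HasFDerivAt (fun t : ℂ => prj l L ((1 + t) • γ b)) (0 : ℂ →L[ℂ] Cm s) 0 := by
      refine (hasFDerivAt_const (prj l L (γ b)) (0 : ℂ)).congr_of_eventuallyEq ?_
      have e5 : ∀ᶠ t : ℂ in 𝓝 0, 1 + t ≠ 0 := by
        refine (continuous_const.add continuous_id).continuousAt.eventually_ne ?_
        simp
      filter_upwards [e5] with t ht
      exact prj_smul l L ht (γ b)
    have e6 := e1.unique e4
    have := congrArg (fun A : ℂ →L[ℂ] Cm s => A 1) e6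
    simpa using this
  have h8 := congrArg (fun A : Cm s →L[ℂ] Cm s => A η) h6
  simp only [ContinuousLinearMap.comp_apply, ContinuousLinearMap.id_apply] at h8
  rw [← h8, hη, map_smul, h7, smul_zero, map_zero]

/-- a continuous left inverse of an injective linear map from `ℂˢ` -/
lemma exists_left {L : Cm s →L[ℂ] H} (h : Function.Injective L) :
    ∃ ρ : H →L[ℂ] Cm s, ∀ x, ρ (L x) = x := by
  set K := LinearMap.range (L : Cm s →ₗ[ℂ] H) with hK
  set e := LinearEquiv.ofInjective (L : Cm s →ₗ[ℂ] H) h with he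
  refine ⟨(LinearMap.toContinuousLinearMap (e.symm : K →ₗ[ℂ] Cm s)).comp
    K.orthogonalProjectionOnto, fun x => ?_⟩
  have h2 : K.orthogonalProjectionOnto (L x) = e x :=
    Submodule.orthogonalProjectionOnto_mem_subspace_eq_self (e x)
  show e.symm (K.orthogonalProjectionOnto (L x)) = x
  rw [h2]
  exact e.symm_apply_apply x

/-- existence of good coordinates -/
theorem exists_crd [CompleteSpace H] {γ : Cm s → H} {b₀ : Cm s} (hγ : AnalyticAt ℂ γ b₀) (hi : ImmAt γ b₀) :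
    ∃ r l L g, Crd γ b₀ r l L g := by
  obtain ⟨h0, hi⟩ := hi
  set N : ℂ := ⟪γ b₀, γ b₀⟫_ℂ with hN
  have hN0 : N ≠ 0 := inner_self_ne_zero.2 h0
  set l : H →L[ℂ] ℂ := N⁻¹ • innerSL ℂ (γ b₀) with hl
  have hl1 : l (γ b₀) = 1 := by
    change N⁻¹ * ⟪γ b₀, γ b₀⟫_ℂ = 1
    rw [← hN, inv_mul_cancel₀ hN0]
  set P : H →L[ℂ] H := ContinuousLinearMap.id ℂ H - l.smulRight (γ b₀) with hP
  have hPw : ∀ w, P w = w - l w • γ b₀ := fun w => rfl
  have hP0 : P (γ b₀) = 0 := by rw [hPw, hl1, one_smul, sub_self]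
  have hinj : Function.Injective (P.comp (fderiv ℂ γ b₀)) := by
    rw [injective_iff_map_eq_zero]
    intro η hη
    refine hi η (l (fderiv ℂ γ b₀ η)) ?_
    have : P (fderiv ℂ γ b₀ η) = 0 := hη
    rw [hPw] at this
    exact sub_eq_zero.1 this
  obtain ⟨ρ, hρ⟩ := exists_left hinj
  set L : H →L[ℂ] Cm s := ρ.comp P with hL
  have hLγ : L (γ b₀) = 0 := by
    show ρ (P (γ b₀)) = 0
    rw [hP0, map_zero]
  set φ : Cm s → Cm s := fun b => prj l L (γ b) with hφ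
  have hφan : AnalyticAt ℂ φ b₀ :=
    AnalyticAt.comp (g := prj l L) (prj_an l L (by rw [hl1]; exact one_ne_zero)) hγ
  have hφd : HasFDerivAt φ (ContinuousLinearMap.id ℂ (Cm s)) b₀ := by
    have e1 : HasFDerivAt γ (fderiv ℂ γ b₀) b₀ := hγ.differentiableAt.hasFDerivAt
    have e2 : HasFDerivAt (fun b => (l (γ b))⁻¹) (fderiv ℂ (fun b => (l (γ b))⁻¹) b₀) b₀ := by
      have : AnalyticAt ℂ (fun b => (l (γ b))⁻¹) b₀ :=
        ((l.analyticAt _).comp hγ).inv (by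
          show l (γ b₀) ≠ 0
          rw [hl1]; exact one_ne_zero)
      exact this.differentiableAt.hasFDerivAt
    have e3 := e2.fun_smul (L.hasFDerivAt.comp b₀ e1)
    refine e3.congr_fderiv ?_
    ext v : 1
    simp only [Function.comp_apply, hl1, hLγ]
    simp
    exact hρ v
  have hφs : HasStrictFDerivAt φ ((ContinuousLinearEquiv.refl ℂ (Cm s) : Cm s ≃L[ℂ] Cm s) :
      Cm s →L[ℂ] Cm s) b₀ := by
    have := hφan.hasStrictFDerivAt
    rw [hφd.fderiv] at this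
    exact this
  set Φ := hφs.toOpenPartialHomeomorph φ with hΦ
  have hbs : b₀ ∈ Φ.source := hφs.mem_toOpenPartialHomeomorph_source
  have han : AnalyticAt ℂ Φ.symm (φ b₀) :=
    Φ.analyticAt_symm' (i := ContinuousLinearEquiv.refl ℂ (Cm s)) hbs hφan hφd.fderiv
  have hlne : ∀ᶠ b in 𝓝 b₀, l (γ b) ≠ 0 :=
    (l.continuous.continuousAt.comp hγ.continuousAt).eventually_ne (by
      show l (γ b₀) ≠ 0
      rw [hl1]; exact one_ne_zero)
  have hsrc : ∀ᶠ b in 𝓝 b₀, b ∈ Φ.source := Φ.open_source.mem_nhds hbs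
  obtain ⟨r, hr, hball⟩ := Metric.eventually_nhds_iff_ball.1 (hsrc.and (hlne.and
      (hγ.eventually_analyticAt.and (hφan.continuousAt.eventually han.eventually_analyticAt))))
  exact ⟨r, l, L, Φ.symm, ⟨hr, fun b hb => (hball b hb).2.2.1, fun b hb => (hball b hb).2.1,
    fun b hb => (hball b hb).2.2.2, fun b hb => Φ.left_inv (hball b hb).1⟩⟩

end

section
variable {s q k : ℕ}

/-- equations of the planes `range (N b)` -/
structure Eqs (N : Cm s → Cm k →L[ℂ] Cm q) (Qe : Cm s → Cm q →L[ℂ] Cm q) (b₀ : Cm s) (r : ℝ) :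
    Prop where
  an : ∀ b ∈ ball b₀ r, AnalyticAt ℂ Qe b
  iff : ∀ b ∈ ball b₀ r, ∀ x, Qe b x = 0 ↔ x ∈ LinearMap.range (N b : Cm k →ₗ[ℂ] Cm q)

lemma Eqs.mono {N : Cm s → Cm k →L[ℂ] Cm q} {Qe : Cm s → Cm q →L[ℂ] Cm q} {b₀ : Cm s} {r r' : ℝ}
    (h : Eqs N Qe b₀ r) (hr : r' ≤ r) : Eqs N Qe b₀ r' :=
  ⟨fun b hb => h.an b (ball_subset_ball hr hb), fun b hb => h.iff b (ball_subset_ball hr hb)⟩

theorem exists_eqs {N : Cm s → Cm k →L[ℂ] Cm q} {b₀ : Cm s} (hN : AnalyticAt ℂ N b₀)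
    (hi : Function.Injective (N b₀)) : ∃ r Qe, 0 < r ∧ Eqs N Qe b₀ r := by
  obtain ⟨M, hM⟩ : ∃ M : Cm q →L[ℂ] Cm k, ∀ x, M (N b₀ x) = x := by
    obtain ⟨g, hg⟩ := (N b₀ : Cm k →ₗ[ℂ] Cm q).exists_leftInverse_of_injective
      (LinearMap.ker_eq_bot.2 hi)
    exact ⟨LinearMap.toContinuousLinearMap g, fun x => congrArg (fun A : Cm k →ₗ[ℂ] Cm k => A x) hg⟩
  set U : Cm s → Cm k →L[ℂ] Cm k := fun b => M.comp (N b) with hU
  have hU0 : U b₀ = 1 := by
    ext x : 1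
    exact hM x
  have hUan : ∀ b, AnalyticAt ℂ N b → AnalyticAt ℂ U b := fun b hb =>
    ((ContinuousLinearMap.compL ℂ (Cm k) (Cm q) (Cm k) M).analyticAt _).comp hb
  have hunit : ∀ᶠ b in 𝓝 b₀, IsUnit (U b) := by
    have h1 : IsUnit (U b₀) := by rw [hU0]; exact isUnit_one
    exact (hUan b₀ hN).continuousAt.eventually (Units.isOpen.mem_nhds h1)
  obtain ⟨r, hr, hball⟩ := Metric.eventually_nhds_iff_ball.1 (hunit.and hN.eventually_analyticAt)
  set J : Cm s → Cm k →L[ℂ] Cm k := fun b => Ring.inverse (U b) with hJ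
  set Qe : Cm s → Cm q →L[ℂ] Cm q := fun b =>
    ContinuousLinearMap.id ℂ (Cm q) - (N b).comp ((J b).comp M) with hQq
  refine ⟨r, Qe, hr, fun b hb => ?_, fun b hb x => ?_⟩
  · obtain ⟨⟨u, hu⟩, h2⟩ := hball b hb
    have h3 : AnalyticAt ℂ J b := by
      have h4 : AnalyticAt ℂ (Ring.inverse : (Cm k →L[ℂ] Cm k) → (Cm k →L[ℂ] Cm k)) (U b) := by
        rw [← hu]; exact analyticAt_inverse u
      exact h4.comp (hUan b h2)
    have h5 : AnalyticAt ℂ (fun b => (J b).comp M) b :=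
      (((ContinuousLinearMap.compL ℂ (Cm q) (Cm k) (Cm k)).flip M).analyticAt _).comp h3
    have h6 : AnalyticAt ℂ (fun b => (N b).comp ((J b).comp M)) b :=
      ((ContinuousLinearMap.compL ℂ (Cm q) (Cm k) (Cm q)).analyticAt_bilinear _).comp₂ h2 h5
    exact analyticAt_const.sub h6
  · obtain ⟨h1, -⟩ := hball b hb
    have h2 : J b * U b = 1 := Ring.inverse_mul_cancel _ h1
    have hQx : Qe b x = x - N b (J b (M x)) := rfl
    rw [hQx]
    constructor
    · intro h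
      exact ⟨J b (M x), (sub_eq_zero.1 h).symm⟩
    · rintro ⟨y, rfl⟩
      have h3 : J b (M (N b y)) = y := by
        have := congrArg (fun A : Cm k →L[ℂ] Cm k => A y) h2
        exact this
      show N b y - N b (J b (M (N b y))) = 0
      rw [h3, sub_self]

end

end Vale.Agent.P284.H335
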