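import Vale.Agent.P284.H335.CStkA

/-!
# P284 (helper335), C-STK, local part: closedness of the sheet, the kernel of `i∂∂̄ log ‖W‖²`
-/

open scoped Manifold ContDiff Topology ComplexConjugate ComplexOrder InnerProductSpace
open Filter Set Metric

noncomputable section

namespace Vale.Agent.P284.H335

open Vale.Agent.P272.K Vale.Agent.P284.H573 Vale.Agent.P284.H213.KL

section
variable {n s q k : ℕ} {H : Type} [NormedAddCommGroup H] [InnerProductSpace ℂ H]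

/-- near `z`, `G ∈ ℂ γ(β)` and `f ∈ t(β) + range N(β)`, with `β z = b` -/
def LSh (γ : Cm s → H) (t : Cm s → Cm q) (N : Cm s → Cm k →L[ℂ] Cm q) (G : Cm n → H)
    (f : Cm n → Cm q) (z : Cm n) (b : Cm s) : Prop :=
  ∃ β : Cm n → Cm s, AnalyticAt ℂ β z ∧ β z = b ∧ ∀ᶠ z' in 𝓝 z,
    (∃ a : ℂ, G z' = a • γ (β z')) ∧
      f z' - t (β z') ∈ LinearMap.range (N (β z') : Cm k →ₗ[ℂ] Cm q)

variable {γ : Cm s → H} {t : Cm s → Cm q} {N : Cm s → Cm k →L[ℂ] Cm q} {b₀ : Cm s} {r ρ : ℝ}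
  {l : H →L[ℂ] ℂ} {L : H →L[ℂ] Cm s} {g : Cm s → Cm s} {Qe : Cm s → Cm q →L[ℂ] Cm q}

/-- **closedness of the sheet** -/
theorem lsh_closed [CompleteSpace H] (hc : Crd γ b₀ r l L g) (ht : ∀ b ∈ ball b₀ r, AnalyticAt ℂ t b)
    (hE : Eqs N Qe b₀ r) (hρ : ρ < r) {G : Cm n → H} {f : Cm n → Cm q} {z₀ : Cm n}
    (hG : AnalyticAt ℂ G z₀) (hG0 : G z₀ ≠ 0) (hf : AnalyticAt ℂ f z₀)
    (hfr : ∃ᶠ z in 𝓝 z₀, ∃ b ∈ closedBall b₀ ρ, LSh γ t N G f z b) :
    ∃ b ∈ closedBall b₀ ρ, LSh γ t N G f z₀ b := by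
  have hsub : closedBall b₀ ρ ⊆ ball b₀ r := closedBall_subset_ball hρ
  -- the limit of the base points
  have hne : (𝓝 z₀ ⊓ 𝓟 {z | ∃ b ∈ closedBall b₀ ρ, LSh γ t N G f z b}).NeBot :=
    frequently_iff_neBot.1 hfr
  set U := Ultrafilter.of (𝓝 z₀ ⊓ 𝓟 {z | ∃ b ∈ closedBall b₀ ρ, LSh γ t N G f z b}) with hU
  have hU1 : (U : Filter (Cm n)) ≤ 𝓝 z₀ := (Ultrafilter.of_le _).trans inf_le_left
  have hU2 : ∀ᶠ z in (U : Filter (Cm n)), ∃ b ∈ closedBall b₀ ρ, LSh γ t N G f z b :=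
    ((Ultrafilter.of_le _).trans inf_le_right) (mem_principal_self _)
  have hch : ∃ b : Cm n → Cm s, ∀ᶠ z in (U : Filter (Cm n)), b z ∈ closedBall b₀ ρ ∧
      LSh γ t N G f z (b z) := by
    classical
    refine ⟨fun z => if h : ∃ b ∈ closedBall b₀ ρ, LSh γ t N G f z b then h.choose else b₀, ?_⟩
    filter_upwards [hU2] with z hz
    simp only [dif_pos hz]
    exact hz.choose_spec
  obtain ⟨b, hb⟩ := hch
  obtain ⟨b₁, hb₁, hlim⟩ := (isCompact_closedBall b₀ ρ).ultrafilter_le_nhds (U.map b) (by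
    rw [le_principal_iff]
    exact hb.mono fun z hz => hz.1)
  have hlim' : Tendsto b U (𝓝 b₁) := hlim
  have hl1 := hc.l_ne b₁ (hsub hb₁)
  have hγ1 := hc.γan b₁ (hsub hb₁)
  have hlim1 : l (γ b₁) • G z₀ = l (G z₀) • γ b₁ := by
    have e1 : Tendsto (fun z => l (γ (b z)) • G z) U (𝓝 (l (γ b₁) • G z₀)) :=
      ((l.continuous.tendsto _).comp (hγ1.continuousAt.tendsto.comp hlim')).smul
        (hG.continuousAt.tendsto.mono_left hU1)
    have e2 : Tendsto (fun z => l (G z) • γ (b z)) U (𝓝 (l (G z₀) • γ b₁)) :=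
      ((l.continuous.tendsto _).comp (hG.continuousAt.tendsto.mono_left hU1)).smul
        (hγ1.continuousAt.tendsto.comp hlim')
    refine tendsto_nhds_unique e1 (e2.congr' ?_)
    filter_upwards [hb] with z hz
    obtain ⟨β, h1, h2, h3⟩ := hz.2
    obtain ⟨a, ha⟩ := h3.self_of_nhds.1
    rw [h2] at ha
    rw [ha, map_smul, smul_eq_mul, smul_smul, mul_comm]
  have hlG : l (G z₀) ≠ 0 := by
    intro h
    rw [h, zero_smul] at hlim1
    exact (smul_ne_zero hl1 hG0) hlim1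
  have hG1 : G z₀ = ((l (γ b₁))⁻¹ * l (G z₀)) • γ b₁ := by
    rw [mul_smul, ← hlim1, smul_smul, inv_mul_cancel₀ hl1, one_smul]
  have hp1 : prj l L (G z₀) = prj l L (γ b₁) := by
    rw [hG1, prj_smul l L (mul_ne_zero (inv_ne_zero hl1) hlG)]
  set β : Cm n → Cm s := fun z => g (prj l L (G z)) with hβ
  have hβ0 : β z₀ = b₁ := by
    show g (prj l L (G z₀)) = b₁
    rw [hp1, hc.inv b₁ (hsub hb₁)]
  have hpan : AnalyticAt ℂ (fun z => prj l L (G z)) z₀ :=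
    AnalyticAt.comp (g := prj l L) (prj_an l L hlG) hG
  have hβan : AnalyticAt ℂ β z₀ :=
    AnalyticAt.comp (g := g) (by
      show AnalyticAt ℂ g (prj l L (G z₀))
      rw [hp1]; exact hc.gan b₁ (hsub hb₁)) hpan
  have hβr : ∀ᶠ z in 𝓝 z₀, β z ∈ ball b₀ r :=
    hβan.continuousAt.eventually (isOpen_ball.mem_nhds (by rw [hβ0]; exact hsub hb₁))
  have hlGev : ∀ᶠ z in 𝓝 z₀, l (G z) ≠ 0 :=
    (l.continuous.continuousAt.comp hG.continuousAt).eventually_ne hlG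
  obtain ⟨ε, hε, hball⟩ := Metric.eventually_nhds_iff_ball.1
    (hG.eventually_analyticAt.and (hlGev.and (hβan.eventually_analyticAt.and
      (hβr.and hf.eventually_analyticAt))))
  set B := ball z₀ ε with hB
  have hBc : IsPreconnected B := (convex_ball _ _).isPreconnected
  set Ψ : Cm n → H := fun z => l (γ (β z)) • G z - l (G z) • γ (β z) with hΨ
  set Ψ₂ : Cm n → Cm q := fun z => Qe (β z) (f z - t (β z)) with hΨ₂
  have hΨan : AnalyticOnNhd ℂ Ψ B := by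
    intro z hz
    obtain ⟨a1, a2, a3, a4, a5⟩ := hball z hz
    have hγβ : AnalyticAt ℂ (fun z => γ (β z)) z := AnalyticAt.comp (g := γ) (hc.γan _ a4) a3
    exact (((l.analyticAt _).comp hγβ).smul a1).sub (((l.analyticAt _).comp a1).smul hγβ)
  have hΨ₂an : AnalyticOnNhd ℂ Ψ₂ B := by
    intro z hz
    obtain ⟨a1, a2, a3, a4, a5⟩ := hball z hz
    have h1 : AnalyticAt ℂ (fun z => Qe (β z)) z := AnalyticAt.comp (g := Qe) (hE.an _ a4) a3
    have h2 : AnalyticAt ℂ (fun z => f z - t (β z)) z :=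
      a5.sub (AnalyticAt.comp (g := t) (ht _ a4) a3)
    exact (ContinuousLinearMap.analyticAt_bilinear (ContinuousLinearMap.id ℂ (Cm q →L[ℂ] Cm q))
      (Qe (β z), f z - t (β z))).comp₂ h1 h2
  obtain ⟨z₁, ⟨b', hb', β₁, h1, h2, h3⟩, hz₁⟩ :=
    (hfr.and_eventually (ball_mem_nhds z₀ hε)).exists
  have hβ₁r : ∀ᶠ z in 𝓝 z₁, β₁ z ∈ ball b₀ r :=
    h1.continuousAt.eventually (isOpen_ball.mem_nhds (by rw [h2]; exact hsub hb'))
  have heq : ∀ᶠ z in 𝓝 z₁, β z = β₁ z := by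
    filter_upwards [h3, hβ₁r, isOpen_ball.mem_nhds hz₁] with z a1 a2 a3
    obtain ⟨a, ha⟩ := a1.1
    have ha0 : a ≠ 0 := by
      intro h0
      exact (hball z a3).2.1 (by rw [ha, h0, zero_smul, map_zero])
    show g (prj l L (G z)) = β₁ z
    rw [ha, prj_smul l L ha0, hc.inv _ a2]
  have hz1 : Ψ =ᶠ[𝓝 z₁] 0 := by
    filter_upwards [heq, h3] with z a1 a2
    obtain ⟨a, ha⟩ := a2.1
    show l (γ (β z)) • G z - l (G z) • γ (β z) = 0
    rw [a1, ha, map_smul, smul_eq_mul, smul_smul, mul_comm, sub_self]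
  have hz2 : Ψ₂ =ᶠ[𝓝 z₁] 0 := by
    filter_upwards [heq, h3, hβ₁r] with z a1 a2 a3
    show Qe (β z) (f z - t (β z)) = 0
    rw [a1]
    exact (hE.iff _ a3 _).2 a2.2
  have hall1 := hΨan.eqOn_zero_of_preconnected_of_eventuallyEq_zero hBc hz₁ hz1
  have hall2 := hΨ₂an.eqOn_zero_of_preconnected_of_eventuallyEq_zero hBc hz₁ hz2
  refine ⟨b₁, hb₁, β, hβan, hβ0, ?_⟩
  filter_upwards [ball_mem_nhds z₀ hε] with z hz
  obtain ⟨a1, a2, a3, a4, a5⟩ := hball z hz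
  refine ⟨⟨(l (γ (β z)))⁻¹ * l (G z), ?_⟩, (hE.iff _ a4 _).1 (hall2 hz)⟩
  have h5 : l (γ (β z)) • G z = l (G z) • γ (β z) := sub_eq_zero.1 (hall1 hz)
  rw [mul_smul, ← h5, smul_smul, inv_mul_cancel₀ (hc.l_ne _ a4), one_smul]

end

section
variable {n : ℕ} {H : Type} [NormedAddCommGroup H] [InnerProductSpace ℂ H] [CompleteSpace H]

open Vale.Agent.P272.K.C2

/-- `i∂∂̄ log ‖W‖²` as a Gram matrix -/
theorem cHess_log_gram {W : Cm n → H} {z : Cm n} (hW : AnalyticAt ℂ W z) (h0 : W z ≠ 0) :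
    ∃ (c : ℂ) (P : H →ₗ[ℂ] H), c ≠ 0 ∧ (∀ x, P x = 0 ↔ ∃ a : ℂ, x = a • W z) ∧
      ∀ j k, cHess (fun x => Real.log (‖W x‖ ^ 2)) z j k =
        c * ⟪P (fderiv ℂ W z (Pi.single k 1)), P (fderiv ℂ W z (Pi.single j 1))⟫_ℂ := by
  set N : ℝ := ‖W z‖ ^ 2 with hN
  have hN0 : 0 < N := by positivity
  have hgg : ⟪W z, W z⟫_ℂ = (N : ℂ) := (ofReal_normSq _).symm
  set P : H →ₗ[ℂ] H := LinearMap.id -
    ((N : ℂ)⁻¹ • ((innerSL ℂ (W z) : H →L[ℂ] ℂ) : H →ₗ[ℂ] ℂ)).smulRight (W z) with hP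
  have hPx : ∀ x, P x = x - ((N : ℂ)⁻¹ * ⟪W z, x⟫_ℂ) • W z := fun x => by
    simp [hP]
  have hNc : (N : ℂ) ≠ 0 := by exact_mod_cast hN0.ne'
  refine ⟨(N : ℂ)⁻¹, P, inv_ne_zero hNc, fun x => ⟨fun h => ⟨(N : ℂ)⁻¹ * ⟪W z, x⟫_ℂ, ?_⟩, ?_⟩,
    fun j k => ?_⟩
  · rw [hPx] at h
    exact sub_eq_zero.1 h
  · rintro ⟨a, rfl⟩
    rw [hPx, inner_smul_right, hgg]
    have : (N : ℂ)⁻¹ * (a * N) = a := by field_simp
    rw [this, sub_self]
  · rw [cHess_log (u := fun x => ‖W x‖ ^ 2) ((contDiffAt_normSq hW).of_le (by norm_cast)) hN0,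
      cHess_normSqH hW]
    have h1 : (fun y => ((‖W y‖ ^ 2 : ℝ) : ℂ)) = fun y => ⟪W y, W y⟫_ℂ := by
      funext y; exact ofReal_normSq _
    rw [h1, dz_inner_holo hW.differentiableAt hW.differentiableAt,
      dzb_inner_holo hW.differentiableAt hW.differentiableAt, hPx, hPx]
    rw [inner_sub_left, inner_sub_right, inner_sub_right, inner_smul_left, inner_smul_left,
      inner_smul_right, inner_smul_right, hgg, map_mul, map_inv₀, Complex.conj_ofReal,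
      inner_conj_symm]
    simp only [← hN]
    field_simp
    ring

/-- the kernel of `i∂∂̄ log ‖W‖²` -/
theorem ker_cHess_log {W : Cm n → H} {z : Cm n} (hW : AnalyticAt ℂ W z) (h0 : W z ≠ 0)
    (ξ : Cm n) :
    (∀ k, ∑ j, cHess (fun x => Real.log (‖W x‖ ^ 2)) z j k * ξ j = 0) ↔
      ∃ a : ℂ, fderiv ℂ W z ξ = a • W z := by
  obtain ⟨c, P, hc, hP, hM⟩ := cHess_log_gram hW h0
  set D : Fin n → H := fun j => fderiv ℂ W z (Pi.single j 1) with hD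
  have hξ : fderiv ℂ W z ξ = ∑ j, ξ j • D j := by
    have h1 : ξ = ∑ j, ξ j • (Pi.single j (1 : ℂ) : Cm n) := by
      conv_lhs => rw [← Finset.univ_sum_single ξ]
      refine Finset.sum_congr rfl fun j _ => ?_
      rw [← Pi.single_smul]; simp
    conv_lhs => rw [h1]
    rw [map_sum]
    exact Finset.sum_congr rfl fun j _ => map_smul _ _ _
  have hk : ∀ k, ∑ j, cHess (fun x => Real.log (‖W x‖ ^ 2)) z j k * ξ j =
      c * ⟪P (D k), P (fderiv ℂ W z ξ)⟫_ℂ := by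
    intro k
    rw [hξ, map_sum, inner_sum, Finset.mul_sum]
    refine Finset.sum_congr rfl fun j _ => ?_
    rw [hM, map_smul, inner_smul_right]
    ring
  rw [← hP]
  constructor
  · intro h
    have h1 : ∀ k, ⟪P (D k), P (fderiv ℂ W z ξ)⟫_ℂ = 0 := fun k => by
      have := h k
      rw [hk] at this
      exact (mul_eq_zero.1 this).resolve_left hc
    have h2 : ⟪P (fderiv ℂ W z ξ), P (fderiv ℂ W z ξ)⟫_ℂ = 0 := by
      have h3 : P (fderiv ℂ W z ξ) = ∑ k, ξ k • P (D k) := by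
        rw [hξ, map_sum]
        exact Finset.sum_congr rfl fun j _ => map_smul _ _ _
      calc ⟪P (fderiv ℂ W z ξ), P (fderiv ℂ W z ξ)⟫_ℂ
          = ⟪∑ k, ξ k • P (D k), P (fderiv ℂ W z ξ)⟫_ℂ := by rw [← h3]
        _ = 0 := by
          rw [sum_inner]
          refine Finset.sum_eq_zero fun k _ => ?_
          rw [inner_smul_left, h1, mul_zero]
    exact inner_self_eq_zero.1 h2
  · intro h k
    rw [hk, h, inner_zero_right, mul_zero]

variable {s : ℕ}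

/-- `W = a γ(β)` near `z` -/
theorem ker_iff {γ : Cm s → H} {β : Cm n → Cm s} {W : Cm n → H} {z : Cm n} (hW : AnalyticAt ℂ W z)
    (h0 : W z ≠ 0) (hβ : AnalyticAt ℂ β z) (hγ : AnalyticAt ℂ γ (β z)) (hi : ImmAt γ (β z))
    (h : ∀ᶠ z' in 𝓝 z, ∃ a : ℂ, W z' = a • γ (β z')) (ξ : Cm n) :
    (∀ k, ∑ j, cHess (fun x => Real.log (‖W x‖ ^ 2)) z j k * ξ j = 0) ↔ fderiv ℂ β z ξ = 0 := by
  rw [ker_cHess_log hW h0]
  set w₀ := γ (β z) with hw₀
  have hγβ : AnalyticAt ℂ (fun z => γ (β z)) z := AnalyticAt.comp (g := γ) hγ hβ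
  have hd0 : ⟪w₀, γ (β z)⟫_ℂ ≠ 0 := inner_self_ne_zero.2 hi.1
  set a : Cm n → ℂ := fun z' => ⟪w₀, W z'⟫_ℂ * (⟪w₀, γ (β z')⟫_ℂ)⁻¹ with ha
  have haan : AnalyticAt ℂ a z := by
    refine (((innerSL ℂ w₀).analyticAt _).comp hW).mul ?_
    exact (((innerSL ℂ w₀).analyticAt _).comp hγβ).inv hd0
  have hev : ∀ᶠ z' in 𝓝 z, ⟪w₀, γ (β z')⟫_ℂ ≠ 0 :=
    (((innerSL ℂ w₀).continuous.continuousAt).comp hγβ.continuousAt).eventually_ne hd0
  have hWe : W =ᶠ[𝓝 z] fun z' => a z' • γ (β z') := by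
    filter_upwards [h, hev] with z' h1 h2
    obtain ⟨c, hc⟩ := h1
    simp only [ha]
    rw [hc, inner_smul_right, mul_assoc, mul_inv_cancel₀ h2, mul_one]
  have ha0 : a z ≠ 0 := by
    intro h1
    have h2 : W z = a z • γ (β z) := hWe.self_of_nhds
    rw [h1, zero_smul] at h2
    exact h0 h2
  have hdW : fderiv ℂ W z ξ = a z • fderiv ℂ γ (β z) (fderiv ℂ β z ξ) +
      fderiv ℂ a z ξ • γ (β z) := by
    rw [hWe.fderiv_eq]
    have h3 : HasFDerivAt (fun x => γ (β x)) ((fderiv ℂ γ (β z)).comp (fderiv ℂ β z)) z :=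
      hγ.differentiableAt.hasFDerivAt.comp z hβ.differentiableAt.hasFDerivAt
    rw [(haan.differentiableAt.hasFDerivAt.fun_smul h3).fderiv]
    simp
  have hWz : W z = a z • γ (β z) := hWe.self_of_nhds
  constructor
  · rintro ⟨c, hc⟩
    rw [hdW, hWz, smul_smul] at hc
    refine hi.2 _ ((a z)⁻¹ * (c * a z - fderiv ℂ a z ξ)) ?_
    have h4 : a z • fderiv ℂ γ (β z) (fderiv ℂ β z ξ) = (c * a z - fderiv ℂ a z ξ) • γ (β z) := by
      rw [sub_smul, ← hc]; abel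
    rw [mul_smul, ← h4, smul_smul, inv_mul_cancel₀ ha0, one_smul]
  · intro h5
    refine ⟨fderiv ℂ a z ξ * (a z)⁻¹, ?_⟩
    rw [hdW, h5, map_zero, smul_zero, zero_add, hWz, smul_smul, mul_assoc, inv_mul_cancel₀ ha0,
      mul_one]

end

end Vale.Agent.P284.H335
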