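import Vale.Agent.P284.H335.CStkB
import Vale.Agent.P284.H335.Dec
import Vale.Agent.P284.H395.StkS
import Vale.Agent.P284.H395.Coset
import Vale.Agent.P284.H494.Loc
import Vale.Agent.P284.H221.C7
import Mathlib.Analysis.Calculus.BumpFunction.FiniteDimension

/-!
# P284 (helper335), C-STK: the sheet on the covering, the functions `Φ`, `Ψ`
-/

open scoped Manifold ContDiff Topology ComplexConjugate ComplexOrder InnerProductSpace
open Filter Set Metric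

noncomputable section

namespace Vale.Agent.P284.H335

open Vale.Agent.P272.K Vale.Agent.P284.H573 Vale.Agent.P284.H395 Vale.Agent.P284.H894
  Vale.Agent.P284.H894.G Vale.Agent.P284.H894.V Vale.Agent.P284.H894.W Vale.Agent.P284.H998

section
variable {n R m s q k : ℕ} {X : Type} [TopologicalSpace X] [ChartedSpace (Cm n) X]
  {E : Type} [TopologicalSpace E] {p : E → X} {H : Type} [NormedAddCommGroup H]
  [InnerProductSpace ℂ H] {v : E → Chart n X → (Fin R → Cm n) → H} {F : E → Cm q}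
  {D : LeafDat q s k H}

lemma nz_chart (hv : HForm n R m p H v) {y : E} (h : NZ p v y) {e : Chart n X} (he : At e (p y)) :
    ∃ ξ, v y e ξ ≠ 0 := by
  obtain ⟨e₁, he₁, ξ₁, hξ₁⟩ := h
  rw [hv.change y e₁ e he₁ he] at hξ₁
  exact ⟨_, hξ₁⟩

lemma nz_open (hp : IsCoveringMap p) (hv : HForm n R m p H v) {y : E} (h : NZ p v y) :
    ∀ᶠ y' in 𝓝 y, NZ p v y' := by
  obtain ⟨e, he, ξ, hξ⟩ := h
  obtain ⟨V, hV, hev⟩ := hv.hol y e he
  have h1 : ContinuousAt (fun z => V (z, ξ)) (e (p y)) := (an_slice (hV ξ)).continuousAt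
  have h2 : ∀ᶠ z in 𝓝 (e (p y)), V (z, ξ) ≠ 0 := h1.eventually_ne (by
    rw [← hev.self_of_nhds]; exact hξ)
  rw [← ev_iff hp he] at h2
  filter_upwards [h2, hev, at_ev hp he] with y' a b c
  exact ⟨e, c, ξ, by rw [b]; exact a⟩

lemma nz_proj (hv : HForm n R m p H v) {y y₁ : E} (h : p y = p y₁) (hy : NZ p v y) :
    NZ p v y₁ := by
  obtain ⟨e, he, ξ, hξ⟩ := hy
  refine ⟨e, by rw [← h]; exact he, ξ, fun h0 => hξ ?_⟩
  have := hv.inv y y₁ e he h ξ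
  rw [h0, norm_zero, norm_eq_zero] at this
  exact this

/-- local representatives of `[v]` and `F` near `y` -/
structure Rep (p : E → X) (v : E → Chart n X → (Fin R → Cm n) → H) (F : E → Cm q) (y : E)
    (e : Chart n X) (G : Cm n → H) (f : Cm n → Cm q) : Prop where
  an : AnalyticAt ℂ G (e (p y))
  ne : G (e (p y)) ≠ 0
  fan : AnalyticAt ℂ f (e (p y))
  ev : ∀ᶠ y' in 𝓝 y, F y' = f (e (p y')) ∧ (∀ ξ, ∃ a : ℂ, v y' e ξ = a • G (e (p y'))) ∧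
    ∃ ξ, v y' e ξ = G (e (p y'))

lemma exists_rep (hm : 1 ≤ m) (hp : IsCoveringMap p) (hv : HForm n R m p H v)
    (hd : ∀ y e, At e (p y) → DecId n R m (v y e))
    (hF : ∀ (y : E) (e : Chart n X), At e (p y) → ∃ f : Cm n → Cm q, AnalyticAt ℂ f (e (p y)) ∧
      ∀ᶠ y' in 𝓝 y, F y' = f (e (p y')))
    {y : E} {e : Chart n X} (he : At e (p y)) {ξ₀ : Fin R → Cm n} (h0 : v y e ξ₀ ≠ 0) :
    ∃ (V : Cm n × (Fin R → Cm n) → H) (f : Cm n → Cm q), (∀ ξ, AnalyticAt ℂ V (e (p y), ξ)) ∧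
      (∀ᶠ y' in 𝓝 y, ∀ ξ, v y' e ξ = V (e (p y'), ξ)) ∧
      Rep p v F y e (fun z => V (z, ξ₀)) f := by
  obtain ⟨V, hV, hev⟩ := hv.hol y e he
  obtain ⟨f, hf, hfe⟩ := hF y e he
  have h1 : V (e (p y), ξ₀) ≠ 0 := by rw [← hev.self_of_nhds]; exact h0
  refine ⟨V, f, hV, hev, an_slice (hV ξ₀), h1, hf, ?_⟩
  have h2 : ∀ᶠ z in 𝓝 (e (p y)), V (z, ξ₀) ≠ 0 := (an_slice (hV ξ₀)).continuousAt.eventually_ne h1
  rw [← ev_iff hp he] at h2
  filter_upwards [h2, hev, hfe, at_ev hp he] with y' a b c d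
  refine ⟨c, fun ξ => ?_, ξ₀, b ξ₀⟩
  rw [← b ξ₀] at a ⊢
  exact line_of_dec hm (hd y' e d) a ξ

lemma Rep.near (hp : IsCoveringMap p) {y : E} {e : Chart n X} (he : At e (p y)) {G : Cm n → H}
    {f : Cm n → Cm q} [CompleteSpace H] (h : Rep p v F y e G f) : ∀ᶠ y' in 𝓝 y, Rep p v F y' e G f := by
  have h1 : ∀ᶠ z in 𝓝 (e (p y)), AnalyticAt ℂ G z ∧ G z ≠ 0 ∧ AnalyticAt ℂ f z :=
    h.an.eventually_analyticAt.and ((h.an.continuousAt.eventually_ne h.ne).and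
      h.fan.eventually_analyticAt)
  rw [← ev_iff hp he] at h1
  filter_upwards [h1, h.ev.eventually_nhds] with y' a b
  exact ⟨a.1, a.2.1, a.2.2, b⟩

lemma sh_iff [IsManifold 𝓘(ℂ, Cm n) ω X] (hp : IsCoveringMap p) (hv : HForm n R m p H v)
    {y : E} {e : Chart n X} (he : At e (p y))
    {G : Cm n → H} {f : Cm n → Cm q} (h : Rep p v F y e G f) {b : Cm s} :
    Sh p v F D y b ↔ LSh D.γ D.t D.N G f (e (p y)) b := by
  constructor
  · rintro ⟨e', β, he', hβ, hb, hev⟩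
    have hκ : AnalyticAt ℂ (fun z => e' (e.symm z)) (e (p y)) := (transition he he').analyticAt
    have hκ0 : e' (e.symm (e (p y))) = e' (p y) := by rw [e.left_inv he.2]
    refine ⟨fun z => β (e' (e.symm z)), AnalyticAt.comp (g := β) (f := fun z => e' (e.symm z))
      (by rw [hκ0]; exact hβ) hκ, by
        change β (e' (e.symm (e (p y)))) = b
        rw [hκ0]; exact hb, ?_⟩
    rw [← ev_iff hp he]
    filter_upwards [hev, h.ev, at_ev hp he, at_ev hp he'] with y' a1 a2 a3 a4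
    have a5 : e' (e.symm (e (p y'))) = e' (p y') := by rw [e.left_inv a3.2]
    rw [a5]
    obtain ⟨ξ, hξ⟩ := a2.2.2
    rw [hv.change y' e e' a3 a4 ξ] at hξ
    refine ⟨?_, ?_⟩
    · obtain ⟨a, ha⟩ := a1.1 (fun i => fderiv ℂ (fun z => e' (e.symm z)) (e (p y')) (ξ i))
      exact ⟨a, by rw [← hξ, ha]⟩
    · rw [← a2.1]
      exact a1.2
  · rintro ⟨β, hβ, hb, hev⟩
    refine ⟨e, β, he, hβ, hb, ?_⟩
    rw [← ev_iff hp he] at hev
    filter_upwards [hev, h.ev] with y' a1 a2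
    obtain ⟨a, ha⟩ := a1.1
    refine ⟨fun ξ => ?_, ?_⟩
    · obtain ⟨a', ha'⟩ := a2.2.1 ξ
      exact ⟨a' * a, by rw [ha', ha, smul_smul]⟩
    · rw [a2.1]
      exact a1.2

variable {r ρ : ℝ} {l : H →L[ℂ] ℂ} {L : H →L[ℂ] Cm s} {g : Cm s → Cm s}
  {Qe : Cm s → Cm q →L[ℂ] Cm q}

lemma sh_unique [IsManifold 𝓘(ℂ, Cm n) ω X] (hp : IsCoveringMap p) (hv : HForm n R m p H v)
    (hc : Crd D.γ D.b₀ r l L g) {y : E} {e : Chart n X} (he : At e (p y))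
    {G : Cm n → H} {f : Cm n → Cm q} (h : Rep p v F y e G f) {b b' : Cm s} (hb : b ∈ ball D.b₀ r)
    (hb' : b' ∈ ball D.b₀ r) (h1 : Sh p v F D y b) (h2 : Sh p v F D y b') : b = b' := by
  obtain ⟨β, k1, k2, k3⟩ := (sh_iff hp hv he h).1 h1
  obtain ⟨β', k1', k2', k3'⟩ := (sh_iff hp hv he h).1 h2
  obtain ⟨a, ha⟩ := k3.self_of_nhds.1
  obtain ⟨a', ha'⟩ := k3'.self_of_nhds.1
  rw [k2] at ha
  rw [k2'] at ha'
  exact hc.inj hb hb' h.ne ha ha'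

lemma freq_ep (hp : IsCoveringMap p) {y : E} {e : Chart n X} (he : At e (p y)) {Q : Cm n → Prop} :
    (∃ᶠ y' in 𝓝 y, Q (e (p y'))) ↔ ∃ᶠ z in 𝓝 (e (p y)), Q z := by
  rw [← map_ep hp he]
  exact Iff.rfl

lemma sh_closed [CompleteSpace H] [IsManifold 𝓘(ℂ, Cm n) ω X] (hp : IsCoveringMap p)
    (hv : HForm n R m p H v) (hc : Crd D.γ D.b₀ r l L g)
    (ht : ∀ b ∈ ball D.b₀ r, AnalyticAt ℂ D.t b) (hE : Eqs D.N Qe D.b₀ r) (hρ : ρ < r) {y : E}
    {e : Chart n X} (he : At e (p y)) {G : Cm n → H} {f : Cm n → Cm q} (h : Rep p v F y e G f)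
    (hfr : ∃ᶠ y' in 𝓝 y, ∃ b ∈ closedBall D.b₀ ρ, Sh p v F D y' b) :
    ∃ b ∈ closedBall D.b₀ ρ, Sh p v F D y b := by
  have h1 : ∃ᶠ z in 𝓝 (e (p y)), ∃ b ∈ closedBall D.b₀ ρ, LSh D.γ D.t D.N G f z b := by
    rw [← freq_ep hp he]
    refine (hfr.and_eventually ((h.near hp he).and (at_ev hp he))).mono ?_
    rintro y' ⟨⟨b, hb, hs⟩, h2, h3⟩
    exact ⟨b, hb, (sh_iff hp hv h3 h2).1 hs⟩
  obtain ⟨b, hb, h2⟩ := lsh_closed hc ht hE hρ h.an h.ne h.fan h1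
  exact ⟨b, hb, (sh_iff hp hv he h).2 h2⟩

/-- `y` lies on the sheet -/
def Act (p : E → X) (v : E → Chart n X → (Fin R → Cm n) → H) (F : E → Cm q)
    (D : LeafDat q s k H) (r : ℝ) (y : E) : Prop := ∃ b ∈ ball D.b₀ r, Sh p v F D y b

open Classical in
/-- the base point of the sheet at `y` -/
def bOf (p : E → X) (v : E → Chart n X → (Fin R → Cm n) → H) (F : E → Cm q)
    (D : LeafDat q s k H) (r : ℝ) (y : E) : Cm s :=
  if h : Act p v F D r y then h.choose else D.b₀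

lemma bOf_mem {y : E} (h : Act p v F D r y) : bOf p v F D r y ∈ ball D.b₀ r := by
  rw [bOf, dif_pos h]; exact h.choose_spec.1

lemma bOf_sh {y : E} (h : Act p v F D r y) : Sh p v F D y (bOf p v F D r y) := by
  rw [bOf, dif_pos h]; exact h.choose_spec.2

/-- local form of the sheet -/
lemma act_local [CompleteSpace H] [IsManifold 𝓘(ℂ, Cm n) ω X] (hp : IsCoveringMap p)
    (hv : HForm n R m p H v) (hc : Crd D.γ D.b₀ r l L g) {y : E}
    {e : Chart n X} (he : At e (p y)) {G : Cm n → H} {f : Cm n → Cm q} (h : Rep p v F y e G f)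
    (ha : Act p v F D r y) :
    ∃ β : Cm n → Cm s, AnalyticAt ℂ β (e (p y)) ∧ β (e (p y)) = bOf p v F D r y ∧
      (∀ᶠ z in 𝓝 (e (p y)), ∃ a : ℂ, G z = a • D.γ (β z)) ∧
      ∀ᶠ y' in 𝓝 y, Act p v F D r y' ∧ bOf p v F D r y' = β (e (p y')) := by
  obtain ⟨β, k1, k2, k3⟩ := (sh_iff hp hv he h).1 (bOf_sh ha)
  refine ⟨β, k1, k2, k3.mono fun z hz => hz.1, ?_⟩
  have h1 : ∀ᶠ z in 𝓝 (e (p y)), AnalyticAt ℂ β z ∧ β z ∈ ball D.b₀ r :=
    k1.eventually_analyticAt.and (k1.continuousAt.eventually (isOpen_ball.mem_nhds (by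
      rw [k2]; exact bOf_mem ha)))
  have h2 := k3.eventually_nhds
  rw [← ev_iff hp he] at h1 h2
  filter_upwards [h1, h2, h.near hp he, at_ev hp he] with y' a1 a2 a3 a4
  have h3 : Sh p v F D y' (β (e (p y'))) := (sh_iff hp hv a4 a3).2 ⟨β, a1.1, rfl, a2⟩
  have h4 : Act p v F D r y' := ⟨_, a1.2, h3⟩
  exact ⟨h4, sh_unique hp hv hc a4 a3 (bOf_mem h4) a1.2 (bOf_sh h4) h3⟩

open Classical in
/-- the weight -/
def PsiF (p : E → X) (v : E → Chart n X → (Fin R → Cm n) → H) (F : E → Cm q)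
    (D : LeafDat q s k H) (r : ℝ) (φ : Cm s → ℝ) (y : E) : ℝ :=
  if Act p v F D r y then φ (bOf p v F D r y) else 0

/-- the weighted height -/
def PhiF (p : E → X) (v : E → Chart n X → (Fin R → Cm n) → H) (F : E → Cm q)
    (D : LeafDat q s k H) (r : ℝ) (φ : Cm s → ℝ) (lr : Cm q →L[ℝ] ℝ) (y : E) : ℝ :=
  PsiF p v F D r φ y * lr (F y - D.t (bOf p v F D r y))

lemma psi_act {φ : Cm s → ℝ} {y : E} (h : PsiF p v F D r φ y ≠ 0) :
    Act p v F D r y ∧ φ (bOf p v F D r y) ≠ 0 := by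
  by_cases ha : Act p v F D r y
  · refine ⟨ha, ?_⟩
    rwa [PsiF, if_pos ha] at h
  · rw [PsiF, if_neg ha] at h
    exact absurd rfl h

lemma phi_act {φ : Cm s → ℝ} {lr : Cm q →L[ℝ] ℝ} {y : E} (h : PhiF p v F D r φ lr y ≠ 0) :
    PsiF p v F D r φ y ≠ 0 := fun h0 => h (by rw [PhiF, h0, zero_mul])

/-- off the sheet both functions vanish nearby -/
lemma psi_zero [CompleteSpace H] [IsManifold 𝓘(ℂ, Cm n) ω X] (hp : IsCoveringMap p)
    (hv : HForm n R m p H v) (hc : Crd D.γ D.b₀ r l L g)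
    (ht : ∀ b ∈ ball D.b₀ r, AnalyticAt ℂ D.t b) (hE : Eqs D.N Qe D.b₀ r) (hρ : ρ < r)
    {φ : Cm s → ℝ} (hφ : ∀ b, φ b ≠ 0 → b ∈ closedBall D.b₀ ρ) {y : E}
    {e : Chart n X} (he : At e (p y)) {G : Cm n → H} {f : Cm n → Cm q} (h : Rep p v F y e G f)
    (ha : ¬ Act p v F D r y) : ∀ᶠ y' in 𝓝 y, PsiF p v F D r φ y' = 0 := by
  by_contra hcon
  have h1 : ∃ᶠ y' in 𝓝 y, ∃ b ∈ closedBall D.b₀ ρ, Sh p v F D y' b := by
    refine (Filter.not_eventually.1 hcon).mono fun y' hy' => ?_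
    obtain ⟨h2, h3⟩ := psi_act hy'
    exact ⟨_, hφ _ h3, bOf_sh h2⟩
  obtain ⟨b, hb, h4⟩ := sh_closed hp hv hc ht hE hρ he h h1
  exact ha ⟨b, closedBall_subset_ball hρ hb, h4⟩

end

end Vale.Agent.P284.H335
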