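import Vale.Agent.P284.H335.CStkC
import Mathlib.Analysis.RCLike.Extend

/-!
# P284 (helper335), C-STK: the closed real `1`-form `d (lr ∘ F)`
-/

open scoped Manifold ContDiff Topology ComplexConjugate ComplexOrder InnerProductSpace
open Filter Set Metric

noncomputable section

namespace Vale.Agent.P284.H335

open Vale.Agent.P272.K Vale.Agent.P284.H573 Vale.Agent.P284.H395 Vale.Agent.P284.H894
  Vale.Agent.P284.H894.G Vale.Agent.P284.H894.V Vale.Agent.P284.H894.W Vale.Agent.P284.H998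

section
variable {n q s : ℕ}

/-- the `(1,0)`-derivative in the direction `ξ` -/
lemma dz_lin {u : Cm n → ℂ} {z : Cm n} (ξ : Cm n) :
    ∑ j, dz j u z * ξ j = (fderiv ℝ u z ξ - Complex.I * fderiv ℝ u z (Complex.I • ξ)) / 2 := by
  set A : Cm n →L[ℝ] ℂ := fderiv ℝ u z with hA
  have hre : ∀ (a : ℝ) (η : Cm n), A ((a : ℂ) • η) = (a : ℂ) * A η := by
    intro a η
    have : ((a : ℂ) • η) = a • η := by
      ext i
      simp
    rw [this, map_smul, Complex.real_smul]
  set T : Cm n → ℂ := fun ξ => (A ξ - Complex.I * A (Complex.I • ξ)) / 2 with hT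
  have hTI : ∀ η, T (Complex.I • η) = Complex.I * T η := by
    intro η
    simp only [hT]
    have h1 : Complex.I • Complex.I • η = (-1 : ℂ) • η := by
      rw [smul_smul, Complex.I_mul_I]
    have h2 : A ((-1 : ℂ) • η) = -A η := by
      have := hre (-1) η
      push_cast at this
      rw [this]; ring
    rw [h1, h2]
    have := Complex.I_mul_I
    linear_combination ((1/2 : ℂ)) * A (Complex.I • η) * this
  have hTadd : ∀ η η', T (η + η') = T η + T η' := by
    intro η η'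
    simp only [hT, smul_add, map_add]
    ring
  have hTre : ∀ (a : ℝ) (η : Cm n), T ((a : ℂ) • η) = (a : ℂ) * T η := by
    intro a η
    simp only [hT]
    rw [smul_comm, hre, hre]
    ring
  have hTc : ∀ (c : ℂ) (η : Cm n), T (c • η) = c * T η := by
    intro c η
    have h1 : c • η = ((c.re : ℂ)) • η + ((c.im : ℂ)) • (Complex.I • η) := by
      rw [smul_smul, ← add_smul]
      congr 1
      exact (Complex.re_add_im c).symm
    rw [h1, hTadd, hTre, hTre, hTI]
    have h2 : c = (c.re : ℂ) + (c.im : ℂ) * Complex.I := (Complex.re_add_im c).symm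
    conv_rhs => rw [h2]
    ring
  have hT0 : T 0 = 0 := by simp [hT]
  have hsum : ∀ (S : Finset (Fin n)), T (∑ j ∈ S, (Pi.single j (ξ j) : Cm n)) =
      ∑ j ∈ S, dz j u z * ξ j := by
    intro S
    classical
    induction S using Finset.induction_on with
    | empty => simp [hT0]
    | insert a S ha ih =>
      rw [Finset.sum_insert ha, Finset.sum_insert ha, hTadd, ih]
      congr 1
      have h1 : (Pi.single a (ξ a) : Cm n) = ξ a • (Pi.single a (1 : ℂ) : Cm n) := by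
        rw [← Pi.single_smul]; simp
      rw [h1, hTc, mul_comm]
      congr 1
      simp only [hT, dz]
      have h2 : Complex.I • (Pi.single a (1 : ℂ) : Cm n) = Pi.single a Complex.I := by
        rw [← Pi.single_smul]; simp
      rw [h2]
  have := hsum Finset.univ
  rw [Finset.univ_sum_single] at this
  rw [← this]

/-- the complex linear form with real part `lr` -/
def cpx (lr : Cm q →L[ℝ] ℝ) : Cm q →L[ℂ] ℂ := StrongDual.extendRCLike (𝕜 := ℂ) lr

lemma cpx_apply (lr : Cm q →L[ℝ] ℝ) (x : Cm q) :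
    cpx lr x = (lr x : ℂ) - Complex.I * (lr (Complex.I • x) : ℂ) :=
  StrongDual.extendRCLike_apply lr x

lemma cpx_re (lr : Cm q →L[ℝ] ℝ) (x : Cm q) : (cpx lr x).re = lr x := by
  rw [cpx_apply]
  simp

lemma fderiv_lr {lr : Cm q →L[ℝ] ℝ} {f : Cm n → Cm q} {z : Cm n} (hf : DifferentiableAt ℂ f z)
    (η : Cm n) : fderiv ℝ (fun y => ((lr (f y) : ℝ) : ℂ)) z η = (lr (fderiv ℂ f z η) : ℂ) := by
  have h1 : HasFDerivAt f ((fderiv ℂ f z).restrictScalars ℝ) z := hf.hasFDerivAt.restrictScalars ℝ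
  have h2 : HasFDerivAt (fun y => ((lr (f y) : ℝ) : ℂ))
      ((Complex.ofRealCLM.comp lr).comp ((fderiv ℂ f z).restrictScalars ℝ)) z :=
    (Complex.ofRealCLM.comp lr).hasFDerivAt.comp z h1
  rw [h2.fderiv]
  rfl

/-- the `(1,0)`-part of `d (lr ∘ f)` in the direction `ξ` -/
lemma dz_lr_sum {lr : Cm q →L[ℝ] ℝ} {f : Cm n → Cm q} {z : Cm n} (hf : DifferentiableAt ℂ f z)
    (ξ : Cm n) : ∑ j, dz j (fun y => ((lr (f y) : ℝ) : ℂ)) z * ξ j =
      cpx lr (fderiv ℂ f z ξ) / 2 := by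
  rw [dz_lin, fderiv_lr hf, fderiv_lr hf, cpx_apply, map_smul]

lemma dz_lr {lr : Cm q →L[ℝ] ℝ} {f : Cm n → Cm q} {z : Cm n} (hf : DifferentiableAt ℂ f z)
    (j : Fin n) : dz j (fun y => ((lr (f y) : ℝ) : ℂ)) z =
      cpx lr (fderiv ℂ f z (Pi.single j 1)) / 2 := by
  rw [← dz_lr_sum hf]
  simp [Pi.single_apply]

/-- `lr ∘ f` is pluriharmonic -/
lemma cHess_lr {lr : Cm q →L[ℝ] ℝ} {f : Cm n → Cm q} {z : Cm n} (hf : AnalyticAt ℂ f z) :
    cHess (fun y => lr (f y)) z = 0 := by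
  ext j k
  show dz j (dzb k fun y => ((lr (f y) : ℝ) : ℂ)) z = 0
  have h1 : dzb k (fun y => ((lr (f y) : ℝ) : ℂ)) =ᶠ[𝓝 z]
      fun y => (starRingEnd ℂ) (cpx lr (fderiv ℂ f y (Pi.single k 1)) / 2) := by
    filter_upwards [hf.eventually_analyticAt] with y hy
    rw [← dz_lr hy.differentiableAt k]
    have h2 : DifferentiableAt ℝ (fun y => lr (f y)) y :=
      (lr.differentiableAt).comp y (hy.differentiableAt.restrictScalars ℝ)
    exact C2.dzb_real k h2
  rw [C2.dz_congr j h1]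
  have h3 : DifferentiableAt ℂ (fun y => cpx lr (fderiv ℂ f y (Pi.single k 1)) / 2) z := by
    have h4 : AnalyticAt ℂ (fun y => fderiv ℂ f y (Pi.single k 1)) z :=
      ((ContinuousLinearMap.apply ℂ (Cm q) (Pi.single k 1 : Cm n)).analyticAt _).comp hf.fderiv
    have h5 : DifferentiableAt ℂ (fun y => cpx lr (fderiv ℂ f y (Pi.single k 1))) z :=
      (cpx lr).differentiableAt.comp z h4.differentiableAt
    simp only [div_eq_mul_inv]
    exact h5.mul_const _
  rw [C2.dz_conj j (h3.restrictScalars ℝ), INT.dzb_of_holo h3, map_zero]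

end

section
variable {n q : ℕ} {X : Type} [TopologicalSpace X] [ChartedSpace (Cm n) X]
  {E Γ : Type} [TopologicalSpace E] [Group Γ] [MulAction Γ E] {p : E → X}

open Classical in
/-- the `(1,0)`-part of `d (lr ∘ F)` on `X` -/
def alphaF (p : E → X) (F : E → Cm q) (lr : Cm q →L[ℝ] ℝ) (e : Chart n X) (z : Cm n) (j : Fin n) :
    ℂ :=
  if h : ∃ f : Cm n → Cm q, AnalyticAt ℂ f z ∧ ∃ y, p y = e.symm z ∧ e (p y) = z ∧
      ∀ᶠ y' in 𝓝 y, F y' = f (e (p y')) then
    dz j (fun y => ((lr (h.choose y) : ℝ) : ℂ)) z else 0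

lemma alphaF_eq (hG : IsGalois Γ p) {F : E → Cm q} {c : Γ → Cm q}
    (hF : ∀ g y, F (g • y) = F y + c g) (lr : Cm q →L[ℝ] ℝ) {y : E} {e : Chart n X}
    (he : At e (p y)) {f : Cm n → Cm q} (hf : AnalyticAt ℂ f (e (p y)))
    (hfe : ∀ᶠ y' in 𝓝 y, F y' = f (e (p y'))) (j : Fin n) :
    alphaF p F lr e (e (p y)) j = dz j (fun z => ((lr (f z) : ℝ) : ℂ)) (e (p y)) := by
  have h : ∃ f : Cm n → Cm q, AnalyticAt ℂ f (e (p y)) ∧ ∃ y₁, p y₁ = e.symm (e (p y)) ∧
      e (p y₁) = e (p y) ∧ ∀ᶠ y' in 𝓝 y₁, F y' = f (e (p y')) :=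
    ⟨f, hf, y, (e.left_inv he.2).symm, rfl, hfe⟩
  rw [alphaF, dif_pos h]
  obtain ⟨h1, y₁, h2, h3, h4⟩ := h.choose_spec
  set f₁ := h.choose with hf₁
  rw [e.left_inv he.2] at h2
  obtain ⟨g, rfl⟩ := (hG.orb y y₁).1 h2.symm
  have h5 : ∀ᶠ y' in 𝓝 y, F (g • y') = f₁ (e (p (g • y'))) := by
    have := (hG.cont g).continuousAt (x := y)
    exact this.eventually h4
  have h6 : ∀ᶠ z in 𝓝 (e (p y)), f₁ z = f z + c g := by
    rw [← ev_iff hG.cov he]
    filter_upwards [h5, hfe] with y' a b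
    have h7 : p (g • y') = p y' := ((hG.orb _ _).2 ⟨g, rfl⟩).symm
    rw [h7, hF] at a
    rw [← a, b]
  have h8 : (fun z => ((lr (f₁ z) : ℝ) : ℂ)) =ᶠ[𝓝 (e (p y))]
      fun z => ((lr (f z) : ℝ) : ℂ) + ((lr (c g) : ℝ) : ℂ) := by
    filter_upwards [h6] with z hz
    rw [hz, map_add]
    push_cast
    rfl
  rw [C2.dz_congr j h8]
  have h9 : DifferentiableAt ℝ (fun z => ((lr (f z) : ℝ) : ℂ)) (e (p y)) :=
    C2.differentiableAt_ofReal
      ((lr.differentiableAt).comp _ (hf.differentiableAt.restrictScalars ℝ))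
  rw [C2.dz_add j h9 (differentiableAt_const _), C2.dz_const, add_zero]

lemma alphaF_isAlpha [IsManifold 𝓘(ℂ, Cm n) ω X] (hG : IsGalois Γ p) {F : E → Cm q}
    {c : Γ → Cm q} (hF : ∀ g y, F (g • y) = F y + c g) (lr : Cm q →L[ℝ] ℝ)
    (hFa : ∀ (y : E) (e : Chart n X), At e (p y) → ∃ f : Cm n → Cm q, AnalyticAt ℂ f (e (p y)) ∧
      ∀ᶠ y' in 𝓝 y, F y' = f (e (p y'))) : IsAlpha (alphaF (n := n) p F lr) where
  pot e x hx := by
    obtain ⟨y, rfl⟩ := hG.surj x
    obtain ⟨f, hf, hfe⟩ := hFa y e hx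
    refine ⟨fun z => lr (f z), ?_⟩
    have h1 := hf.eventually_analyticAt
    rw [← ev_iff hG.cov hx] at h1
    rw [← ev_iff hG.cov hx]
    filter_upwards [h1, hfe.eventually_nhds, at_ev hG.cov hx] with y' a b d
    refine ⟨?_, cHess_lr a, fun j => alphaF_eq hG hF lr d a b j⟩
    exact lr.contDiff.contDiffAt.comp _ ((a.contDiffAt (n := ∞)).restrict_scalars ℝ)
  change e e' x hx hx' i := by
    obtain ⟨y, rfl⟩ := hG.surj x
    obtain ⟨f, hf, hfe⟩ := hFa y e' hx'
    have hκ : AnalyticAt ℂ (fun z => e' (e.symm z)) (e (p y)) := (transition hx hx').analyticAt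
    have hκ0 : e' (e.symm (e (p y))) = e' (p y) := by rw [e.left_inv hx.2]
    have hf' : AnalyticAt ℂ (fun z => f (e' (e.symm z))) (e (p y)) :=
      AnalyticAt.comp (g := f) (f := fun z => e' (e.symm z)) (by rw [hκ0]; exact hf) hκ
    have hfe' : ∀ᶠ y' in 𝓝 y, F y' = f (e' (e.symm (e (p y')))) := by
      filter_upwards [hfe, at_ev hG.cov hx] with y' a b
      rw [e.left_inv b.2, a]
    rw [alphaF_eq hG hF lr hx hf' hfe' i]
    have h9 : DifferentiableAt ℝ (fun z => ((lr (f z) : ℝ) : ℂ)) (e' (e.symm (e (p y)))) := by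
      rw [hκ0]
      exact C2.differentiableAt_ofReal
        ((lr.differentiableAt).comp _ (hf.differentiableAt.restrictScalars ℝ))
    have h10 := dz_comp_holo (i := i) (f := fun z => ((lr (f z) : ℝ) : ℂ))
      (τ := fun z => e' (e.symm z)) h9 hκ.differentiableAt
    rw [h10, hκ0]
    refine Finset.sum_congr rfl fun j _ => ?_
    rw [alphaF_eq hG hF lr hx' hf hfe j, jacM_eq, mul_comm]

end

end Vale.Agent.P284.H335
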