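import Vale.Agent.P284.H335.CStkD

/-!
# P284 (helper335), C-STK: auxiliary lemmas for the assembly
-/

open scoped Manifold ContDiff Topology ComplexConjugate ComplexOrder InnerProductSpace
open Filter Set Metric

noncomputable section

namespace Vale.Agent.P284.H335

open Vale.Agent.P272.K Vale.Agent.P284.H573 Vale.Agent.P284.H395 Vale.Agent.P284.H894
  Vale.Agent.P284.H894.G Vale.Agent.P284.H894.V Vale.Agent.P284.H894.W Vale.Agent.P284.H998

section
variable {n q s : ℕ}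

lemma rank_eq {M : Matrix (Fin n) (Fin n) ℂ} {B : Cm n →L[ℂ] Cm s} (hB : Function.Surjective B)
    (h : ∀ ξ : Cm n, (∀ k, ∑ j, M j k * ξ j = 0) ↔ B ξ = 0) : M.rank = s := by
  rw [← Matrix.rank_transpose]
  have h1 : LinearMap.ker M.transpose.mulVecLin = LinearMap.ker (B : Cm n →ₗ[ℂ] Cm s) := by
    ext ξ
    rw [LinearMap.mem_ker, LinearMap.mem_ker]
    have h2 : M.transpose.mulVecLin ξ = 0 ↔ ∀ k, ∑ j, M j k * ξ j = 0 := by
      constructor
      · intro h3 k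
        exact congrFun h3 k
      · intro h3
        ext k
        exact h3 k
    rw [h2, h]
    rfl
  have h3 : Module.finrank ℂ (LinearMap.range M.transpose.mulVecLin) +
      Module.finrank ℂ (LinearMap.ker M.transpose.mulVecLin) = n := by
    have := LinearMap.finrank_range_add_finrank_ker M.transpose.mulVecLin
    rwa [Module.finrank_fin_fun] at this
  have h4 : Module.finrank ℂ (LinearMap.range (B : Cm n →ₗ[ℂ] Cm s)) +
      Module.finrank ℂ (LinearMap.ker (B : Cm n →ₗ[ℂ] Cm s)) = n := by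
    have := LinearMap.finrank_range_add_finrank_ker (B : Cm n →ₗ[ℂ] Cm s)
    rwa [Module.finrank_fin_fun] at this
  have h5 : Module.finrank ℂ (LinearMap.range (B : Cm n →ₗ[ℂ] Cm s)) = s := by
    have h6 : LinearMap.range (B : Cm n →ₗ[ℂ] Cm s) = ⊤ := LinearMap.range_eq_top.2 hB
    rw [h6]
    simp
  have h8 : Module.finrank ℂ (LinearMap.ker M.transpose.mulVecLin) =
      Module.finrank ℂ (LinearMap.ker (B : Cm n →ₗ[ℂ] Cm s)) := by rw [h1]
  show Module.finrank ℂ (LinearMap.range M.transpose.mulVecLin) = s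
  omega

/-- derivative of `φ(β) lr(f - t(β))` along the kernel of `Dβ` -/
lemma height_deriv {φ : Cm s → ℝ} {β : Cm n → Cm s} {t : Cm s → Cm q} {f : Cm n → Cm q}
    {lr : Cm q →L[ℝ] ℝ} {z : Cm n} (hφ : ContDiff ℝ ∞ φ) (hβ : AnalyticAt ℂ β z)
    (ht : AnalyticAt ℂ t (β z)) (hf : AnalyticAt ℂ f z) :
    ContDiffAt ℝ ∞ (fun z => φ (β z) * lr (f z - t (β z))) z ∧
    ∀ ξ, fderiv ℂ β z ξ = 0 →
      ∑ j, dz j (fun z => ((φ (β z) * lr (f z - t (β z)) : ℝ) : ℂ)) z * ξ j =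
        (φ (β z) : ℂ) * (cpx lr (fderiv ℂ f z ξ) / 2) := by
  have hβr : ContDiffAt ℝ ∞ β z := (hβ.contDiffAt (n := ∞)).restrict_scalars ℝ
  have hfr : ContDiffAt ℝ ∞ f z := (hf.contDiffAt (n := ∞)).restrict_scalars ℝ
  have htr : ContDiffAt ℝ ∞ t (β z) := (ht.contDiffAt (n := ∞)).restrict_scalars ℝ
  have h1 : ContDiffAt ℝ ∞ (fun z => φ (β z)) z := hφ.contDiffAt.comp z hβr
  have h2 : ContDiffAt ℝ ∞ (fun z => lr (f z - t (β z))) z :=
    lr.contDiff.contDiffAt.comp z (hfr.sub (htr.comp z hβr))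
  refine ⟨h1.mul h2, fun ξ hξ => ?_⟩
  have e1 : HasFDerivAt β ((fderiv ℂ β z).restrictScalars ℝ) z :=
    hβ.differentiableAt.hasFDerivAt.restrictScalars ℝ
  have e2 : HasFDerivAt f ((fderiv ℂ f z).restrictScalars ℝ) z :=
    hf.differentiableAt.hasFDerivAt.restrictScalars ℝ
  have e3 : HasFDerivAt t ((fderiv ℂ t (β z)).restrictScalars ℝ) (β z) :=
    ht.differentiableAt.hasFDerivAt.restrictScalars ℝ
  have e4 : HasFDerivAt φ (fderiv ℝ φ (β z)) (β z) :=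
    (hφ.differentiable (by simp)).differentiableAt.hasFDerivAt
  have e5 : HasFDerivAt (fun z => φ (β z)) ((fderiv ℝ φ (β z)).comp
      ((fderiv ℂ β z).restrictScalars ℝ)) z := e4.comp z e1
  have e6 : HasFDerivAt (fun z => lr (f z - t (β z))) (lr.comp
      ((fderiv ℂ f z).restrictScalars ℝ - ((fderiv ℂ t (β z)).restrictScalars ℝ).comp
        ((fderiv ℂ β z).restrictScalars ℝ))) z :=
    lr.hasFDerivAt.comp z (e2.sub (e3.comp z e1))
  have e7 := Complex.ofRealCLM.hasFDerivAt.comp z (e5.fun_mul e6)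
  have key : ∀ η, fderiv ℂ β z η = 0 →
      fderiv ℝ (fun z => ((φ (β z) * lr (f z - t (β z)) : ℝ) : ℂ)) z η =
        (φ (β z) : ℂ) * (lr (fderiv ℂ f z η) : ℂ) := by
    intro η hη
    have e8 : fderiv ℝ (fun z => ((φ (β z) * lr (f z - t (β z)) : ℝ) : ℂ)) z = _ := e7.fderiv
    rw [e8]
    simp [hη]
  rw [dz_lin, key ξ hξ, key (Complex.I • ξ) (by rw [map_smul, hξ, smul_zero]), cpx_apply,
    map_smul]
  ring

end

section
variable {n R m s q k : ℕ} {X : Type} [TopologicalSpace X] [ChartedSpace (Cm n) X]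
  [IsManifold 𝓘(ℂ, Cm n) ω X]
  {E : Type} [TopologicalSpace E] {p : E → X} {H : Type} [NormedAddCommGroup H]
  [InnerProductSpace ℂ H] [CompleteSpace H] {v : E → Chart n X → (Fin R → Cm n) → H}

omit [IsManifold 𝓘(ℂ, Cm n) ω X] in
lemma dec_of_nf [PreconnectedSpace E] (hR : 1 ≤ R) (hm : 1 ≤ m) (hp : IsCoveringMap p)
    (hv : HForm n R m p H v) {y₀ : E} (hNF : NFAt p R m s v y₀) :
    ∀ y e, At e (p y) → DecId n R m (v y e) := by
  obtain ⟨e₀, b, β, γ, he₀, hb, hbs, hβ, hγ, hγ0, hnf⟩ := hNF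
  refine dec_all hp hv (y₀ := y₀) ?_
  filter_upwards [hnf, at_ev hp he₀] with y k1 k2 e he
  refine dec_change hv he k2 ?_
  have k3 : v y e₀ = fun ξ => (colM (fderiv ℂ b (e₀ (p y))) ξ).det ^ m • γ (β (e₀ (p y))) :=
    funext k1
  rw [k3]
  exact dec_of_det hR hm _ _

variable {Γ : Type} [Group Γ] [MulAction Γ E] {F : E → Cm q} {D : LeafDat q s k H}
  {r ρ : ℝ} {l : H →L[ℂ] ℂ} {L : H →L[ℂ] Cm s} {g : Cm s → Cm s}
  {Qe : Cm s → Cm q →L[ℂ] Cm q}

omit [IsManifold 𝓘(ℂ, Cm n) ω X] [CompleteSpace H] in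
/-- some representative at a point with `v ≠ 0` -/
lemma exists_rep' (hm : 1 ≤ m) (hp : IsCoveringMap p) (hv : HForm n R m p H v)
    (hd : ∀ y e, At e (p y) → DecId n R m (v y e))
    (hF : ∀ (y : E) (e : Chart n X), At e (p y) → ∃ f : Cm n → Cm q, AnalyticAt ℂ f (e (p y)) ∧
      ∀ᶠ y' in 𝓝 y, F y' = f (e (p y')))
    {y : E} (hy : NZ p v y) {e : Chart n X} (he : At e (p y)) :
    ∃ G f, Rep p v F y e G f := by
  obtain ⟨ξ₀, hξ₀⟩ := nz_chart hv hy he
  obtain ⟨V, f, -, -, h⟩ := exists_rep hm hp hv hd hF he hξ₀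
  exact ⟨_, f, h⟩

omit [CompleteSpace H] in
/-- invariance under the subgroup -/
lemma act_smul (hm : 1 ≤ m) (hG : IsGalois Γ p) (hv : HForm n R m p H v)
    (hd : ∀ y e, At e (p y) → DecId n R m (v y e))
    (hF : ∀ (y : E) (e : Chart n X), At e (p y) → ∃ f : Cm n → Cm q, AnalyticAt ℂ f (e (p y)) ∧
      ∀ᶠ y' in 𝓝 y, F y' = f (e (p y')))
    (hc : Crd D.γ D.b₀ r l L g) (S : Subgroup Γ)
    (hSh : ∀ g ∈ S, ∀ y, ∀ b ∈ ball D.b₀ r, NZ p v y → Sh p v F D y b → Sh p v F D (g • y) b)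
    {a : Γ} (ha : a ∈ S) {y : E} (hy : NZ p v y) :
    (Act p v F D r (a • y) ↔ Act p v F D r y) ∧
      (Act p v F D r y → bOf p v F D r (a • y) = bOf p v F D r y) := by
  have hpa : p y = p (a • y) := (hG.orb _ _).2 ⟨a, rfl⟩
  have hy' : NZ p v (a • y) := nz_proj hv hpa hy
  refine ⟨⟨?_, ?_⟩, ?_⟩
  · rintro ⟨b, hb, hs⟩
    have := hSh a⁻¹ (S.inv_mem ha) _ b hb hy' hs
    rw [inv_smul_smul] at this
    exact ⟨b, hb, this⟩
  · rintro ⟨b, hb, hs⟩
    exact ⟨b, hb, hSh a ha _ b hb hy hs⟩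
  · intro hA
    have he : At (chartAt (Cm n) (p (a • y)) : Chart n X) (p (a • y)) :=
      ⟨chart_mem_atlas _ _, mem_chart_source _ _⟩
    obtain ⟨G, f, hrep⟩ := exists_rep' hm hG.cov hv hd hF hy' he
    have h1 := hSh a ha _ _ (bOf_mem hA) hy (bOf_sh hA)
    have h2 : Act p v F D r (a • y) := ⟨_, bOf_mem hA, h1⟩
    exact sh_unique hG.cov hv hc he hrep (bOf_mem h2) (bOf_mem hA) (bOf_sh h2) h1

omit [IsManifold 𝓘(ℂ, Cm n) ω X] [CompleteSpace H] in
/-- a compact neighbourhood on which `v ≠ 0` -/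
lemma exists_cpt (hp : IsCoveringMap p) (hv : HForm n R m p H v) {y : E} (hy : NZ p v y) :
    ∃ K₀ ∈ 𝓝 y, IsCompact K₀ ∧ ∀ y' ∈ K₀, NZ p v y' := by
  have he : At (chartAt (Cm n) (p y) : Chart n X) (p y) :=
    ⟨chart_mem_atlas _ _, mem_chart_source _ _⟩
  obtain ⟨ε, hε, hys, hsub, -⟩ := Vale.Agent.P284.H494.exists_ch_at hp he (nz_open hp hv hy)
  obtain ⟨δ, hδ, hball⟩ := Metric.nhds_basis_closedBall.mem_iff.1
    (ε.open_target.mem_nhds (ε.map_source hys))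
  refine ⟨ε.symm '' closedBall (ε y) δ, ?_, (isCompact_closedBall _ _).image_of_continuousOn
    (ε.continuousOn_symm.mono hball), ?_⟩
  · have h1 : ∀ᶠ y' in 𝓝 y, ε y' ∈ closedBall (ε y) δ :=
      (ε.continuousAt hys).eventually (closedBall_mem_nhds _ hδ)
    filter_upwards [h1, ε.open_source.mem_nhds hys] with y' a b
    exact ⟨ε y', a, ε.left_inv b⟩
  · rintro _ ⟨z, hz, rfl⟩
    exact hsub (ε.map_target (hball hz))

end

end Vale.Agent.P284.H335
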