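import Vale.Agent.P284.H335.Spn
import Vale.Agent.P284.H395.StkS
import Vale.Agent.P272.K.Inv.Chart
import Mathlib.Analysis.Calculus.LineDeriv.Basic

/-!
# P284 (helper335): decomposability of multi-forms, local part
-/

open scoped Manifold ContDiff Topology ComplexConjugate ComplexOrder InnerProductSpace
open Filter Set Metric

noncomputable section

namespace Vale.Agent.P284.H335

open Vale.Agent.P272.K Vale.Agent.P284.H573

section
variable {n R m : ℕ} {H : Type} [NormedAddCommGroup H] [InnerProductSpace ℂ H]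

/-- the functional identity of decomposable forms -/
def DecId (n R m : ℕ) {H : Type} [NormedAddCommGroup H] [InnerProductSpace ℂ H]
    (V : (Fin R → Cm n) → H) : Prop :=
  ∀ (h : H) (ξ η : Fin R → Cm n),
    ((m : ℂ) * ⟪h, V ξ⟫_ℂ) ^ (m * R) • V η =
      (Matrix.of fun i j => fderiv ℂ (fun ξ => ⟪h, V ξ⟫_ℂ) ξ (Pi.single i (η j))).det ^ m • V ξ

/-- the matrix with the columns `L (ξ j)` -/
def colM (L : Cm n →L[ℂ] Cm R) (ξ : Fin R → Cm n) : Matrix (Fin R) (Fin R) ℂ :=
  Matrix.of fun i j => L (ξ j) i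

lemma colM_update (L : Cm n →L[ℂ] Cm R) (ξ : Fin R → Cm n) (i : Fin R) (η : Cm n) (s : ℂ) :
    (colM L (ξ + s • (Pi.single i η : Fin R → Cm n))).det =
      (colM L ξ).det + s * ((colM L ξ).updateCol i (L η)).det := by
  have h1 : colM L (ξ + s • (Pi.single i η : Fin R → Cm n)) =
      (colM L ξ).updateCol i (L (ξ i) + s • L η) := by
    ext k j
    by_cases hj : j = i
    · subst hj
      simp [colM, Matrix.updateCol_self]
    · simp [colM, hj]
  rw [h1, Matrix.det_updateCol_add, Matrix.det_updateCol_smul]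
  congr 1
  congr 1
  have : (fun k => L (ξ i) k) = fun k => colM L ξ k i := rfl
  show ((colM L ξ).updateCol i fun k => colM L ξ k i) = _
  exact Matrix.updateCol_eq_self _ _

lemma colM_adj (L : Cm n →L[ℂ] Cm R) (ξ η : Fin R → Cm n) (i j : Fin R) :
    ((colM L ξ).updateCol i (L (η j))).det = ((colM L ξ).adjugate * colM L η) i j := by
  rw [← Matrix.cramer_apply, Matrix.cramer_eq_adjugate_mulVec, Matrix.mul_apply]
  rfl

lemma colM_an (L : Cm n →L[ℂ] Cm R) (ξ : Fin R → Cm n) :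
    AnalyticAt ℂ (fun ξ => (colM L ξ).det) ξ := by
  refine an_det fun i j => ?_
  have h1 : (fun x : Fin R → Cm n => colM L x i j) =
      ((ContinuousLinearMap.proj (R := ℂ) (φ := fun _ : Fin R => ℂ) i).comp
        (L.comp (ContinuousLinearMap.proj (R := ℂ) (φ := fun _ : Fin R => Cm n) j))) := rfl
  rw [h1]
  exact ContinuousLinearMap.analyticAt _ _

lemma colM_fderiv (L : Cm n →L[ℂ] Cm R) (ξ η : Fin R → Cm n) (i j : Fin R) :
    fderiv ℂ (fun ξ => (colM L ξ).det) ξ (Pi.single i (η j)) =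
      ((colM L ξ).adjugate * colM L η) i j := by
  have hd := (colM_an L ξ).differentiableAt
  rw [← colM_adj, ← hd.lineDeriv_eq_fderiv, lineDeriv]
  have h1 : (fun t : ℂ => (colM L (ξ + t • (Pi.single i (η j) : Fin R → Cm n))).det) =
      fun t => (colM L ξ).det + t * ((colM L ξ).updateCol i (L (η j))).det := by
    funext t
    exact colM_update L ξ i (η j) t
  rw [h1]
  simp

/-- the identity for `det(L ξ)^m γ` -/
lemma dec_of_det (hR : 1 ≤ R) (hm : 1 ≤ m) (L : Cm n →L[ℂ] Cm R) (γ : H) :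
    DecId n R m fun ξ => (colM L ξ).det ^ m • γ := by
  intro h ξ η
  set D : ℂ := (colM L ξ).det with hD
  set c : ℂ := ⟪h, γ⟫_ℂ with hc
  have h1 : ∀ i j, fderiv ℂ (fun ξ => ⟪h, (colM L ξ).det ^ m • γ⟫_ℂ) ξ (Pi.single i (η j)) =
      (m * D ^ (m - 1) * c) * ((colM L ξ).adjugate * colM L η) i j := by
    intro i j
    have hd := (colM_an L ξ).differentiableAt.hasFDerivAt
    have h2 : HasFDerivAt (fun ξ => ⟪h, (colM L ξ).det ^ m • γ⟫_ℂ)
        (c • ((m * D ^ (m - 1)) • fderiv ℂ (fun ξ => (colM L ξ).det) ξ)) ξ := by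
      have h3 : (fun ξ => ⟪h, (colM L ξ).det ^ m • γ⟫_ℂ) = fun ξ => c * (colM L ξ).det ^ m := by
        funext x
        rw [inner_smul_right, mul_comm]
      rw [h3]
      have h4 := (hd.pow m).const_mul c
      refine h4.congr_fderiv ?_
      simp [hD]
    rw [h2.fderiv]
    simp only [smul_apply, colM_fderiv, smul_eq_mul]
    ring
  have h5 : (Matrix.of fun i j => fderiv ℂ (fun ξ => ⟪h, (colM L ξ).det ^ m • γ⟫_ℂ) ξ
      (Pi.single i (η j))) = (m * D ^ (m - 1) * c) • ((colM L ξ).adjugate * colM L η) := by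
    ext i j
    rw [Matrix.of_apply, h1, Matrix.smul_apply, smul_eq_mul]
  show _ • ((colM L η).det ^ m • γ) = _ • (D ^ m • γ)
  rw [h5, Matrix.det_smul, Matrix.det_mul, Matrix.det_adjugate, Fintype.card_fin, smul_smul,
    smul_smul, inner_smul_right, ← hD, ← hc]
  congr 1
  obtain ⟨R', rfl⟩ : ∃ R', R = R' + 1 := ⟨R - 1, by omega⟩
  obtain ⟨m', rfl⟩ : ∃ m', m = m' + 1 := ⟨m - 1, by omega⟩
  simp only [Nat.add_sub_cancel]
  ring

/-- change of coordinates -/
lemma dec_comp {V : (Fin R → Cm n) → H} (T : Cm n →L[ℂ] Cm n) (hV : ∀ ξ, DifferentiableAt ℂ V ξ)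
    (h : DecId n R m V) : DecId n R m fun ξ => V fun i => T (ξ i) := by
  intro a ξ η
  set T' : (Fin R → Cm n) →L[ℂ] (Fin R → Cm n) := ContinuousLinearMap.pi fun i =>
    T.comp (ContinuousLinearMap.proj i) with hT'
  have h1 : ∀ i j, fderiv ℂ (fun ξ : Fin R → Cm n => ⟪a, V fun i => T (ξ i)⟫_ℂ) ξ
      (Pi.single i (η j)) =
      fderiv ℂ (fun ξ => ⟪a, V ξ⟫_ℂ) (fun i => T (ξ i)) (Pi.single i (T (η j))) := by
    intro i j
    have h2 : DifferentiableAt ℂ (fun ξ => ⟪a, V ξ⟫_ℂ) (T' ξ) :=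
      ((innerSL ℂ a).differentiableAt).comp _ (hV _)
    have h3 : HasFDerivAt (fun ξ : Fin R → Cm n => ⟪a, V fun i => T (ξ i)⟫_ℂ)
        ((fderiv ℂ (fun ξ => ⟪a, V ξ⟫_ℂ) (T' ξ)).comp T') ξ :=
      h2.hasFDerivAt.comp ξ T'.hasFDerivAt
    rw [h3.fderiv]
    show fderiv ℂ (fun ξ => ⟪a, V ξ⟫_ℂ) (T' ξ) (T' (Pi.single i (η j))) = _
    congr 1
    ext k : 1
    show T ((Pi.single i (η j) : Fin R → Cm n) k) = (Pi.single i (T (η j)) : Fin R → Cm n) k
    by_cases hk : k = i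
    · subst hk; simp
    · simp [hk]
  have h4 := h a (fun i => T (ξ i)) (fun i => T (η i))
  simp only [h1]
  exact h4

end

end Vale.Agent.P284.H335
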