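import Mathlib.Analysis.Matrix.PosDef
import Mathlib.Analysis.Matrix.Order
import Mathlib.Analysis.Complex.Basic
import Mathlib.Tactic

/-!
# P284 (helper335): Cauchy-Schwarz for `q`-vectors

`|det (J ξ)|² ≤ q! det (J̄ W⁻¹ Jᵀ) ∏ ⟨W ξ_j, ξ_j⟩`.
-/

open Finset Matrix
open scoped ComplexOrder ComplexConjugate

noncomputable section

namespace Vale.Agent.P284.H335

variable {n q : ℕ}

theorem det_mul_sum (B : Matrix (Fin q) (Fin n) ℂ) (N : Matrix (Fin n) (Fin q) ℂ) :
    ∑ L : Fin q → Fin n, (B.submatrix id L).det * ∏ c, N (L c) c = (B * N).det := by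
  rw [Matrix.det_apply']
  have h1 : ∀ σ : Equiv.Perm (Fin q), ∏ c, (B * N) (σ c) c =
      ∑ L : Fin q → Fin n, ∏ c, B (σ c) (L c) * N (L c) c := by
    intro σ
    simp only [Matrix.mul_apply]
    rw [Finset.prod_univ_sum, Fintype.piFinset_univ]
  simp only [h1, Finset.mul_sum]
  rw [Finset.sum_comm]
  refine Finset.sum_congr rfl fun L _ => ?_
  rw [Matrix.det_apply', Finset.sum_mul]
  refine Finset.sum_congr rfl fun σ _ => ?_
  simp only [Matrix.submatrix_apply, id, Finset.prod_mul_distrib]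
  ring

/-- Cauchy-Binet -/
theorem sum_sq (B : Matrix (Fin q) (Fin n) ℂ) :
    ∑ L : Fin q → Fin n, (B.submatrix id L).det * (starRingEnd ℂ) (B.submatrix id L).det =
      (q.factorial : ℂ) * (B * B.conjTranspose).det := by
  have h3 : ∀ L : Fin q → Fin n, (B.submatrix id L).det * (starRingEnd ℂ) (B.submatrix id L).det =
      ∑ σ : Equiv.Perm (Fin q), ((Equiv.Perm.sign σ : ℤ) : ℂ) *
        ((B.submatrix id L).det * ∏ c, (Matrix.of fun k c => B.conjTranspose k (σ c) :
          Matrix (Fin n) (Fin q) ℂ) (L c) c) := by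
    intro L
    rw [Matrix.det_apply' (B.submatrix id L), map_sum, Finset.mul_sum]
    refine Finset.sum_congr rfl fun σ _ => ?_
    rw [map_mul, map_prod]
    simp only [Matrix.submatrix_apply, id, Matrix.of_apply, Matrix.conjTranspose_apply,
      map_intCast, RCLike.star_def]
    ring
  rw [Finset.sum_congr rfl fun L _ => h3 L, Finset.sum_comm]
  have h4 : ∀ σ : Equiv.Perm (Fin q), ∑ L : Fin q → Fin n, ((Equiv.Perm.sign σ : ℤ) : ℂ) *
        ((B.submatrix id L).det * ∏ c, (Matrix.of fun k c => B.conjTranspose k (σ c) :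
          Matrix (Fin n) (Fin q) ℂ) (L c) c) = (B * B.conjTranspose).det := by
    intro σ
    rw [← Finset.mul_sum, det_mul_sum]
    have h5 : B * (Matrix.of fun k c => B.conjTranspose k (σ c) :
        Matrix (Fin n) (Fin q) ℂ) = (B * B.conjTranspose).submatrix id σ := by
      ext a c
      simp [Matrix.mul_apply]
    rw [h5, Matrix.det_permute', ← mul_assoc]
    have h6 : ((Equiv.Perm.sign σ : ℤ) : ℂ) * ((Equiv.Perm.sign σ : ℤ) : ℂ) = 1 := by
      rcases Int.units_eq_one_or (Equiv.Perm.sign σ) with h | h <;> simp [h]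
    rw [h6, one_mul]
  rw [Finset.sum_congr rfl fun σ _ => h4 σ, Finset.sum_const, Finset.card_univ, Fintype.card_perm,
    Fintype.card_fin, nsmul_eq_mul]

theorem sum_norm_sq (B : Matrix (Fin q) (Fin n) ℂ) :
    ∑ L : Fin q → Fin n, ‖(B.submatrix id L).det‖ ^ 2 =
      q.factorial * (B * B.conjTranspose).det.re := by
  have h1 := congrArg Complex.re (sum_sq B)
  rw [Complex.re_sum] at h1
  have h2 : ∀ L : Fin q → Fin n, ((B.submatrix id L).det *
      (starRingEnd ℂ) (B.submatrix id L).det).re = ‖(B.submatrix id L).det‖ ^ 2 := by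
    intro L
    rw [Complex.mul_conj, Complex.ofReal_re, Complex.normSq_eq_norm_sq]
  simp only [h2] at h1
  rw [h1]
  simp

/-- Cauchy-Schwarz for the Euclidean metric. -/
theorem det_mul_le (B : Matrix (Fin q) (Fin n) ℂ) (N : Matrix (Fin n) (Fin q) ℂ) :
    ‖(B * N).det‖ ^ 2 ≤ q.factorial * (B * B.conjTranspose).det.re *
      ∏ c, ∑ l, ‖N l c‖ ^ 2 := by
  rw [← det_mul_sum, ← sum_norm_sq]
  have h1 : ∏ c, ∑ l, ‖N l c‖ ^ 2 = ∑ L : Fin q → Fin n, ‖∏ c, N (L c) c‖ ^ 2 := by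
    rw [Finset.prod_univ_sum, Fintype.piFinset_univ]
    refine Finset.sum_congr rfl fun L _ => ?_
    rw [norm_prod, Finset.prod_pow]
  rw [h1]
  calc ‖∑ L : Fin q → Fin n, (B.submatrix id L).det * ∏ c, N (L c) c‖ ^ 2
      ≤ (∑ L : Fin q → Fin n, ‖(B.submatrix id L).det‖ * ‖∏ c, N (L c) c‖) ^ 2 := by
        gcongr
        refine (norm_sum_le _ _).trans (le_of_eq ?_)
        refine Finset.sum_congr rfl fun L _ => norm_mul _ _
    _ ≤ _ := Finset.sum_mul_sq_le_sq_mul_sq _ _ _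

/-- **Cauchy-Schwarz for `q`-vectors** (metric form). -/
theorem gram_le (J : Matrix (Fin q) (Fin n) ℂ) {W : Matrix (Fin n) (Fin n) ℂ} (hW : W.PosDef)
    (ξ : Fin q → Fin n → ℂ) {lam : ℝ}
    (hl : ∀ v : Fin n → ℂ, (∑ j, ∑ k, W j k * v j * conj (v k)).re ≤ lam * ∑ j, ‖v j‖ ^ 2) :
    0 ≤ (J.map (starRingEnd ℂ) * W⁻¹ * J.transpose).det.re ∧
    ‖(Matrix.of fun i j => ∑ l, J i l * ξ j l).det‖ ^ 2 ≤
      q.factorial * (J.map (starRingEnd ℂ) * W⁻¹ * J.transpose).det.re *
        ∏ j, (lam * ∑ l, ‖ξ j l‖ ^ 2) := by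
  have hstar : ∃ Q : Matrix (Fin n) (Fin n) ℂ, W = Q.conjTranspose * Q := by
    open scoped MatrixOrder in
    exact CStarAlgebra.nonneg_iff_eq_star_mul_self.mp hW.posSemidef.nonneg
  obtain ⟨Q, hQ⟩ := hstar
  have hdet : W.det ≠ 0 := hW.det_pos.ne'
  have hQd : IsUnit Q.det := by
    rw [isUnit_iff_ne_zero]
    intro h0
    rw [hQ, Matrix.det_mul, h0, mul_zero] at hdet
    exact hdet rfl
  have hQc : IsUnit Q.conjTranspose.det := by
    rw [Matrix.det_conjTranspose]
    exact hQd.star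
  set B : Matrix (Fin q) (Fin n) ℂ := J.map (starRingEnd ℂ) * Q⁻¹ with hB
  have hJc : (J.map (starRingEnd ℂ)).conjTranspose = J.transpose := by
    ext i j
    simp [Matrix.conjTranspose_apply]
  have hBB : B * B.conjTranspose = J.map (starRingEnd ℂ) * W⁻¹ * J.transpose := by
    rw [hB, Matrix.conjTranspose_mul, hJc, hQ, Matrix.mul_inv_rev, Matrix.conjTranspose_nonsing_inv]
    simp only [Matrix.mul_assoc]
  set N : Matrix (Fin n) (Fin q) ℂ := Q * Matrix.of fun l j => (starRingEnd ℂ) (ξ j l) with hN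
  have hBN : (B * N).det = (starRingEnd ℂ) (Matrix.of fun i j => ∑ l, J i l * ξ j l).det := by
    have h1 : B * N = (Matrix.of fun i j => ∑ l, J i l * ξ j l).map (starRingEnd ℂ) := by
      rw [hB, hN, Matrix.mul_assoc, ← Matrix.mul_assoc Q⁻¹, Matrix.nonsing_inv_mul _ hQd,
        Matrix.one_mul]
      ext i j
      simp [Matrix.mul_apply]
    rw [h1, RingHom.map_det]
    rfl
  have hnn : 0 ≤ (B * B.conjTranspose).det.re := by
    have h1 := sum_norm_sq B
    have h2 : (0 : ℝ) < q.factorial := by exact_mod_cast q.factorial_pos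
    have h3 : 0 ≤ ∑ L : Fin q → Fin n, ‖(B.submatrix id L).det‖ ^ 2 :=
      Finset.sum_nonneg fun _ _ => by positivity
    rw [h1] at h3
    exact nonneg_of_mul_nonneg_right h3 h2
  have hNl : ∀ j, ∑ l, ‖N l j‖ ^ 2 ≤ lam * ∑ l, ‖ξ j l‖ ^ 2 := by
    intro j
    refine le_trans (le_of_eq ?_) (hl (ξ j))
    have h1 : ∀ a b, W a b = ∑ l, (starRingEnd ℂ) (Q l a) * Q l b := by
      intro a b
      rw [hQ, Matrix.mul_apply]
      rfl
    have h2 : ∀ l, N l j = ∑ a, Q l a * (starRingEnd ℂ) (ξ j a) := by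
      intro l
      rw [hN, Matrix.mul_apply]
      rfl
    have h3 : (∑ a, ∑ b, W a b * ξ j a * (starRingEnd ℂ) (ξ j b)) =
        ∑ l, ((‖N l j‖ ^ 2 : ℝ) : ℂ) := by
      have h4 : ∀ l, ((‖N l j‖ ^ 2 : ℝ) : ℂ) = ∑ a, ∑ b, (starRingEnd ℂ) (Q l a) * Q l b *
          ξ j a * (starRingEnd ℂ) (ξ j b) := by
        intro l
        rw [← Complex.normSq_eq_norm_sq, ← Complex.mul_conj, h2, map_sum, mul_comm,
          Finset.sum_mul_sum]
        refine Finset.sum_congr rfl fun a _ => Finset.sum_congr rfl fun b _ => ?_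
        rw [map_mul, Complex.conj_conj]
        ring
      simp only [h4, h1, Finset.sum_mul]
      rw [Finset.sum_comm]
      rw [Finset.sum_comm' (s := Finset.univ) (t := fun _ => Finset.univ)
        (s' := fun _ => Finset.univ) (t' := Finset.univ) (by simp)]
      conv_rhs => rw [Finset.sum_comm]
      refine Finset.sum_congr rfl fun a _ => ?_
      conv_rhs => rw [Finset.sum_comm]
    rw [h3, Complex.re_sum]
    rfl
  rw [← hBB]
  refine ⟨hnn, ?_⟩
  have h5 := det_mul_le B N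
  rw [hBN, RCLike.norm_conj] at h5
  refine h5.trans ?_
  have h6 : 0 ≤ (q.factorial : ℝ) * (B * B.conjTranspose).det.re := by positivity
  exact mul_le_mul_of_nonneg_left (Finset.prod_le_prod (fun j _ => by positivity)
    fun j _ => hNl j) h6

end Vale.Agent.P284.H335
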