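import Vale.Agent.P284.H661.HaarS
import Vale.Agent.P284.H494.TailS
import Vale.Agent.P284.H35.Stk
import Vale.Agent.P272.K.Inv.Chart
import Vale.Agent.P284.H335.GramLe

/-!
# P284 (helper335), push-forward = Haar: from the level of `Coc` to the covering space
-/

open scoped Manifold ContDiff Topology ENNReal ComplexConjugate ComplexOrder
open Filter Set Metric MeasureTheory

noncomputable section

namespace Vale.Agent.P284.H335

open Vale.Agent.P272.K Vale.Agent.P284.H248 Vale.Agent.P284.H894 Vale.Agent.P284.H894.G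
  Vale.Agent.P284.H894.V Vale.Agent.P284.H894.W Vale.Agent.P284.H494 Vale.Agent.P284.H66.S7
  Vale.Agent.P284.H661 Vale.Agent.P284.H35.W Vale.Agent.P284.H35 Vale.Agent.P284.H639
  Vale.Agent.P284.H639.V Vale.Agent.P284.H446.V Vale.Agent.P284.H678

/-- **Push-forward ≤ Haar**, on the covering space. -/
def PushStmt : Prop :=
  ∀ (n q : ℕ) (X : Type) [TopologicalSpace X] [T2Space X] [CompactSpace X] [ConnectedSpace X]
    [ChartedSpace (Cm n) X] [IsManifold 𝓘(ℂ, Cm n) ω X]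
    (w : Chart n X → Cm n → Matrix (Fin n) (Fin n) ℂ), IsKahler w →
    ∀ (E Γ : Type) [TopologicalSpace E] [ConnectedSpace E] [Group Γ] [MulAction Γ E]
    (p : E → X), IsGalois Γ p →
    ∀ (F : E → Cm q) (c : Γ → Cm q), Per p w F c →
    ∀ (y : E) (e : Chart n X) (f : Cm n → Cm q), At e (p y) → AnalyticAt ℂ f (e (p y)) →
      (∀ᶠ y' in 𝓝 y, F y' = f (e (p y'))) →
    ∃ V ∈ 𝓝 (e (p y)), ∃ C : ℝ≥0∞, C ≠ ⊤ ∧ ∀ s : Cm q → ℝ≥0∞, Measurable s →
      ∀ ξ : Fin q → Cm n,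
      ∫⁻ z in V, s (f z) * ‖(Matrix.of fun i j => fderiv ℂ f z (ξ j) i).det‖ₑ ^ 2 ≤
        C * (∏ j, ‖ξ j‖ₑ ^ 2) * ∫⁻ t, s t

/-- the determinant in terms of the Jacobian matrix, and the pointwise inequality -/
theorem det_le_dJ {n q : ℕ} {fa : Cm n → Cm q} {W : Matrix (Fin n) (Fin n) ℂ} (hW : W.PosDef)
    {z : Cm n} (hfa : DifferentiableAt ℂ fa z) {lam : ℝ} (hlam : 0 ≤ lam)
    (hl : ∀ v : Cm n, (∑ j, ∑ k, W j k * v j * conj (v k)).re ≤ lam * ∑ j, ‖v j‖ ^ 2)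
    (η : Fin q → Cm n) :
    0 ≤ dJ fa W z ∧ ‖(Matrix.of fun i j => fderiv ℂ fa z (η j) i).det‖ ^ 2 ≤
      q.factorial * (lam * n) ^ q * dJ fa W z * ∏ j, ‖η j‖ ^ 2 := by
  have h1 : (Matrix.of fun i j => fderiv ℂ fa z (η j) i) =
      Matrix.of fun i j => ∑ l, JF fa z i l * η j l := by
    ext i j
    simp only [Matrix.of_apply, JF]
    have h2 : ∀ l, dz l (fun y => fa y i) z = fderiv ℂ fa z (Pi.single l 1) i := by
      intro l
      have h3 : DifferentiableAt ℂ (fun y => fa y i) z := differentiableAt_pi.1 hfa i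
      rw [INT.dz_of_holo h3]
      have h4 : fderiv ℂ (fun y => fa y i) z = (ContinuousLinearMap.proj i).comp (fderiv ℂ fa z) :=
        (hasFDerivAt_pi'.1 hfa.hasFDerivAt i).fderiv
      rw [h4]
      rfl
    simp only [h2]
    have h5 : fderiv ℂ fa z (η j) = ∑ l, η j l • fderiv ℂ fa z (Pi.single l 1) := by
      conv_lhs => rw [← Finset.univ_sum_single (η j)]
      rw [map_sum]
      refine Finset.sum_congr rfl fun l _ => ?_
      rw [← map_smul]
      congr 1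
      rw [← Pi.single_smul, smul_eq_mul, mul_one]
    rw [h5, Finset.sum_apply]
    refine Finset.sum_congr rfl fun l _ => ?_
    rw [Pi.smul_apply, smul_eq_mul, mul_comm]
  obtain ⟨h6, h7⟩ := gram_le (JF fa z) hW η hl
  refine ⟨h6, ?_⟩
  rw [h1]
  refine h7.trans ?_
  have h8 : ∏ j, (lam * ∑ l, ‖η j l‖ ^ 2) ≤ ∏ j, ((lam * n) * ‖η j‖ ^ 2) := by
    refine Finset.prod_le_prod (fun j _ => by positivity) fun j _ => ?_
    rw [mul_assoc]
    refine mul_le_mul_of_nonneg_left ?_ hlam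
    calc ∑ l, ‖η j l‖ ^ 2 ≤ ∑ _l : Fin n, ‖η j‖ ^ 2 := by
          refine Finset.sum_le_sum fun l _ => ?_
          have := norm_le_pi_norm (η j) l
          gcongr
      _ = n * ‖η j‖ ^ 2 := by simp
  have h9 : 0 ≤ (q.factorial : ℝ) * dJ fa W z := mul_nonneg (by positivity) h6
  calc (q.factorial : ℝ) * dJ fa W z * ∏ j, (lam * ∑ l, ‖η j l‖ ^ 2)
      ≤ (q.factorial : ℝ) * dJ fa W z * ∏ j, ((lam * n) * ‖η j‖ ^ 2) :=
        mul_le_mul_of_nonneg_left h8 h9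
    _ = _ := by
        rw [Finset.prod_mul_distrib, Finset.prod_const, Finset.card_univ, Fintype.card_fin]
        ring

/-- the real inequality behind the pointwise bound -/
theorem real_bd {fac L b dt dj Pi dd δ vl lam : ℝ} (hfac : 0 ≤ fac) (hL : 0 ≤ L) (hb : 0 ≤ b)
    (hPi : 0 ≤ Pi) (hdj : 0 ≤ dj) (hδ : 0 < δ) (hdd : δ ≤ dd) (hlam : 0 < lam) (hvl : lam ≤ vl)
    (h : dt ≤ fac * L * dj * (b * Pi)) :
    dt ≤ fac * L * b / (lam * δ) * Pi * (dd * (dj * vl)) := by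
  have h0 : lam * δ ≤ vl * dd := mul_le_mul hvl hdd hδ.le (hlam.le.trans hvl)
  have h1 : 0 < lam * δ := mul_pos hlam hδ
  have h2 : 1 ≤ vl * dd / (lam * δ) := (one_le_div h1).2 h0
  have h3 : 0 ≤ fac * L * dj * (b * Pi) := by positivity
  calc dt ≤ fac * L * dj * (b * Pi) * 1 := by rw [mul_one]; exact h
    _ ≤ fac * L * dj * (b * Pi) * (vl * dd / (lam * δ)) := mul_le_mul_of_nonneg_left h2 h3
    _ = _ := by ring

/-- the same with `ℝ≥0∞` -/
theorem enn_bd {q n : ℕ} {M dt dj dd vl : ℝ} (ξ : Fin q → Cm n) (s : ℝ≥0∞) (hM : 0 ≤ M)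
    (hdd : 0 ≤ dd) (h : dt ≤ M * (∏ j, ‖ξ j‖ ^ 2) * (dd * (dj * vl))) :
    s * ENNReal.ofReal dt ≤
      ENNReal.ofReal M * (∏ j, ‖ξ j‖ₑ ^ 2) * (ENNReal.ofReal dd * (s * ENNReal.ofReal (dj * vl))) := by
  have e2 : (∏ j, ‖ξ j‖ₑ ^ 2) = ENNReal.ofReal (∏ j, ‖ξ j‖ ^ 2) := by
    rw [ENNReal.ofReal_prod_of_nonneg fun j _ => by positivity]
    refine Finset.prod_congr rfl fun j _ => ?_
    rw [← ofReal_norm, ENNReal.ofReal_pow (norm_nonneg _)]
  have e3 : ENNReal.ofReal M * ENNReal.ofReal (∏ j, ‖ξ j‖ ^ 2) *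
      (ENNReal.ofReal dd * (s * ENNReal.ofReal (dj * vl))) =
      s * ENNReal.ofReal (M * (∏ j, ‖ξ j‖ ^ 2) * (dd * (dj * vl))) := by
    have h1 : 0 ≤ M * ∏ j, ‖ξ j‖ ^ 2 := by positivity
    rw [ENNReal.ofReal_mul (p := M * ∏ j, ‖ξ j‖ ^ 2) h1, ENNReal.ofReal_mul (p := M) hM,
      ENNReal.ofReal_mul (p := dd) hdd]
    ring
  rw [e2, e3]
  gcongr

/-- the product bound -/
theorem prod_bd {q n : ℕ} {B : ℝ} (D : Cm n →L[ℂ] Cm n) (hD : ‖D‖ ≤ B) (ξ : Fin q → Cm n) :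
    ∏ j, ‖D (ξ j)‖ ^ 2 ≤ (B ^ 2) ^ q * ∏ j, ‖ξ j‖ ^ 2 := by
  have hB : 0 ≤ B := (norm_nonneg _).trans hD
  have h5 : (B ^ 2) ^ q * ∏ j, ‖ξ j‖ ^ 2 = ∏ j : Fin q, (B * ‖ξ j‖) ^ 2 := by
    simp only [mul_pow, Finset.prod_mul_distrib, Finset.prod_const, Finset.card_univ,
      Fintype.card_fin]
  rw [h5]
  refine Finset.prod_le_prod (fun j _ => by positivity) fun j _ => ?_
  have h6 : ‖D (ξ j)‖ ≤ B * ‖ξ j‖ :=
    (D.le_opNorm _).trans (mul_le_mul_of_nonneg_right hD (norm_nonneg _))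
  gcongr

/-- **The pointwise bound**: `f = fa ∘ T` near `z`. -/
theorem pt_bd {n q : ℕ} {f fa : Cm n → Cm q} {T : Cm n → Cm n} {z : Cm n}
    {W : Matrix (Fin n) (Fin n) ℂ} {Lam B δ lam vl : ℝ}
    (g4 : ∀ᶠ z' in 𝓝 z, f z' = fa (T z')) (g5 : DifferentiableAt ℂ T z)
    (hfad : DifferentiableAt ℂ fa (T z)) (g1 : ‖fderiv ℂ T z‖ ≤ B)
    (hδ : 0 < δ) (g2 : δ ≤ |(fderiv ℝ T z).det|) (hpos : W.PosDef) (hLam0 : 0 ≤ Lam)
    (hup : ∀ v : Cm n, (∑ j, ∑ k, W j k * v j * conj (v k)).re ≤ Lam * ∑ j, ‖v j‖ ^ 2)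
    (hlam : 0 < lam) (hvl : lam ≤ vl) (s : Cm q → ℝ≥0∞) (ξ : Fin q → Cm n) :
    s (f z) * ‖(Matrix.of fun i j => fderiv ℂ f z (ξ j) i).det‖ₑ ^ 2 ≤
      ENNReal.ofReal (q.factorial * (Lam * n) ^ q * (B ^ 2) ^ q / (lam * δ)) *
        (∏ j, ‖ξ j‖ₑ ^ 2) * (ENNReal.ofReal |(fderiv ℝ T z).det| *
        (s (fa (T z)) * ENNReal.ofReal (dJ fa W (T z) * vl))) := by
  have hder : fderiv ℂ f z = (fderiv ℂ fa (T z)).comp (fderiv ℂ T z) := by
    have h5 : f =ᶠ[𝓝 z] fun z' => fa (T z') := g4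
    rw [h5.fderiv_eq]
    exact fderiv_fun_comp z hfad g5
  obtain ⟨k1, k2⟩ := det_le_dJ (fa := fa) hpos hfad hLam0 hup
    (fun j => fderiv ℂ T z (ξ j))
  have hB : 0 ≤ B := (norm_nonneg _).trans g1
  have h6 : ‖(Matrix.of fun i j => fderiv ℂ f z (ξ j) i).det‖ ^ 2 =
      ‖(Matrix.of fun i j => fderiv ℂ fa (T z) (fderiv ℂ T z (ξ j)) i).det‖ ^ 2 := by
    rw [hder]
    rfl
  have hC0 : 0 ≤ (q.factorial : ℝ) * (Lam * n) ^ q * dJ fa W (T z) := by positivity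
  have h5 : ‖(Matrix.of fun i j => fderiv ℂ f z (ξ j) i).det‖ ^ 2 ≤
      q.factorial * (Lam * n) ^ q * dJ fa W (T z) * ((B ^ 2) ^ q * ∏ j, ‖ξ j‖ ^ 2) := by
    rw [h6]
    exact k2.trans (mul_le_mul_of_nonneg_left (prod_bd _ g1 ξ) hC0)
  have hreal := real_bd (by positivity) (by positivity) (by positivity) (by positivity) k1 hδ g2
    hlam hvl h5
  have e1 : ‖(Matrix.of fun i j => fderiv ℂ f z (ξ j) i).det‖ₑ ^ 2 =
      ENNReal.ofReal (‖(Matrix.of fun i j => fderiv ℂ f z (ξ j) i).det‖ ^ 2) := by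
    rw [← ofReal_norm, ENNReal.ofReal_pow (norm_nonneg _)]
  rw [e1, show f z = fa (T z) from g4.self_of_nhds]
  exact enn_bd ξ _ (by positivity) (abs_nonneg _) hreal

theorem push_of (hHaar : HaarCocStmt) : PushStmt := by
  intro n q X _ _ _ _ _ _ w hw E Γ _ _ _ _ p hG F c hper y e f he hf hFf
  obtain ⟨P, K, σ, hσ, hπ, hK⟩ := exists_pieces (n := n) hG
  set C : Coc n Γ := mkCoc P K with hC
  obtain ⟨Kc⟩ := exists_KM P K hw
  obtain ⟨PUc⟩ := exists_PU C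
  obtain ⟨BF, hBF⟩ := hper.hol
  -- one sheet
  have hpσ : ∀ (γ : Γ) (a : P.I), ∀ z ∈ ball (P.c a) (4 * P.r a), p (γ • σ a z) = (P.e a).symm z := by
    intro γ a z hz
    rw [← hπ a z hz]
    exact ((hG.orb _ _).2 ⟨_, rfl⟩).symm
  have hsheet : ∀ (γ : Γ) (a : P.I), ∀ z ∈ ball (P.c a) (4 * P.r a),
      DifferentiableAt ℂ (fun z' => F (γ • σ a z')) z := by
    intro γ a z hz
    have hpy : p (γ • σ a z) = (P.e a).symm z := hpσ γ a z hz
    have hval : P.e a (p (γ • σ a z)) = z := by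
      rw [hpy, (P.e a).right_inv (P.target hz)]
    have hAt : At (P.e a) (p (γ • σ a z)) :=
      ⟨P.mem a, by rw [hpy]; exact (P.e a).map_target (P.target hz)⟩
    obtain ⟨φ, h1, h2, -⟩ := hBF (γ • σ a z) (P.e a) hAt
    rw [hval] at h2
    refine h2.self_of_nhds.congr_of_eventuallyEq ?_
    have hc : ContinuousAt (fun z' => γ • σ a z') z :=
      ContinuousAt.comp (g := fun y => γ • y) (hG.cont γ).continuousAt
        ((hσ a).continuousAt (isOpen_ball.mem_nhds hz))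
    filter_upwards [hc.eventually h1, isOpen_ball.mem_nhds hz] with z' h4 hz'
    rw [h4, hpσ γ a z' hz', (P.e a).right_inv (P.target hz')]
  obtain ⟨A, hA, hpush⟩ := hHaar n Γ C PUc Kc q (fun γ a z => F (γ • σ a z)) c
    (fun γ a z hz => (hsheet γ a z hz).differentiableWithinAt)
    (fun γ a b z hz => by
      show F (γ • σ a z) = F ((γ * K.κ a b z) • σ b (P.T a b z))
      rw [← hK a b z hz, smul_smul])
    (fun g γ a z hz => by
      show F ((g * γ) • σ a z) = _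
      rw [mul_smul, hper.equiv])
    hper.disc
  -- the sheet through `y`
  obtain ⟨γ, a, h1, h2, h3⟩ := exists_sheet2 hG hπ y
  have hra := P.r_pos a
  set z₀ : Cm n := e (p y) with hz₀
  set z₁ : Cm n := P.e a (p y) with hz₁
  have h24 : z₁ ∈ ball (P.c a) (4 * P.r a) := ball_subset_ball (by linarith) h2
  set fa : Cm n → Cm q := fun z => F (γ • σ a z) with hfa
  set T : Cm n → Cm n := fun z => P.e a (e.symm z) with hT
  have hTz : T z₀ = z₁ := by
    show P.e a (e.symm (e (p y))) = P.e a (p y)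
    rw [e.left_inv he.2]
  have hat : At (P.e a) (p y) := ⟨P.mem a, h1⟩
  have hTan : ContDiffAt ℂ ω T z₀ := INT.transition_contDiffAt he hat
  have hTd : DifferentiableAt ℂ T z₀ := hTan.differentiableAt (by simp)
  have hTc : ContinuousAt T z₀ := hTd.continuousAt
  -- the local relation `f = fa ∘ T`
  have hrel : ∀ᶠ z in 𝓝 z₀, f z = fa (T z) := by
    have c1 : ContinuousAt (fun z => γ • σ a (T z)) z₀ := by
      have c2 : ContinuousAt (fun z' => γ • σ a z') (T z₀) := by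
        rw [hTz]
        exact ContinuousAt.comp (g := fun y => γ • y) (hG.cont γ).continuousAt
          ((hσ a).continuousAt (isOpen_ball.mem_nhds h24))
      exact ContinuousAt.comp (g := fun z' => γ • σ a z') (f := T) c2 hTc
    have c3 : (fun z => γ • σ a (T z)) z₀ = y := by
      show γ • σ a (T z₀) = y
      rw [hTz]; exact h3
    have c4 : ∀ᶠ z in 𝓝 z₀, F (γ • σ a (T z)) = f (e (p (γ • σ a (T z)))) := by
      have := c1.eventually (p := fun y' => F y' = f (e (p y'))) (by rw [c3]; exact hFf)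
      exact this
    have c5 : ∀ᶠ z in 𝓝 z₀, T z ∈ ball (P.c a) (4 * P.r a) :=
      hTc.eventually (by rw [hTz]; exact isOpen_ball.mem_nhds h24)
    have c6 : ∀ᶠ z in 𝓝 z₀, z ∈ e.target := e.open_target.mem_nhds (e.map_source he.2)
    have c7 : ∀ᶠ z in 𝓝 z₀, e.symm z ∈ (P.e a).source := by
      have := (e.continuousAt_symm (e.map_source he.2)).eventually
        ((P.e a).open_source.mem_nhds (by rw [e.left_inv he.2]; exact h1))
      exact this
    filter_upwards [c4, c5, c6, c7] with z k4 k5 k6 k7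
    show f z = F (γ • σ a (T z))
    rw [k4, hpσ γ a _ k5, (P.e a).left_inv k7, e.right_inv k6]
  -- bounds near `z₀`
  set Lam : ℝ := max Kc.Lam 0 with hLam
  have hLam0 : 0 ≤ Lam := le_max_right _ _
  have hup : ∀ z ∈ C.Ω a, ∀ v : Cm n, (∑ j, ∑ k, Kc.w a z j k * v j * conj (v k)).re ≤
      Lam * ∑ j, ‖v j‖ ^ 2 := by
    intro z hz v
    refine (Kc.up a z hz v).trans ?_
    exact mul_le_mul_of_nonneg_right (le_max_left _ _) (by positivity)
  set B : ℝ := ‖fderiv ℂ T z₀‖ + 1 with hB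
  have hB0 : 0 < B := by positivity
  have hTan' : AnalyticAt ℂ T z₀ := hTan.analyticAt
  have hTB : ∀ᶠ z in 𝓝 z₀, ‖fderiv ℂ T z‖ ≤ B := by
    have h5 : ContinuousAt (fun z => ‖fderiv ℂ T z‖) z₀ := hTan'.fderiv.continuousAt.norm
    filter_upwards [h5.eventually (gt_mem_nhds (show ‖fderiv ℂ T z₀‖ < B by rw [hB]; linarith))]
      with z hz using hz.le
  have hdetc : ContinuousAt (fun z => |(fderiv ℝ T z).det|) z₀ := by
    have h5 : ContinuousAt (fun z => fderiv ℝ T z) z₀ := by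
      have h6 : ContDiffAt ℝ 1 T z₀ := (hTan.restrict_scalars ℝ).of_le (by exact le_top)
      exact h6.continuousAt_fderiv (by norm_num)
    exact (ContinuousLinearMap.continuous_det.continuousAt.comp h5).abs
  have hdet0 : 0 < |(fderiv ℝ T z₀).det| := by
    have h5 := INT.det_trans he hat
    have h6 : (fderiv ℝ T z₀).det = ‖(jacM e (P.e a) (p y)).det‖ ^ 2 := h5
    rw [h6, abs_of_nonneg (by positivity)]
    exact pow_pos (norm_pos_iff.2 (jacM_det_ne_zero he hat)) 2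
  set δ : ℝ := |(fderiv ℝ T z₀).det| / 2 with hδ
  have hδ0 : 0 < δ := by positivity
  have hdetδ : ∀ᶠ z in 𝓝 z₀, δ ≤ |(fderiv ℝ T z).det| := by
    filter_upwards [hdetc.eventually (lt_mem_nhds (show δ < |(fderiv ℝ T z₀).det| by
      rw [hδ]; linarith))] with z hz using hz.le
  have hVmem : ∀ᶠ z in 𝓝 z₀, T z ∈ C.V a := by
    refine hTc.eventually (isOpen_ball.mem_nhds ?_)
    rw [hTz]
    exact ball_subset_ball (show 2 * P.r a ≤ 3 * P.r a by linarith) h2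
  have hrel' : ∀ᶠ z in 𝓝 z₀, ∀ᶠ z' in 𝓝 z, f z' = fa (T z') := hrel.eventually_nhds
  have hTd' : ∀ᶠ z in 𝓝 z₀, DifferentiableAt ℂ T z :=
    hTan'.eventually_analyticAt.mono fun z hz => hz.differentiableAt
  have hsrc : ∀ᶠ z in 𝓝 z₀, z ∈ (e.symm ≫ₕ P.e a).source := by
    refine (e.symm ≫ₕ P.e a).open_source.mem_nhds ?_
    rw [OpenPartialHomeomorph.trans_source]
    exact ⟨e.map_source he.2, by
      show e.symm (e (p y)) ∈ (P.e a).source
      rw [e.left_inv he.2]; exact h1⟩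
  obtain ⟨ρ, hρ, hball⟩ := Metric.eventually_nhds_iff_ball.1
    (hTB.and (hdetδ.and (hVmem.and (hrel'.and (hTd'.and hsrc)))))
  set V : Set (Cm n) := ball z₀ ρ with hV
  have hVm : MeasurableSet V := measurableSet_ball
  set M : ℝ := q.factorial * (Lam * n) ^ q * (B ^ 2) ^ q / (Kc.lam * δ) with hM
  have hM0 : 0 ≤ M := by have := Kc.lam_pos; positivity
  refine ⟨V, ball_mem_nhds z₀ hρ, ENNReal.ofReal M * A,
    ENNReal.mul_ne_top ENNReal.ofReal_ne_top hA, fun s hs ξ => ?_⟩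
  -- pointwise bound
  have hpt : ∀ z ∈ V, s (f z) * ‖(Matrix.of fun i j => fderiv ℂ f z (ξ j) i).det‖ₑ ^ 2 ≤
      ENNReal.ofReal M * (∏ j, ‖ξ j‖ₑ ^ 2) * (ENNReal.ofReal |(fderiv ℝ T z).det| *
        (s (fa (T z)) * ENNReal.ofReal (dJ fa (Kc.w a (T z)) (T z) * vol (Kc.w a) (T z)))) := by
    intro z hz
    obtain ⟨g1, g2, g3, g4, g5, g6⟩ := hball z hz
    have hTΩ : T z ∈ C.Ω a := ball_subset_ball (show 3 * P.r a ≤ 4 * P.r a by linarith) g3
    exact pt_bd g4 g5 (hsheet γ a (T z) hTΩ) g1 hδ0 g2 ((Kc.ku a).pos (T z) hTΩ) hLam0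
      (hup (T z) hTΩ) Kc.lam_pos (Kc.vol_low a (T z) hTΩ) s ξ
  have hinj : InjOn T V := by
    intro z hz z' hz' h
    exact (e.symm ≫ₕ P.e a).injOn (hball z hz).2.2.2.2.2 (hball z' hz').2.2.2.2.2 h
  have hcov := lintegral_image_eq_lintegral_abs_det_fderiv_mul volume hVm
    (f := T) (f' := fun z => fderiv ℝ T z)
    (fun z hz => ((hball z hz).2.2.2.2.1.restrictScalars ℝ).hasFDerivAt.hasFDerivWithinAt) hinj
    (fun x => s (fa x) * ENNReal.ofReal (dJ fa (Kc.w a x) x * vol (Kc.w a) x))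
  have hsub : T '' V ⊆ C.V a := by
    rintro _ ⟨z, hz, rfl⟩
    exact (hball z hz).2.2.1
  calc ∫⁻ z in V, s (f z) * ‖(Matrix.of fun i j => fderiv ℂ f z (ξ j) i).det‖ₑ ^ 2
      ≤ ∫⁻ z in V, ENNReal.ofReal M * (∏ j, ‖ξ j‖ₑ ^ 2) * (ENNReal.ofReal |(fderiv ℝ T z).det| *
        (s (fa (T z)) * ENNReal.ofReal (dJ fa (Kc.w a (T z)) (T z) * vol (Kc.w a) (T z)))) :=
        setLIntegral_mono' hVm hpt
    _ = ENNReal.ofReal M * (∏ j, ‖ξ j‖ₑ ^ 2) * ∫⁻ z in V, (ENNReal.ofReal |(fderiv ℝ T z).det| *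
        (s (fa (T z)) * ENNReal.ofReal (dJ fa (Kc.w a (T z)) (T z) * vol (Kc.w a) (T z)))) := by
        rw [lintegral_const_mul' _ _ (ENNReal.mul_ne_top ENNReal.ofReal_ne_top
          (ENNReal.prod_ne_top fun j _ => ENNReal.pow_ne_top enorm_ne_top))]
    _ = ENNReal.ofReal M * (∏ j, ‖ξ j‖ₑ ^ 2) * ∫⁻ x in T '' V,
        s (fa x) * ENNReal.ofReal (dJ fa (Kc.w a x) x * vol (Kc.w a) x) := by rw [hcov]
    _ ≤ ENNReal.ofReal M * (∏ j, ‖ξ j‖ₑ ^ 2) * ∫⁻ x in C.V a,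
        s (fa x) * ENNReal.ofReal (dJ fa (Kc.w a x) x * vol (Kc.w a) x) := by
        gcongr
    _ ≤ ENNReal.ofReal M * (∏ j, ‖ξ j‖ₑ ^ 2) * (A * ∫⁻ t, s t) := by
        gcongr
        exact hpush γ a s hs
    _ = _ := by ring

end Vale.Agent.P284.H335
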