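import Vale.Agent.P284.H213.KL.SK1
import Mathlib.Analysis.Analytic.Uniqueness
import Mathlib.LinearAlgebra.Matrix.Rank
import Mathlib.Analysis.InnerProductSpace.GramMatrix

/-!
# P284 (helper335): the span of `g z` and its derivatives; the rank of `i∂∂̄ log ‖g‖²`
-/

open scoped Manifold ContDiff Topology ComplexConjugate ComplexOrder InnerProductSpace
open Filter Set Metric

noncomputable section

namespace Vale.Agent.P284.H335

open Vale.Agent.P272.K Vale.Agent.P284.H213.KL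

section
variable {n : ℕ} {H : Type} [NormedAddCommGroup H] [InnerProductSpace ℂ H]

/-- the span of `g z` and its derivatives -/
def spn (g : Cm n → H) (z : Cm n) : Submodule ℂ H :=
  Submodule.span ℂ {g z} ⊔ LinearMap.range (fderiv ℂ g z : Cm n →ₗ[ℂ] H)

instance (g : Cm n → H) (z : Cm n) : FiniteDimensional ℂ (spn g z) :=
  Submodule.finiteDimensional_sup _ _

lemma mem_spn {g : Cm n → H} {z : Cm n} {x : H} :
    x ∈ spn g z ↔ ∃ (c : ℂ) (ζ : Cm n), x = c • g z + fderiv ℂ g z ζ := by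
  rw [spn, Submodule.mem_sup]
  constructor
  · rintro ⟨a, ha, b, ⟨ζ, rfl⟩, rfl⟩
    obtain ⟨c, rfl⟩ := Submodule.mem_span_singleton.1 ha
    exact ⟨c, ζ, rfl⟩
  · rintro ⟨c, ζ, rfl⟩
    exact ⟨c • g z, Submodule.mem_span_singleton.2 ⟨c, rfl⟩, _, ⟨ζ, rfl⟩, rfl⟩

lemma self_mem_spn (g : Cm n → H) (z : Cm n) : g z ∈ spn g z :=
  mem_spn.2 ⟨1, 0, by simp⟩

lemma fderiv_mem_spn (g : Cm n → H) (z ζ : Cm n) : fderiv ℂ g z ζ ∈ spn g z :=
  mem_spn.2 ⟨0, ζ, by simp⟩

/-- multiplication by a function and composition with a map -/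
lemma spn_le {m : ℕ} {g₁ : Cm n → H} {g₂ : Cm m → H} {f : Cm n → ℂ} {κ : Cm n → Cm m} {z : Cm n}
    (h : g₁ =ᶠ[𝓝 z] fun x => f x • g₂ (κ x)) (hf : DifferentiableAt ℂ f z)
    (hκ : DifferentiableAt ℂ κ z) (hg : DifferentiableAt ℂ g₂ (κ z)) :
    spn g₁ z ≤ spn g₂ (κ z) := by
  intro x hx
  obtain ⟨c, ζ, rfl⟩ := mem_spn.1 hx
  have h1 : g₁ z = f z • g₂ (κ z) := h.self_of_nhds
  have h2 : fderiv ℂ g₁ z ζ = f z • fderiv ℂ g₂ (κ z) (fderiv ℂ κ z ζ) +
      fderiv ℂ f z ζ • g₂ (κ z) := by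
    rw [h.fderiv_eq]
    have h3 : HasFDerivAt (fun x => g₂ (κ x)) ((fderiv ℂ g₂ (κ z)).comp (fderiv ℂ κ z)) z :=
      hg.hasFDerivAt.comp z hκ.hasFDerivAt
    rw [(hf.hasFDerivAt.fun_smul h3).fderiv]
    simp
  rw [h1, h2]
  refine add_mem (Submodule.smul_mem _ _ (Submodule.smul_mem _ _ (self_mem_spn _ _)))
    (add_mem (Submodule.smul_mem _ _ (fderiv_mem_spn _ _ _))
      (Submodule.smul_mem _ _ (self_mem_spn _ _)))

/-- the Gram determinant of linearly independent vectors -/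
lemma gram_ne {k : ℕ} {v : Fin k → H} (hv : LinearIndependent ℂ v) :
    (Matrix.of fun i j => ⟪v i, v j⟫_ℂ).det ≠ 0 := by
  intro h
  obtain ⟨c, hc, h1⟩ := Matrix.exists_mulVec_eq_zero_iff.2 h
  have h2 : ∀ i, ⟪v i, ∑ j, c j • v j⟫_ℂ = 0 := by
    intro i
    have := congrFun h1 i
    rw [inner_sum]
    simp only [inner_smul_right]
    simp only [Matrix.mulVec, dotProduct, Matrix.of_apply, Pi.zero_apply] at this
    rw [← this]
    exact Finset.sum_congr rfl fun j _ => mul_comm _ _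
  have h3 : ⟪∑ j, c j • v j, ∑ j, c j • v j⟫_ℂ = 0 := by
    rw [sum_inner]
    refine Finset.sum_eq_zero fun i _ => ?_
    rw [inner_smul_left, h2, mul_zero]
  have h4 := inner_self_eq_zero.1 h3
  exact hc (funext fun i => (Fintype.linearIndependent_iff.1 hv c h4 i))

lemma det_eq_zero_of {k : ℕ} {V : Submodule ℂ H} [FiniteDimensional ℂ V]
    (hV : Module.finrank ℂ V < k) (u v : Fin k → H) (hv : ∀ i, v i ∈ V) :
    (Matrix.of fun i j => ⟪u i, v j⟫_ℂ).det = 0 := by
  have h1 : ¬ LinearIndependent ℂ v := by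
    intro h
    have h2 : LinearIndependent ℂ (fun i => (⟨v i, hv i⟩ : V)) :=
      LinearIndependent.of_comp V.subtype (by exact h)
    have := h2.fintype_card_le_finrank
    simp at this
    omega
  obtain ⟨c, h2, i, hi⟩ := Fintype.not_linearIndependent_iff.1 h1
  refine Matrix.exists_mulVec_eq_zero_iff.1 ⟨c, fun h => hi (congrFun h i), ?_⟩
  ext j
  simp only [Matrix.mulVec, dotProduct, Matrix.of_apply, Pi.zero_apply]
  have h3 : ⟪u j, ∑ i, c i • v i⟫_ℂ = 0 := by rw [h2, inner_zero_right]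
  rw [inner_sum] at h3
  rw [← h3]
  refine Finset.sum_congr rfl fun i _ => ?_
  rw [inner_smul_right, mul_comm]

/-- if the span is large, some minor is nonzero -/
lemma exists_minor {k : ℕ} {g : Cm n → H} {z : Cm n} (h : k ≤ Module.finrank ℂ (spn g z)) :
    ∃ (c : Fin k → ℂ) (ζ : Fin k → Cm n) (u : Fin k → H),
      (Matrix.of fun i j => ⟪u i, c j • g z + fderiv ℂ g z (ζ j)⟫_ℂ).det ≠ 0 := by
  obtain ⟨v, hv⟩ := exists_linearIndependent_of_le_finrank h
  have h1 : ∀ i, ∃ (c : ℂ) (ζ : Cm n), (v i : H) = c • g z + fderiv ℂ g z ζ := fun i =>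
    mem_spn.1 (v i).2
  choose c ζ hc using h1
  refine ⟨c, ζ, fun i => v i, ?_⟩
  have h2 : LinearIndependent ℂ (fun i => (v i : H)) :=
    hv.map' (spn g z).subtype (Submodule.ker_subtype _)
  have h3 := gram_ne h2
  simpa only [← hc] using h3

lemma an_det {k : ℕ} {F : Type*} [NormedAddCommGroup F] [NormedSpace ℂ F]
    {M : F → Matrix (Fin k) (Fin k) ℂ} {z : F} (h : ∀ i j, AnalyticAt ℂ (fun x => M x i j) z) :
    AnalyticAt ℂ (fun x => (M x).det) z := by
  have h4 : (fun x => (M x).det) = fun y => ∑ σ : Equiv.Perm (Fin k),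
      ((Equiv.Perm.sign σ : ℤ) : ℂ) * ∏ i, M y (σ i) i := by
    funext y
    rw [Matrix.det_apply']
  rw [h4]
  refine Finset.analyticAt_fun_sum _ fun σ _ => ?_
  exact analyticAt_const.mul (Finset.analyticAt_fun_prod _ fun i _ => h _ _)

lemma minor_an [CompleteSpace H] {k : ℕ} {g : Cm n → H} {z : Cm n} (hg : AnalyticAt ℂ g z)
    (c : Fin k → ℂ) (ζ : Fin k → Cm n) (u : Fin k → H) :
    AnalyticAt ℂ (fun x => (Matrix.of fun i j => ⟪u i, c j • g x + fderiv ℂ g x (ζ j)⟫_ℂ).det)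
      z := by
  refine an_det fun i j => ?_
  have h1 : AnalyticAt ℂ (fun x => fderiv ℂ g x (ζ j)) z :=
    ((ContinuousLinearMap.apply ℂ H (ζ j)).analyticAt _).comp hg.fderiv
  have h2 : AnalyticAt ℂ (fun x => c j • g x + fderiv ℂ g x (ζ j)) z :=
    (analyticAt_const.smul hg).add h1
  exact ((innerSL ℂ (u i)).analyticAt _).comp h2

end

section
variable {n : ℕ} {H : Type} [NormedAddCommGroup H] [InnerProductSpace ℂ H] [CompleteSpace H]

open Vale.Agent.P272.K.C2

/-- the rank of `i∂∂̄ log ‖g‖²` -/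
theorem rank_cHess_le {s : ℕ} {g : Cm n → H} {z : Cm n} (hg : AnalyticAt ℂ g z) (h0 : g z ≠ 0)
    (hs : Module.finrank ℂ (spn g z) ≤ s + 1) :
    (cHess (fun x => Real.log (‖g x‖ ^ 2)) z).rank ≤ s := by
  set N : ℝ := ‖g z‖ ^ 2 with hN
  have hN0 : 0 < N := by positivity
  have hgg : ⟪g z, g z⟫_ℂ = (N : ℂ) := (ofReal_normSq _).symm
  -- the projection to the orthogonal complement of `g z`
  set P : H →ₗ[ℂ] H := LinearMap.id -
    ((N : ℂ)⁻¹ • ((innerSL ℂ (g z) : H →L[ℂ] ℂ) : H →ₗ[ℂ] ℂ)).smulRight (g z) with hP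
  have hPx : ∀ x, P x = x - ((N : ℂ)⁻¹ * ⟪g z, x⟫_ℂ) • g z := fun x => by
    simp [hP]
  have hNc : (N : ℂ) ≠ 0 := by exact_mod_cast hN0.ne'
  have hPg : P (g z) = 0 := by
    rw [hPx, hgg, inv_mul_cancel₀ hNc, one_smul, sub_self]
  set D : Fin n → H := fun j => fderiv ℂ g z (Pi.single j 1) with hD
  have hM : ∀ j k, cHess (fun x => Real.log (‖g x‖ ^ 2)) z j k =
      (N : ℂ)⁻¹ * ⟪P (D k), P (D j)⟫_ℂ := by
    intro j k
    rw [cHess_log (u := fun x => ‖g x‖ ^ 2) ((contDiffAt_normSq hg).of_le (by norm_cast)) hN0,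
      cHess_normSqH hg]
    have h1 : (fun y => ((‖g y‖ ^ 2 : ℝ) : ℂ)) = fun y => ⟪g y, g y⟫_ℂ := by
      funext y; exact ofReal_normSq _
    rw [h1, dz_inner_holo hg.differentiableAt hg.differentiableAt,
      dzb_inner_holo hg.differentiableAt hg.differentiableAt, hPx, hPx]
    rw [inner_sub_left, inner_sub_right, inner_sub_right, inner_smul_left, inner_smul_left,
      inner_smul_right, inner_smul_right, hgg, map_mul, map_inv₀, Complex.conj_ofReal,
      inner_conj_symm]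
    simp only [← hN, hD]
    field_simp
    ring
  -- the image of the span
  set V := (spn g z).map P with hV
  have hVs : Module.finrank ℂ V ≤ s := by
    have h1 : Module.finrank ℂ V + 1 ≤ Module.finrank ℂ (spn g z) := by
      have h2 := LinearMap.finrank_range_add_finrank_ker (P.domRestrict (spn g z))
      have h3 : LinearMap.range (P.domRestrict (spn g z)) = V := by
        rw [LinearMap.range_domRestrict]
      have h4 : 1 ≤ Module.finrank ℂ (LinearMap.ker (P.domRestrict (spn g z))) := by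
        rw [Nat.one_le_iff_ne_zero, Ne, Submodule.finrank_eq_zero]
        intro h5
        have h6 : (⟨g z, self_mem_spn g z⟩ : spn g z) ∈ LinearMap.ker (P.domRestrict (spn g z)) := by
          rw [LinearMap.mem_ker, LinearMap.domRestrict_apply]
          exact hPg
        rw [h5, Submodule.mem_bot] at h6
        exact h0 (congrArg Subtype.val h6)
      rw [h3] at h2
      omega
    omega
  have : FiniteDimensional ℂ V := by rw [hV]; infer_instance
  set b := stdOrthonormalBasis ℂ V with hb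
  have hmem : ∀ j, P (D j) ∈ V := fun j => ⟨D j, fderiv_mem_spn _ _ _, rfl⟩
  set A : Matrix (Fin n) (Fin (Module.finrank ℂ V)) ℂ := Matrix.of fun j l =>
    (N : ℂ)⁻¹ * ⟪(b l : H), P (D j)⟫_ℂ with hA
  set B : Matrix (Fin (Module.finrank ℂ V)) (Fin n) ℂ := Matrix.of fun l k =>
    ⟪P (D k), (b l : H)⟫_ℂ with hB
  have hAB : cHess (fun x => Real.log (‖g x‖ ^ 2)) z = A * B := by
    ext j k
    rw [hM, Matrix.mul_apply]
    simp only [hA, hB, Matrix.of_apply]
    have h1 : ⟪P (D k), P (D j)⟫_ℂ = ∑ l, ⟪P (D k), (b l : H)⟫_ℂ * ⟪(b l : H), P (D j)⟫_ℂ := by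
      have := b.sum_inner_mul_inner ⟨P (D k), hmem k⟩ ⟨P (D j), hmem j⟩
      simp only [Submodule.coe_inner] at this
      exact this.symm
    rw [h1, Finset.mul_sum]
    refine Finset.sum_congr rfl fun l _ => ?_
    ring
  rw [hAB]
  refine (Matrix.rank_mul_le_left A B).trans ((Matrix.rank_le_width A).trans ?_)
  exact hVs

end

end Vale.Agent.P284.H335
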